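import Crest.Agent.R17.J.Bin

/-!
Row 17, block J: the sum of the slot amplitudes over one zero bin.

Put `P' = P0 e^{-4/25}`, `σ = min σ₀ (1/(12J))` (so `Z^σ ≤ P' ≤ P0 ≤ Z` for large `Z`).  For `u ∈ A` let
`k u` be the largest `k ≤ 1/e` with `k = 0 ∨ P'^(1/2 + k e) ≤ ‖PP u‖`.  By `PP_triv`, for large `Z`,
`‖PP u‖ < P'^(3/2)`, so `‖PP u‖ ≤ P'^(1/2 + (k+1) e)` (either `k + 1 ≤ 1/e` and maximality, or
`(k+1) e > 1`).  Then `slot_le_PP` gives `amp ≤ (2 P0^(17/50 + (k+1)e) + 1 + Phi^(17/50+e))^J ≤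
4^J Z^((17/50 + k e)/6 + e)`, `CountC` (with `w = k e`, `U = Z^μ`, `P'^C₀ ≤ Z^(C₀/(6J))`) bounds each
fibre, `exp_ineq` adds the exponents, and there are at most `1/e + 1` fibres.
-/

set_option autoImplicit false

namespace Crest.Agent.R17.Jb

open Complex MeasureTheory
open scoped Real

variable {β e : ℝ} {q : O} {η : O → ℂ} {J : ℕ}

theorem am_large {s : ℝ} (hs : 0 < s) (B : ℝ) :
    ∃ C : ℝ, ∀ Z : ℝ, C ≤ Z → B ≤ Z ^ s * Real.exp (-(4 / 25)) :=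
  Filter.eventually_atTop.1
    (((tendsto_rpow_atTop hs).atTop_mul_const (Real.exp_pos _)).eventually_ge_atTop B)

theorem am_le (J : ℕ) {Z : ℝ} (hZ : 0 < Z) : P0 J Z * Real.exp (-(4 / 25)) ≤ P0 J Z :=
  mul_le_of_le_one_right (Real.rpow_nonneg hZ.le _) (Real.exp_le_one_iff.2 (by norm_num))

theorem amp_fibre (c : Ctx β e q η J) : ∃ C : ℝ, ∀ (Z τ : ℝ) (u : O), C ≤ Z →
    ∃ k : ℕ, (k : ℝ) ≤ 1 / e ∧
      ((k : ℝ) * e = 0 ∨ (P0 J Z * Real.exp (-(4 / 25))) ^ (1 / 2 + k * e) ≤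
        ‖PP (rc (one q) u) 1 (P0 J Z * Real.exp (-(4 / 25))) τ‖) ∧
      amp q J e Z u ((17 / 50 : ℝ) + τ * I) ≤ 4 ^ J * Z ^ ((17 / 50 + k * e) / 6 + e) := by
  classical
  have he := c.e_pos
  have he' := c.e_le
  have hJ : (1 : ℝ) ≤ J := by exact_mod_cast c.J_pos
  obtain ⟨C₁, h₁⟩ := slot_le_PP (q := q) c.J_pos he
  obtain ⟨C₂, hC₂, h₂⟩ := PP_triv
  obtain ⟨C₃, h₃⟩ := am_large (s := 1 / (6 * J)) (by positivity) (max 1 (C₂ ^ 2))
  refine ⟨max 1 (max C₁ C₃), fun Z τ u hZ => ?_⟩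
  have hZ1 : 1 ≤ Z := (le_max_left _ _).trans hZ
  have hZ0 : 0 < Z := by linarith
  have s1 := h₁ Z τ u ((le_max_left _ _).trans ((le_max_right _ _).trans hZ))
  have s3 : max 1 (C₂ ^ 2) ≤ P0 J Z * Real.exp (-(4 / 25)) :=
    h₃ Z ((le_max_right _ _).trans ((le_max_right _ _).trans hZ))
  have hPle := am_le J hZ0
  set P := P0 J Z * Real.exp (-(4 / 25)) with hP
  set A := ‖PP (rc (one q) u) 1 P τ‖ with hA
  have P1 : 1 ≤ P := (le_max_left _ _).trans s3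
  have P0' : 0 < P := by linarith
  have hN : A ≤ P ^ (1 / 2 + ((⌊1 / e⌋₊ : ℕ) + 1 : ℝ) * e) := by
    have a1 : C₂ ≤ P ^ (1 / 2 : ℝ) := by
      rw [← Real.sqrt_eq_rpow]
      exact Real.le_sqrt_of_sq_le ((le_max_right _ _).trans s3)
    have a2 : 1 ≤ ((⌊1 / e⌋₊ : ℕ) + 1 : ℝ) * e := by
      rw [← div_le_iff₀ he]; exact (Nat.lt_floor_add_one _).le
    calc A ≤ C₂ * P := h₂ q u P τ P0'
      _ ≤ P ^ (1 / 2 : ℝ) * P ^ (1 : ℝ) := by rw [Real.rpow_one]; gcongr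
      _ = P ^ (1 / 2 + 1 : ℝ) := (Real.rpow_add P0' _ _).symm
      _ ≤ _ := Real.rpow_le_rpow_of_exponent_le P1 (by linarith)
  have hex : ∃ k : ℕ, A ≤ P ^ (1 / 2 + (k + 1 : ℝ) * e) := ⟨_, hN⟩
  have k1 := Nat.find_spec hex
  have k2 : Nat.find hex ≤ ⌊1 / e⌋₊ := Nat.find_min' hex hN
  have k3 : ∀ m, m < Nat.find hex → ¬ A ≤ P ^ (1 / 2 + (m + 1 : ℝ) * e) := fun m => Nat.find_min hex
  generalize Nat.find hex = k at k1 k2 k3
  have k0 : (0 : ℝ) ≤ k * e := by positivity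
  refine ⟨k, (Nat.cast_le.2 k2).trans (Nat.floor_le (by positivity)), ?_, ?_⟩
  · cases k with
    | zero => left; simp
    | succ m => right; push_cast; exact (not_le.1 (k3 m (Nat.lt_succ_self m))).le
  · set W := Z ^ (((17 / 50 + k * e) / 6 + e) / J) with hW
    have hWJ : W ^ J = Z ^ ((17 / 50 + k * e) / 6 + e) := by
      rw [hW, ← Real.rpow_natCast, ← Real.rpow_mul hZ0.le]
      congr 1; field_simp
    have w1 : 1 ≤ W := Real.one_le_rpow hZ1 (by positivity)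
    have hP0 : 0 < P0 J Z := Real.rpow_pos_of_pos hZ0 _
    have w2 : P0 J Z ^ (-(4 / 25) : ℝ) * A ≤ W := by
      calc P0 J Z ^ (-(4 / 25) : ℝ) * A
          ≤ P0 J Z ^ (-(4 / 25) : ℝ) * P0 J Z ^ (1 / 2 + (k + 1 : ℝ) * e) :=
            mul_le_mul_of_nonneg_left
              (k1.trans (Real.rpow_le_rpow P0'.le hPle (by positivity))) (by positivity)
        _ = Z ^ (((17 / 50 + k * e) / 6 + e / 6) / J) := by
            rw [← Real.rpow_add hP0, P0, ← Real.rpow_mul hZ0.le]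
            congr 1; field_simp; ring
        _ ≤ W := Real.rpow_le_rpow_of_exponent_le hZ1
            (div_le_div_of_nonneg_right (by linarith) (by positivity))
    have w3 : Phi J e Z ^ (17 / 50 + e) ≤ W := by
      rw [Phi, ← Real.rpow_mul hZ0.le, div_mul_eq_mul_div]
      refine Real.rpow_le_rpow_of_exponent_le hZ1 (div_le_div_of_nonneg_right ?_ (by positivity))
      nlinarith
    have hre : (((17 / 50 : ℝ) : ℂ) + τ * I).re = 17 / 50 := by simp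
    rw [amp, hre, ← hWJ, ← mul_pow]
    refine pow_le_pow_left₀ (add_nonneg (norm_nonneg _)
      (Real.rpow_nonneg (Real.rpow_nonneg hZ0.le _) _)) ?_ J
    rw [mul_assoc] at s1
    show _ + Phi J e Z ^ (17 / 50 + e) ≤ _
    linarith

theorem amp_sum {C₀ σ₀ : ℝ} (hC₀ : 0 ≤ C₀) (hC : CountC C₀) (c : Ctx β e q η J) (hσ : 0 < σ₀) :
    ∃ C : ℝ, 0 ≤ C ∧ ∀ (Z μ T₁ b τ : ℝ) (A : Finset O), C ≤ Z → σ₀ ≤ μ → μ ≤ 13 / 16 + 3 * e →
    0 ≤ T₁ → T₁ ≤ 2 / e * Real.log Z ^ 2 → 51 / 100 ≤ b → b ≤ β → |τ| ≤ Real.log Z ^ 2 / 4 →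
    (∀ u ∈ A, u ≠ 0 ∧ ¬ Exc q u ∧ nm u ≤ Z ^ μ ∧ Zs q u b e T₁ Z) →
    Z ^ (ex (b + 3 * e) (1 - b - e) (17 / 50) + μ * (b - 21 / 25)) *
        ∑ u ∈ A, amp q J e Z u ((17 / 50 : ℝ) + τ * I) ≤
      C * Z ^ (5 / 3 + (β - 7 / 8) / 2 + C₀ / (6 * J) + (C₀ + 10) * e) := by
  classical
  have he := c.e_pos
  have he' := c.e_le
  have hJ : (1 : ℝ) ≤ J := by exact_mod_cast c.J_pos
  obtain ⟨C₁, h₁⟩ := amp_fibre c
  obtain ⟨C₂, hC₂, h₂⟩ := hC β c.lo.le c.hi c.zf q (min σ₀ (1 / (12 * J))) e c.lev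
    (lt_min hσ (by positivity)) he (by linarith)
  obtain ⟨C₃, h₃⟩ := am_large (s := 1 / (12 * J)) (by positivity) 1
  set N := ⌊1 / e⌋₊ + 1 with hN
  refine ⟨max (max 1 C₁) (max (max C₂ C₃) (N * (C₂ * 4 ^ J))), le_max_of_le_left
    (le_max_of_le_left zero_le_one), fun Z μ T₁ b τ A hZ hμ hμ' hT hT' hb hb' hτ hA => ?_⟩
  have hZ1 : 1 ≤ Z := (le_max_left _ _).trans ((le_max_left _ _).trans hZ)
  have hZ0 : 0 < Z := by linarith
  have z1 : C₁ ≤ Z := (le_max_right _ _).trans ((le_max_left _ _).trans hZ)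
  have z2 : C₂ ≤ Z := (le_max_left _ _).trans ((le_max_left _ _).trans ((le_max_right _ _).trans hZ))
  have z3 : C₃ ≤ Z := (le_max_right _ _).trans ((le_max_left _ _).trans ((le_max_right _ _).trans hZ))
  choose k hk1 hk2 hk3 using fun u => h₁ Z τ u z1
  have hPle := am_le J hZ0
  set P := P0 J Z * Real.exp (-(4 / 25)) with hP
  have hP0 : 0 < P := mul_pos (Real.rpow_pos_of_pos hZ0 _) (Real.exp_pos _)
  have p1 : Z ^ min σ₀ (1 / (12 * J)) ≤ P := by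
    calc Z ^ min σ₀ (1 / (12 * J)) ≤ Z ^ (1 / (12 * J) : ℝ) * 1 := by
          rw [mul_one]; exact Real.rpow_le_rpow_of_exponent_le hZ1 (min_le_right _ _)
      _ ≤ Z ^ (1 / (12 * J) : ℝ) * (Z ^ (1 / (12 * J) : ℝ) * Real.exp (-(4 / 25))) :=
          mul_le_mul_of_nonneg_left (h₃ Z z3) (by positivity)
      _ = P := by
          rw [hP, P0, ← mul_assoc, ← Real.rpow_add hZ0]
          congr 2; field_simp; ring
  have p2 : P ≤ Z := by
    refine hPle.trans ((Real.rpow_le_rpow_of_exponent_le hZ1 ?_).trans_eq (Real.rpow_one Z))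
    rw [div_le_one (by positivity)]; linarith
  have p3 : Z ^ min σ₀ (1 / (12 * J)) ≤ Z ^ μ :=
    Real.rpow_le_rpow_of_exponent_le hZ1 ((min_le_left _ _).trans hμ)
  have μ1 : μ ≤ 1 := by linarith
  have μ0 : 0 ≤ μ := by linarith
  have p4 : Z ^ μ ≤ Z := (Real.rpow_le_rpow_of_exponent_le hZ1 μ1).trans_eq (Real.rpow_one Z)
  have p5 : P ^ C₀ ≤ Z ^ (C₀ / (6 * J)) := by
    refine (Real.rpow_le_rpow hP0.le hPle hC₀).trans_eq ?_
    rw [P0, ← Real.rpow_mul hZ0.le]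
    congr 1; field_simp
  set X := Z ^ (ex (b + 3 * e) (1 - b - e) (17 / 50) + μ * (b - 21 / 25)) with hX
  set Y := Z ^ (5 / 3 + (β - 7 / 8) / 2 + C₀ / (6 * J) + (C₀ + 10) * e) with hY
  have X0 : 0 ≤ X := by positivity
  have Y0 : 0 ≤ Y := by positivity
  have hfib : ∀ j ∈ Finset.range N,
      X * ∑ u ∈ A.filter (fun u => k u = j), amp q J e Z u ((17 / 50 : ℝ) + τ * I) ≤
        C₂ * 4 ^ J * Y := by
    intro j hj
    have j1 : (j : ℝ) * e ≤ 1 := by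
      rw [← le_div_iff₀ he]
      exact (Nat.cast_le.2 (Nat.lt_succ_iff.1 (Finset.mem_range.1 hj))).trans
        (Nat.floor_le (by positivity))
    have j0 : (0 : ℝ) ≤ j * e := by positivity
    have hcard := h₂ Z (Z ^ μ) P T₁ b (j * e) τ (A.filter fun u => k u = j) z2 p1 p2 p3 p4 hT hT' hb
      hb' hτ j0 fun u hu => by
        obtain ⟨hu', rfl⟩ := Finset.mem_filter.1 hu
        obtain ⟨a1, a2, a3, a4⟩ := hA u hu'
        exact ⟨a1, a2, a3, a4, hk2 u⟩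
    have hsum : ∑ u ∈ A.filter (fun u => k u = j), amp q J e Z u ((17 / 50 : ℝ) + τ * I) ≤
        (A.filter fun u => k u = j).card * (4 ^ J * Z ^ ((17 / 50 + j * e) / 6 + e)) := by
      rw [← nsmul_eq_mul]
      refine Finset.sum_le_card_nsmul _ _ _ fun u hu => ?_
      obtain ⟨-, rfl⟩ := Finset.mem_filter.1 hu
      exact hk3 u
    have hexp := exp_ineq c.lo.le c.hi he (by linarith) hb hb' j0 j1 μ0 hμ'
    calc _ ≤ X * ((C₂ * Z ^ e * Z ^ (C₀ / (6 * J)) * (Z ^ μ) ^ (cR β b (j * e) + C₀ * e)) *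
          (4 ^ J * Z ^ ((17 / 50 + j * e) / 6 + e))) := by
          refine mul_le_mul_of_nonneg_left (hsum.trans (mul_le_mul_of_nonneg_right
            (hcard.trans ?_) (by positivity))) X0
          gcongr
      _ = C₂ * 4 ^ J * Z ^ (ex (b + 3 * e) (1 - b - e) (17 / 50) + μ * (b - 21 / 25) + e +
          C₀ / (6 * J) + μ * (cR β b (j * e) + C₀ * e) + ((17 / 50 + j * e) / 6 + e)) := by
          rw [← Real.rpow_mul hZ0.le, Real.rpow_add hZ0 _ ((17 / 50 + j * e) / 6 + e),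
            Real.rpow_add hZ0 _ (μ * (cR β b (j * e) + C₀ * e)), Real.rpow_add hZ0 _ (C₀ / _),
            Real.rpow_add hZ0 (ex (b + 3 * e) (1 - b - e) (17 / 50) + μ * (b - 21 / 25)) e, ← hX]
          ring
      _ ≤ _ := by
          refine mul_le_mul_of_nonneg_left (Real.rpow_le_rpow_of_exponent_le hZ1 ?_) (by positivity)
          have : μ * (C₀ * e) ≤ C₀ * e := mul_le_of_le_one_left (by positivity) μ1
          linarith
  rw [← Finset.sum_fiberwise_of_maps_to (t := Finset.range N) (g := k) fun u _ =>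
    Finset.mem_range.2 (Nat.lt_succ_iff.2 (Nat.le_floor (hk1 u))), Finset.mul_sum]
  refine (Finset.sum_le_card_nsmul _ _ _ hfib).trans ?_
  rw [Finset.card_range, nsmul_eq_mul, ← mul_assoc]
  exact mul_le_mul_of_nonneg_right ((le_max_right _ _).trans (le_max_right _ _)) Y0

end Crest.Agent.R17.Jb
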