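import Crest.Agent.R17.J.Defs
import Crest.Agent.R17.A.All
import Crest.Agent.R17.C.All

/-! Row 17, block J: arithmetic facts used by J (mostly wrappers of the block A API). -/

set_option autoImplicit false

namespace Crest.Agent.R17.Jb

open Complex MeasureTheory
open scoped Real

theorem ball_finite (X : ℝ) : {u : O | nm u ≤ X}.Finite := by
  exact finite_nm_le X

theorem nm_mul' (a b : O) : nm (a * b) = nm a * nm b := by
  exact nm_mul a b

theorem nm_one' : nm 1 = 1 := by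
  exact nm_unit isUnit_one

theorem nm_pow' (a : O) (k : ℕ) : nm (a ^ k) = nm a ^ k := by
  exact nm_pow a k

theorem nm_nonneg' (a : O) : 0 ≤ nm a := by
  exact nm_nonneg a

theorem exists_rad {u : O} (hu : u ≠ 0) : ∃ r, IsRad r u ∧ 1 ≤ nm r ∧ nm r ≤ nm u := by
  classical
  let _ : StrongNormalizationMonoid O := UniqueFactorizationMonoid.strongNormalizationMonoid
  have hd : UniqueFactorizationMonoid.radical u ∣ u := UniqueFactorizationMonoid.radical_dvd_self
  refine ⟨UniqueFactorizationMonoid.radical u, ⟨UniqueFactorizationMonoid.squarefree_radical,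
    fun p hp => ⟨fun h => h.trans hd, fun h => ?_⟩⟩,
    one_le_nm UniqueFactorizationMonoid.radical_ne_zero, nm_le_of_dvd hd hu⟩
  exact (UniqueFactorizationMonoid.dvd_radical_iff_of_irreducible hp.irreducible hu).2 h

theorem norm_sx_le (u n : O) : ‖sx u n‖ ≤ 1 := by
  exact R17.norm_sx_le u n

theorem norm_tw_le {q : O} {ψ : O → ℂ} (hq : Lev q) (hψ : IsTw q ψ) (n : O) : ‖ψ n‖ ≤ 1 := by
  exact hψ.norm_le hq.1 n

theorem isTw_one' (q : O) : IsTw q (one q) := by
  exact isTw_one q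

theorem row_ne_zero {q u : O} (hu : Row q u) : u ≠ 0 := by
  rintro rfl
  exact hu.2 2 prime_two (dvd_zero _)

theorem row_one (q : O) : Row q 1 := by
  exact ⟨isCoprime_one_left, fun p hp h =>
    hp.not_isUnit (isUnit_of_dvd_one ((dvd_pow_self p (by norm_num)).trans h))⟩

/-- `u = s v⁶` with `s ∣ q^k`: `s` is prime to `q`, hence a unit; a prime factor of `v` is excluded
by `Row`; so `u` is a unit and has norm one. -/
theorem row_not_exc {q u : O} (hu : Row q u) (h1 : 1 < nm u) : ¬ Exc q u := by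
  rintro ⟨s, v, k, hs, rfl⟩
  have hv : v ≠ 0 := by
    rintro rfl
    exact row_ne_zero hu (by simp)
  have h2 : IsUnit s :=
    (hu.1.of_mul_left_left.pow_right (n := k)).isUnit_of_dvd' dvd_rfl hs
  have h3 : IsUnit v := by
    by_contra h
    obtain ⟨p, hp, hpv⟩ := WfDvdMonoid.exists_irreducible_factor h hv
    exact hu.2 p hp.prime ((pow_dvd_pow_of_dvd hpv 6).mul_left s)
  rw [nm_unit (h2.mul (h3.pow 6))] at h1
  exact lt_irrefl _ h1

theorem primes_lower {q : O} (hq : q ≠ 0) {ε : ℝ} (hε : 0 < ε) : ∃ c X₀ : ℝ, 1 ≤ c ∧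
    ∀ X : ℝ, X₀ ≤ X → ∃ S : Finset O, X ^ (1 - ε) ≤ (S.card : ℝ) ∧
      ∀ p ∈ S, Prime p ∧ Prim p ∧ IsCoprime p q ∧ X ≤ nm p ∧ nm p ≤ c * X := by
  obtain ⟨c, hc, P₀, h⟩ := exists_many_primes_coprime 1
  obtain ⟨C, hC, h2⟩ := one_add_log_rpow_le 1 (half_pos hε)
  have h3 : Filter.Tendsto (fun X : ℝ => X ^ (ε / 2)) Filter.atTop Filter.atTop :=
    tendsto_rpow_atTop (half_pos hε)
  obtain ⟨X₁, hX₁⟩ := Filter.eventually_atTop.1 (h3.eventually_ge_atTop (C / c))
  refine ⟨2, max (max P₀ X₁) (max (nm q) 2), by norm_num, fun X hX => ?_⟩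
  simp only [max_le_iff] at hX
  obtain ⟨⟨a1, a2⟩, a3, a4⟩ := hX
  obtain ⟨S, hS, hcard⟩ := h X q a1 hq (by rwa [Real.rpow_one])
  refine ⟨S, le_trans ?_ hcard, hS⟩
  have hX0 : 0 < X := by linarith
  have hl : 0 < Real.log X := Real.log_pos (by linarith)
  have b1 := h2 X (by linarith)
  rw [Real.rpow_one] at b1
  have b2 := hX₁ X a2
  rw [div_le_iff₀ hc] at b2
  have b3 : X ^ (1 - ε) * (X ^ (ε / 2) * X ^ (ε / 2)) = X := by
    rw [← Real.rpow_add hX0, ← Real.rpow_add hX0]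
    norm_num
  have b4 : 0 < X ^ (ε / 2) := Real.rpow_pos_of_pos hX0 _
  have b5 : 0 < X ^ (1 - ε) := Real.rpow_pos_of_pos hX0 _
  rw [le_div_iff₀ hl]
  calc X ^ (1 - ε) * Real.log X ≤ X ^ (1 - ε) * (X ^ (ε / 2) * c * X ^ (ε / 2)) := by
        refine mul_le_mul_of_nonneg_left ?_ b5.le
        nlinarith
    _ = c * (X ^ (1 - ε) * (X ^ (ε / 2) * X ^ (ε / 2))) := by ring
    _ = c * X := by rw [b3]

/-- `sx 1 n = 1` for `n` prime to `6` -/
theorem rc_one {q : O} {η : O → ℂ} (hq : Lev q) (hη : IsTw q η) : rc η 1 = η := by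
  funext n
  unfold rc
  rw [sx_one_left]
  split_ifs with h
  · exact mul_one _
  · rw [mul_zero, hη.zero n fun hn => h (hn.of_isCoprime_of_dvd_right
      ((show (6 : O) ∣ 72 from ⟨12, by norm_num⟩).trans hq.2))]

theorem tw_rc {q u : O} {ψ : O → ℂ} (hq : Lev q) (hψ : IsTw q ψ) (hu : u ≠ 0) :
    Lev (q * u) ∧ IsTw (q * u) (rc ψ u) := by
  exact ⟨hq.mul hu, hψ.rc hq⟩

/-- `q' = q ∏_{n ≠ 0, N n ≤ B₀} n` -/
theorem exists_level {q : O} (hq : Lev q) (B₀ : ℝ) :
    ∃ q' : O, Lev q' ∧ q ∣ q' ∧ ∀ p : O, Prime p → nm p ≤ B₀ → p ∣ q' := by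
  classical
  refine ⟨q * ∏ n ∈ (ball B₀).erase 0, n, hq.mul (Finset.prod_ne_zero_iff.2 fun n hn =>
    Finset.ne_of_mem_erase hn), dvd_mul_right _ _, fun p hp h => Dvd.dvd.mul_left ?_ q⟩
  exact Finset.dvd_prod_of_mem _ (Finset.mem_erase.2 ⟨hp.ne_zero, mem_ball.2 h⟩)

/-- For a non-unit row use `row_not_exc` and block C (`sx u n ^ 6 ∈ {0, 1}`, so `Princ` for `u ^ 5`
implies `Princ` for `u`).  For a unit `u = zt ^ j ≠ 1`: `π = 1 + 3ω` has norm `7`,
`sx (zt ^ j) π = sg (zt ^ j)`; take `n = π + 72 m`, `m` the product of the primes of `q` prime to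
`6π`, and use the period `72` (block A3). -/
theorem not_princ_row {q u : O} (hq : Lev q) (hu : Row q u) (h1 : u ≠ 1) :
    ¬ Princ (rc (one q) (u ^ 5)) := by
  have e : rc (one q) (u ^ 5) = fun n => (starRingEnd ℂ) (rc (one q) u n) := by
    funext n
    unfold rc
    rw [map_mul, conj_sx, sx_pow_left _ _ (by norm_num)]
    congr 1
    unfold one
    split_ifs <;> simp
  rw [e, C.princ_conj]
  by_cases hU : IsUnit u
  · exact C.not_princ_unit hq hU h1
  · refine C.not_princ_rc hq (isTw_one q) (row_ne_zero hu) (row_not_exc hu ?_)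
    have h2 : nN u ≠ 1 := fun h => hU (nN_eq_one.1 h)
    have h3 : nN u ≠ 0 := fun h => row_ne_zero hu (nN_eq_zero.1 h)
    have h4 : 1 < nN u := by omega
    unfold nm
    exact_mod_cast h4

end Crest.Agent.R17.Jb
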