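import Crest.Agent.R17.J.ApiA
import Crest.Agent.R17.C.All

/-! Row 17, block J: facts on `L`-functions used by J (wrappers of the block C API). -/

set_option autoImplicit false

namespace Crest.Agent.R17.Jb

open Complex MeasureTheory
open scoped Real

theorem isL_tw {q : O} {ψ : O → ℂ} (hq : Lev q) (hψ : IsTw q ψ) : IsL ψ (Lx ψ) := by
  exact C.isL_Lx hq hψ

theorem isL_rc {q u : O} {ψ : O → ℂ} (hq : Lev q) (hψ : IsTw q ψ) (hu : u ≠ 0) :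
    IsL (rc ψ u) (Lx (rc ψ u)) :=
  isL_tw (tw_rc hq hψ hu).1 (tw_rc hq hψ hu).2

theorem zf_rc {β : ℝ} (hz : ZF β) {q u : O} {ψ : O → ℂ} (hq : Lev q) (hψ : IsTw q ψ) (hu : u ≠ 0)
    {s : ℂ} (hs : β < s.re) : Lx (rc ψ u) s ≠ 0 :=
  hz _ _ (tw_rc hq hψ hu).1 (tw_rc hq hψ hu).2 s hs

/-- polynomial growth, all rows -/
theorem Lx_poly {q : O} (hq : Lev q) (σ₂ : ℝ) : ∃ C A : ℝ, 0 ≤ C ∧ 0 ≤ A ∧
    ∀ (ψ : O → ℂ) (u : O) (s : ℂ), IsTw q ψ → u ≠ 0 → -1 ≤ s.re → s.re ≤ σ₂ →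
      ‖Lx (rc ψ u) s‖ ≤ C * (nm u * (2 + |s.im|)) ^ A := by
  obtain ⟨K, hK, h⟩ := C.growth_row q (-1) σ₂ hq
  refine ⟨K, K, hK.le, hK.le, fun ψ u s hψ hu h1 h2 => (h ψ u s hψ hu h1 h2).trans (le_of_eq ?_)⟩
  rw [Real.mul_rpow (nm_nonneg u) (by positivity), mul_assoc]

/-- polynomial bound for `1 / L` under `ZF β`, all rows (principal characters included) -/
theorem linv_poly {β e : ℝ} {q : O} (hβ : 1 / 2 ≤ β) (hβ' : β ≤ 1) (hz : ZF β) (he : 0 < e)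
    (hq : Lev q) : ∃ C A : ℝ, 0 ≤ C ∧ 0 ≤ A ∧
    ∀ (ψ : O → ℂ) (u : O) (s : ℂ), IsTw q ψ → u ≠ 0 → β + e ≤ s.re → s.re ≤ 3 →
      ‖linv (rc ψ u) s‖ ≤ C * (nm u * (2 + |s.im|)) ^ A := by
  obtain ⟨K, hK, h⟩ := C.zf_inv q e 3 hq he (by norm_num)
  refine ⟨K, 3, hK.le, by norm_num, fun ψ u s hψ hu h1 _ =>
    (h ψ u β (|s.im| + 4) s hψ hu hβ (C.zfh_of_zf hz hq hu _) h1 le_rfl).trans (le_of_eq ?_)⟩
  rw [Real.mul_rpow (nm_nonneg u) (by positivity), mul_assoc]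
  norm_cast

theorem japi_rad {u r : O} (hu : u ≠ 0) (hr : IsRad r u) : C.Rad u r := by
  refine ⟨hr.1.ne_zero, ?_⟩
  have key : ∀ v : O, v ∣ u → ∃ k : ℕ, v ∣ r ^ k := by
    intro v
    induction v using UniqueFactorizationMonoid.induction_on_prime with
    | h₁ => exact fun h => absurd (zero_dvd_iff.1 h) hu
    | h₂ x hx => exact fun _ => ⟨0, hx.dvd⟩
    | h₃ a p _ hp ih =>
      intro h
      obtain ⟨k, hk⟩ := ih ((dvd_mul_left a p).trans h)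
      refine ⟨k + 1, ?_⟩
      rw [pow_succ']
      exact mul_dvd_mul ((hr.2 p hp).2 ((dvd_mul_right p a).trans h)) hk
  exact key u dvd_rfl

/-- C3 (`C.zf_row`, `C.not_princ_rc`; `C.zf_left` and `C.Lx_conj`, since
`rc ψ (u ^ 5) n = conj (rc (conj ψ) u n)`) -/
theorem c3 {q : O} {e ε : ℝ} (hq : Lev q) (he : 0 < e) (he' : e ≤ 1 / 1000) (hε : 0 < ε) :
    ∃ C A : ℝ, 0 ≤ C ∧ 0 ≤ A ∧ ∀ (u : O) (b H : ℝ) (ψ : O → ℂ) (s : ℂ), u ≠ 0 → ¬ Exc q u →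
      51 / 100 ≤ b → b ≤ 1 → ZH q u b H → IsTw q ψ → |s.im| + 5 ≤ H →
      (b + e ≤ s.re → s.re ≤ 3 → ‖linv (rc ψ u) s‖ ≤ C * nm u ^ ε * (2 + |s.im|) ^ A) ∧
      ∀ r : O, IsRad r u → s.re = 1 - b - e → ‖Lx (rc ψ (u ^ 5)) s‖ ≤
        C * nm u ^ ε * nm r ^ (b + e - 1 / 2) * (2 + |s.im|) ^ A := by
  obtain ⟨K₁, hK₁, h₁⟩ := C.zf_inv q e ε hq he hε
  obtain ⟨K₂, hK₂, h₂⟩ := C.zf_left_five q e ε hq he hε
  refine ⟨K₁ + K₂, max 3 K₂, by positivity, by positivity,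
    fun u b H ψ s hu hE hb hb' hz hψ hH => ⟨fun h1 _ => ?_, fun r hr hs => ?_⟩⟩
  · refine (h₁ ψ u b H s hψ hu (by linarith) hz h1 (by linarith)).trans ?_
    have h3 : (2 + |s.im|) ^ 3 ≤ (2 + |s.im|) ^ max 3 K₂ := by
      rw [← Real.rpow_natCast]
      exact Real.rpow_le_rpow_of_exponent_le (by linarith [abs_nonneg s.im])
        (by exact_mod_cast le_max_left _ _)
    have := nm_nonneg u
    gcongr
    linarith
  · refine (h₂ ψ u r b H s hψ hu hE (japi_rad hu hr) (by linarith) hz (by linarith) hs.le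
      (by linarith)).trans ?_
    have h3 : (2 + |s.im|) ^ K₂ ≤ (2 + |s.im|) ^ max 3 K₂ :=
      Real.rpow_le_rpow_of_exponent_le (by linarith [abs_nonneg s.im]) (le_max_right _ _)
    rw [show 1 / 2 - s.re = b + e - 1 / 2 by rw [hs]; ring]
    have := nm_nonneg u
    have := nm_nonneg r
    gcongr
    linarith

/-- C5 for the prime sum -/
theorem c5_PP {q : O} {e ε : ℝ} (hq : Lev q) (he : 0 < e) (he' : e ≤ 1 / 1000) (hε : 0 < ε) :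
    ∃ C : ℝ, 0 ≤ C ∧ ∀ (Z b H τ Y : ℝ) (u : O), C ≤ Z → u ≠ 0 → ¬ Exc q u → nm u ≤ Z →
      51 / 100 ≤ b → b ≤ 1 → ZH q u b H → |τ| + Real.log Z ^ 2 / 2 ≤ H → |τ| ≤ Real.log Z ^ 2 →
      1 ≤ Y → Y ≤ Z → ‖PP (rc (one q) u) 1 Y τ‖ ≤ C * Z ^ ε * Y ^ (b + e) := by
  obtain ⟨K, hK, h⟩ := C.PP_le q 1 e (ε / 2) hq one_pos he (half_pos hε)
  obtain ⟨K', hK', h'⟩ := one_add_log_rpow_le (2 * K) (half_pos hε)
  refine ⟨K * K' + 1, by positivity, fun Z b H τ Y u hZ hu hE h1 hb hb' hz hH hτ hY hY' => ?_⟩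
  have hZ1 : 1 ≤ Z := hY.trans hY'
  have hZ0 : 0 < Z := by linarith
  have hl := Real.log_nonneg hZ1
  refine (h (one q) u Z Y τ b H (isTw_one q) hu hE h1 (by linarith)
    (hY'.trans (le_self_pow₀ hZ1 (by norm_num))) (by linarith) hb' hH hz).trans ?_
  have a1 : (1 + |τ|) ^ K ≤ K' * Z ^ (ε / 2) := by
    refine le_trans ?_ (h' Z hZ1)
    rw [Real.rpow_mul (by linarith)]
    refine Real.rpow_le_rpow (by positivity) ?_ hK.le
    rw [Real.rpow_two]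
    nlinarith
  have a2 : Z ^ ε = Z ^ (ε / 2) * Z ^ (ε / 2) := by
    rw [← Real.rpow_add hZ0, add_halves]
  have a3 : 0 < Z ^ (ε / 2) := Real.rpow_pos_of_pos hZ0 _
  refine mul_le_mul_of_nonneg_right ?_ (Real.rpow_nonneg (by linarith) _)
  rw [a2]
  have a4 := mul_le_mul_of_nonneg_left a1 (mul_pos hK a3).le
  nlinarith

theorem princ_one (q : O) : Princ (one q) := by
  exact C.princ_one q

theorem Lx_princ_ne {q : O} {η : O → ℂ} (hq : Lev q) (hη : IsTw q η) (h : Princ η) :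
    Lx η 1 ≠ 0 := by
  exact C.Lx_one_ne hq hη h

/-- raising the level only removes Euler factors -/
theorem raise {q q' : O} {η : O → ℂ} (hq : Lev q) (hq' : Lev q') (h : q ∣ q') (hη : IsTw q η) :
    IsTw q' (fun n => η n * one q' n) ∧
      ∀ s : ℂ, Lx η s = 0 → Lx (fun n => η n * one q' n) s = 0 := by
  refine ⟨hη.lift h, fun s hs => ?_⟩
  rw [C.Lx_mask hq hη hq'.1, hs, zero_mul]

end Crest.Agent.R17.Jb
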