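import Crest.Agent.R17.J.Slot
import Crest.Agent.R17.J.ApiC

/-! Row 17, block J: zero bins and the row count. -/

set_option autoImplicit false

namespace Crest.Agent.R17.Jb

open Complex MeasureTheory
open scoped Real

/-- the grid of abscissae -/
noncomputable def grid (β e : ℝ) (n : ℕ) : ℝ := min β (51 / 100 + n * e)

/-- Pigeonhole.  Let `n i` be the least `n` with `ZH q u (grid β e n) (i T)` (`T = log² Z`; it exists
and is `≤ n₀ = ⌈1/(2e)⌉` since `grid β e n₀ = β` and `zf_rc`).  `n i` is monotone in `i`, so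
`n (i+1) ≤ n i` for some `i ≤ n₀`.  If `n i ≠ 0`, minimality gives a zero beyond
`grid β e (n i - 1) ≥ grid β e (n i) - e`. -/
theorem bin_exists {β e : ℝ} {q u : O} (hβ : 7 / 8 ≤ β) (hβ' : β ≤ 1) (hz : ZF β) (he : 0 < e)
    (he' : e ≤ 1 / 1000) (hq : Lev q) (hu : u ≠ 0) (Z : ℝ) :
    ∃ i n : ℕ, (i : ℝ) ≤ 1 / e ∧ (n : ℝ) ≤ 1 / e ∧
      Zs q u (grid β e n) e (i * Real.log Z ^ 2) Z := by
  classical
  set n₀ := ⌈1 / (2 * e)⌉₊ with hn₀
  have h1 : 1 / (2 * e) ≤ n₀ := Nat.le_ceil _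
  have h2 : (n₀ : ℝ) ≤ 1 / e := by
    have h3 : (n₀ : ℝ) < 1 / (2 * e) + 1 := Nat.ceil_lt_add_one (by positivity)
    have h4 : 1 ≤ 1 / (2 * e) := by rw [le_div_iff₀ (by positivity)]; linarith
    have h5 : 1 / e = 1 / (2 * e) + 1 / (2 * e) := by field_simp; norm_num
    linarith
  have h3 : ∀ H : ℝ, ZH q u (grid β e n₀) H := fun H ψ ρ hψ hρ _ => by
    rw [div_le_iff₀ (by positivity)] at h1
    rw [grid, min_eq_left (by linarith)] at hρ
    exact zf_rc hz hq hψ hu hρ
  have hex : ∀ i : ℕ, ∃ n, ZH q u (grid β e n) (i * Real.log Z ^ 2) := fun i => ⟨n₀, h3 _⟩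
  have hle : ∀ i, Nat.find (hex i) ≤ n₀ := fun i => Nat.find_min' _ (h3 _)
  obtain ⟨i, hi, hi'⟩ : ∃ i ≤ n₀, Nat.find (hex (i + 1)) ≤ Nat.find (hex i) := by
    by_contra hc
    push Not at hc
    have : ∀ i ≤ n₀ + 1, i ≤ Nat.find (hex i) := fun i => by
      induction i with
      | zero => exact fun _ => Nat.zero_le _
      | succ i ih => exact fun hi => lt_of_le_of_lt (ih (by omega)) (hc i (by omega))
    have h4 := this _ le_rfl
    have h5 := hle (n₀ + 1)
    omega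
  refine ⟨i, Nat.find (hex i), le_trans (by exact_mod_cast hi) h2,
    le_trans (by exact_mod_cast hle i) h2, fun ψ ρ hψ hρ hρ' => ?_, ?_⟩
  · refine Nat.find_spec (hex (i + 1)) ψ ρ hψ (lt_of_le_of_lt (min_le_min le_rfl ?_) hρ) ?_
    · gcongr
    · push_cast; linarith
  · rcases Nat.eq_zero_or_pos (Nat.find (hex i)) with h0 | h0
    · left
      rw [h0, grid, Nat.cast_zero, zero_mul, add_zero, min_eq_right (by linarith)]
    · right
      have h4 := Nat.find_min (hex i) (Nat.sub_one_lt h0.ne')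
      clear hi' hle
      generalize Nat.find (hex i) = n at h0 h4 ⊢
      unfold ZH at h4
      push Not at h4
      obtain ⟨ψ, ρ, hψ, h5, h6, h7⟩ := h4
      refine ⟨ψ, ρ, hψ, ?_, h6, h7⟩
      rw [grid, Nat.cast_pred h0, min_lt_iff] at h5
      rw [grid]
      rcases h5 with h5 | h5
      · linarith [min_le_left β (51 / 100 + (n : ℝ) * e)]
      · linarith [min_le_right β (51 / 100 + (n : ℝ) * e)]

/-- `C₀ := max C₀ 0`.  Split `A` into the rows having a zero (`StCount`) and the floor rows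
(`b = 51/100`).  For a floor row `c5_PP` (with `ε = σ / 100`, so `C Z^ε ≤ P^(1/50)` for large `Z`) forces
`w ≤ 4/100`, hence `1 ≤ cR β b w`, and `B_count` gives `#A ≤ C U`. -/
theorem count_floor (hK : StCount) : ∃ C₀ : ℝ, 0 ≤ C₀ ∧ CountC C₀ := by
  obtain ⟨C₀, hK⟩ := hK
  refine ⟨max C₀ 0, le_max_right _ _, fun β hβ hβ' hz q σ e hq hσ he he' => ?_⟩
  obtain ⟨C, hC⟩ := hK β hβ hβ' hz q 1 σ e e hq one_pos hσ he he' he
  obtain ⟨C₅, hC₅, h5⟩ := c5_PP hq he he' (show 0 < σ / 100 by positivity)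
  refine ⟨max (max C 11) (max C₅ (C₅ ^ (100 / σ))), by positivity,
    fun Z U P T₁ b w τ A hZ hP hPZ hU hUZ hT hT' hb hb' hτ hw hA => ?_⟩
  have z1 : C ≤ Z := ((le_max_left _ _).trans (le_max_left _ _)).trans hZ
  have z2 : 11 ≤ Z := ((le_max_right _ _).trans (le_max_left _ _)).trans hZ
  have z3 : C₅ ≤ Z := ((le_max_left _ _).trans (le_max_right _ _)).trans hZ
  have z4 : C₅ ^ (100 / σ) ≤ Z := ((le_max_right _ _).trans (le_max_right _ _)).trans hZ
  have hZ0 : 0 < Z := by linarith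
  have hZσ : 1 < Z ^ σ := Real.one_lt_rpow (by linarith) hσ
  have hP1 : 1 < P := hZσ.trans_le hP
  have hU1 : 1 < U := hZσ.trans_le hU
  have hP0 : 0 < P := by linarith
  have hU0 : 0 < U := by linarith
  by_cases hb0 : b = 51 / 100
  · rcases A.eq_empty_or_nonempty with rfl | ⟨u, hu⟩
    · rw [Finset.card_empty, Nat.cast_zero]; positivity
    obtain ⟨u1, u2, u3, u4, u5⟩ := hA u hu
    have hl := sq_nonneg (Real.log Z)
    have hw' : w ≤ 4 / 100 := by
      rcases u5 with u5 | u5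
      · linarith
      have h6 := h5 Z b _ τ P u z3 u1 u2 (u3.trans hUZ) hb (hb'.trans hβ') u4.1 (by linarith)
        (by linarith) hP1.le hPZ
      have h7 : C₅ ≤ Z ^ (σ / 100) := by
        refine le_trans (le_of_eq ?_)
          (Real.rpow_le_rpow (Real.rpow_nonneg hC₅ _) z4 (by positivity))
        rw [← Real.rpow_mul hC₅, show 100 / σ * (σ / 100) = 1 by field_simp, Real.rpow_one]
      have h8 : Z ^ (σ / 100) ≤ P ^ (1 / 100 : ℝ) := by
        rw [div_eq_mul_one_div, Real.rpow_mul hZ0.le]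
        exact Real.rpow_le_rpow (by positivity) hP (by norm_num)
      have h9 : P ^ (1 / 2 + w) ≤ P ^ (1 / 100 + 1 / 100 + (b + e)) := by
        rw [Real.rpow_add hP0 (1 / 100 + 1 / 100), Real.rpow_add hP0 (1 / 100)]
        refine u5.trans (h6.trans ?_)
        gcongr
        exact h7.trans h8
      rw [Real.rpow_le_rpow_left_iff hP1] at h9
      linarith
    have h6 : U ≤ U ^ (cR β b w + max C₀ 0 * e) := by
      refine (Real.rpow_one U).symm.trans_le (Real.rpow_le_rpow_of_exponent_le hU1.le ?_)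
      have : 0 ≤ max C₀ 0 * e := by positivity
      rw [cR, hb0]
      linarith
    have h7 := card_le_of_nm_le hU0.le fun u hu => ⟨(hA u hu).1, (hA u hu).2.2.1⟩
    have h8 : 1 ≤ Z ^ e := Real.one_le_rpow (by linarith) he.le
    have h9 : 1 ≤ P ^ max C₀ 0 := Real.one_le_rpow hP1.le (le_max_right _ _)
    calc _ ≤ 11 * 1 * 1 * U := by linarith
      _ ≤ _ := by
        gcongr
        exact (le_max_right _ _).trans (le_max_left _ _)
  · refine (hC Z U P T₁ b w τ A z1 hP hPZ hU hUZ hT hT' hb hb' hτ hw fun u hu => ?_).trans ?_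
    · obtain ⟨u1, u2, u3, u4, u5⟩ := hA u hu
      exact ⟨u1, u2, u3, u4.2.resolve_left hb0, u4.1, u5⟩
    · rw [mul_assoc, mul_assoc, mul_assoc, mul_assoc]
      refine (mul_le_mul_of_nonneg_right ((le_max_left C 11).trans
        (le_max_left _ (max C₅ (C₅ ^ (100 / σ))))) (by positivity)).trans ?_
      rw [cR]
      gcongr
      · exact hP1.le
      · exact le_max_left _ _
      · exact hU1.le
      · exact le_max_left _ _

/-- The exponent inequality: the left side is affine in `μ`; at `μ = 13/16` it equals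
`5/3 + (β - 7/8)/2 + O(e)`, at `μ = 0` it is at most `1.37 + w/6 + O(e)`. -/
theorem exp_ineq {β e b w μ : ℝ} (hβ : 7 / 8 ≤ β) (hβ' : β ≤ 1) (he : 0 < e) (he' : e ≤ 1 / 1000)
    (hb : 51 / 100 ≤ b) (hb' : b ≤ β) (hw : 0 ≤ w) (hw' : w ≤ 1) (hμ : 0 ≤ μ)
    (hμ' : μ ≤ 13 / 16 + 3 * e) :
    ex (b + 3 * e) (1 - b - e) (17 / 50) + μ * (b - 21 / 25) + μ * cR β b w + (17 / 50 + w) / 6 ≤
      5 / 3 + (β - 7 / 8) / 2 + 8 * e := by
  obtain ⟨m, hm⟩ : ∃ m, m = b - 21 / 25 + cR β b w := ⟨_, rfl⟩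
  have e1 : μ * (b - 21 / 25) + μ * cR β b w = μ * m := by rw [hm]; ring
  rw [add_assoc (ex _ _ _), e1]
  unfold ex
  unfold cR at hm
  rcases le_total 0 m with h | h
  · have h1 := mul_le_mul_of_nonneg_right hμ' h
    have h2 : e * m ≤ e * 1 := mul_le_mul_of_nonneg_left (by linarith) he.le
    linarith
  · have h1 := mul_nonpos_of_nonneg_of_nonpos hμ h
    linarith

end Crest.Agent.R17.Jb
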