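import Crest.Agent.R17.I.Probe
import Crest.Agent.R17.B.All

/-!
Row 17, block J (owner helper67): definitions.  Goal: `stStep : StHigh → StGram → StF → StCount → StStep`.

Parameters (all widths are `1`): `N = Z`, `R = Z^(23/48)`, `K = Z^(5/6)`, slot primes in
`[Plo, Phi] = [Z^((1/6-e)/J), Z^((1/6+e)/J)]` with weight `LN 1 P0 0`, `P0 = Z^(1/(6J))`.
The probe `II` is `O(Z^(5/3+))` (`Low`), and it is the sum of the row terms `IU u = I3 (GA u) 3 3 s`.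
Rows `u ≠ 1` are bounded in `Big`, `Small`, `Mid`; the row `1` gives the main term (`One`);
`Fin` turns the resulting bound for `FF` into a zero-free half plane.
All decay is measured by the symmetric weight `E3 = exp (-(|Im x| + |Im w| + |Im z|) / 4)`.
-/

set_option autoImplicit false

namespace Crest.Agent.R17.Jb

open Complex MeasureTheory
open scoped Real

/-! ### abstract contour integrals -/

/-- triple line integral over `Re x = a`, `Re w = b`, `Re z = c` -/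
noncomputable def I3 (F : ℂ → ℂ → ℂ → ℂ) (a b c : ℝ) : ℂ :=
  ∫ t : ℝ × ℝ × ℝ, F (a + t.1 * I) (b + t.2.1 * I) (c + t.2.2 * I)

/-- double line integral over `Re x = a`, `Re z = c` -/
noncomputable def I2 (F : ℂ → ℂ → ℂ) (a c : ℝ) : ℂ :=
  ∫ t : ℝ × ℝ, F (a + t.1 * I) (c + t.2 * I)

noncomputable def E3 (x w z : ℂ) : ℝ := Real.exp (-(|x.im| + |w.im| + |z.im|) / 4)

noncomputable def E2 (x z : ℂ) : ℝ := Real.exp (-(|x.im| + |z.im|) / 4)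

noncomputable def E1 (x : ℂ) : ℝ := Real.exp (-|x.im| / 4)

/-- jointly continuous and separately holomorphic on `Ω` -/
structure Hol3 (F : ℂ → ℂ → ℂ → ℂ) (Ω : Set (ℂ × ℂ × ℂ)) : Prop where
  cont : ContinuousOn (fun p : ℂ × ℂ × ℂ => F p.1 p.2.1 p.2.2) Ω
  d1 : ∀ w z, DifferentiableOn ℂ (fun x => F x w z) {x | (x, w, z) ∈ Ω}
  d2 : ∀ x z, DifferentiableOn ℂ (fun w => F x w z) {w | (x, w, z) ∈ Ω}
  d3 : ∀ x w, DifferentiableOn ℂ (fun z => F x w z) {z | (x, w, z) ∈ Ω}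

structure Hol2 (F : ℂ → ℂ → ℂ) (Ω : Set (ℂ × ℂ)) : Prop where
  cont : ContinuousOn (fun p : ℂ × ℂ => F p.1 p.2) Ω
  d1 : ∀ z, DifferentiableOn ℂ (fun x => F x z) {x | (x, z) ∈ Ω}
  d2 : ∀ x, DifferentiableOn ℂ (fun z => F x z) {z | (x, z) ∈ Ω}

/-- product of three closed strips -/
def Box (a₁ a₂ b₁ b₂ c₁ c₂ : ℝ) : Set (ℂ × ℂ × ℂ) :=
  {p | a₁ ≤ p.1.re ∧ p.1.re ≤ a₂ ∧ b₁ ≤ p.2.1.re ∧ p.2.1.re ≤ b₂ ∧ c₁ ≤ p.2.2.re ∧ p.2.2.re ≤ c₂}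

def Box2 (a₁ a₂ c₁ c₂ : ℝ) : Set (ℂ × ℂ) :=
  {p | a₁ ≤ p.1.re ∧ p.1.re ≤ a₂ ∧ c₁ ≤ p.2.re ∧ p.2.re ≤ c₂}

/-- the truncated box: a rectangle in `x`, segments in `w` and `z` -/
def TBox (a₁ a₂ b c T : ℝ) : Set (ℂ × ℂ × ℂ) :=
  {p | p ∈ Box a₁ a₂ b b c c ∧ |p.1.im| ≤ T ∧ |p.2.1.im| ≤ T ∧ |p.2.2.im| ≤ T}

/-- `‖F‖ ≤ B · E3` on `Ω` -/
def Dec3 (F : ℂ → ℂ → ℂ → ℂ) (Ω : Set (ℂ × ℂ × ℂ)) (B : ℝ) : Prop :=
  ∀ x w z, (x, w, z) ∈ Ω → ‖F x w z‖ ≤ B * E3 x w z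

def Dec2 (F : ℂ → ℂ → ℂ) (Ω : Set (ℂ × ℂ)) (B : ℝ) : Prop :=
  ∀ x z, (x, z) ∈ Ω → ‖F x z‖ ≤ B * E2 x z

/-! ### parameters -/

noncomputable def RR (Z : ℝ) : ℝ := Z ^ (23 / 48 : ℝ)

noncomputable def KK (Z : ℝ) : ℝ := Z ^ (5 / 6 : ℝ)

noncomputable def P0 (J : ℕ) (Z : ℝ) : ℝ := Z ^ (1 / (6 * J) : ℝ)

noncomputable def Plo (J : ℕ) (e Z : ℝ) : ℝ := Z ^ ((1 / 6 - e) / J)

noncomputable def Phi (J : ℕ) (e Z : ℝ) : ℝ := Z ^ ((1 / 6 + e) / J)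

/-- the set of slot primes -/
def PsS (q : O) (J : ℕ) (e Z : ℝ) : Set O :=
  {p | Prime p ∧ Prim p ∧ IsCoprime p q ∧ Plo J e Z ≤ nm p ∧ nm p ≤ Phi J e Z}

open Classical in
/-- the slot primes as a `Finset` (see `mem_Psl`) -/
noncomputable def Psl (q : O) (J : ℕ) (e Z : ℝ) : Finset O :=
  if h : (PsS q J e Z).Finite then h.toFinset else ∅

/-- the slot weight -/
noncomputable def wt (J : ℕ) (Z : ℝ) (p : O) : ℂ := LN 1 (P0 J Z) 0 (nm p)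

/-- the slot sum of row `u` -/
noncomputable def slot (q : O) (J : ℕ) (e Z : ℝ) (u : O) (z : ℂ) : ℂ :=
  ∑ p ∈ Psl q J e Z, wt J Z p * (nm p : ℂ) ^ (z - 1 / 2) * sx u p

/-- the slot factor in the bound of `H` -/
noncomputable def amp (q : O) (J : ℕ) (e Z : ℝ) (u : O) (z : ℂ) : ℝ :=
  (‖slot q J e Z u z‖ + Phi J e Z ^ (z.re + e)) ^ J

/-- the slot factor of the main term -/
noncomputable def SJ (q : O) (J : ℕ) (e Z : ℝ) : ℂ :=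
  ∑ A ∈ (Psl q J e Z).powersetCard J, ∏ p ∈ A, wt J Z p * ((nm p ^ (-1 / 3 : ℝ) : ℝ) : ℂ)

/-- the exponent of `Z` in `N^(x+z-1/2) R^(w+z-1/2) K^(1-z)` -/
noncomputable def ex (x w z : ℝ) : ℝ := x + z - 1 / 2 + 23 / 48 * (w + z - 1 / 2) + 5 / 6 * (1 - z)

/-- the polynomial weight -/
noncomputable def pw (x w z : ℂ) : ℝ := (2 + |x.im|) * (2 + |w.im|) * (2 + |z.im|)

/-- `1 / L(x, χ)` -/
noncomputable def linv (χ : O → ℂ) (x : ℂ) : ℂ := pf χ x / Lx χ x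

/-- all `L(s, ψ χ_·(u))`, `ψ` of level `q`, are zero-free for `Re s > b`, `|Im s| ≤ H` -/
def ZH (q u : O) (b H : ℝ) : Prop :=
  ∀ (ψ : O → ℂ) (ρ : ℂ), IsTw q ψ → b < ρ.re → |ρ.im| ≤ H → Lx (rc ψ u) ρ ≠ 0

/-- the zero structure of a row: zero-free beyond `b` up to height `T₁ + log² Z`, and either `b` is
the floor or there is a zero within `e` of `b` below height `T₁` -/
def Zs (q u : O) (b e T₁ Z : ℝ) : Prop :=
  ZH q u b (T₁ + Real.log Z ^ 2) ∧ (b = 51 / 100 ∨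
    ∃ (ψ : O → ℂ) (ρ : ℂ), IsTw q ψ ∧ b - e ≤ ρ.re ∧ |ρ.im| ≤ T₁ ∧ Lx (rc ψ u) ρ = 0)

/-- the exponent of the row count -/
noncomputable def cR (β b w : ℝ) : ℝ :=
  16 / 13 * (5 / 6 + (β - 7 / 8) / 2 - 2 * (2 * b - 1) / 3 - w / 6)

/-- `StCount` with width `1`, `ε = e`, and with the floor class included -/
def CountC (C₀ : ℝ) : Prop :=
  ∀ β : ℝ, 7 / 8 ≤ β → β ≤ 1 → ZF β → ∀ (q : O) (σ e : ℝ), Lev q → 0 < σ → 0 < e → e ≤ 1 / 1000 →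
    ∃ C : ℝ, 0 ≤ C ∧ ∀ (Z U P T₁ b w τ : ℝ) (A : Finset O), C ≤ Z → Z ^ σ ≤ P → P ≤ Z → Z ^ σ ≤ U →
    U ≤ Z → 0 ≤ T₁ → T₁ ≤ 2 / e * Real.log Z ^ 2 → 51 / 100 ≤ b → b ≤ β →
    |τ| ≤ Real.log Z ^ 2 / 4 → 0 ≤ w →
    (∀ u ∈ A, u ≠ 0 ∧ ¬ Exc q u ∧ nm u ≤ U ∧ Zs q u b e T₁ Z ∧
      (w = 0 ∨ P ^ (1 / 2 + w) ≤ ‖PP (rc (one q) u) 1 P τ‖)) →
    (A.card : ℝ) ≤ C * Z ^ e * P ^ C₀ * U ^ (cR β b w + C₀ * e)

/-- the standing hypotheses -/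
structure Ctx (β e : ℝ) (q : O) (η : O → ℂ) (J : ℕ) : Prop where
  lo : 7 / 8 < β
  hi : β ≤ 1
  zf : ZF β
  e_pos : 0 < e
  e_le : e ≤ 1 / 10000
  lev : Lev q
  tw : IsTw q η
  J_pos : 1 ≤ J

section high

variable {q : O} {η : O → ℂ} {J : ℕ} (h : High q η 1 J)

/-- `H` at the chosen slots -/
noncomputable def HH (e Z : ℝ) (u : O) : ℂ → ℂ → ℂ → ℂ := h.H (Psl q J e Z) (wt J Z) u

/-- the kernel at the chosen parameters -/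
noncomputable def kk (Z : ℝ) (x w z : ℂ) : ℂ := kerH 1 h.c₁ Z (RR Z) (KK Z) x w z

/-- the integrand of row `u` without the polar factors -/
noncomputable def core (e Z : ℝ) (u : O) (x w z : ℂ) : ℂ :=
  kk h Z x w z * (nm u : ℂ) ^ (-z) *
    (Lx (one q) (6 * z) * Lx (rc (one q) (u ^ 5)) w * linv (rc η u) x) * HH h e Z u x w z

/-- the continued integrand of row `u` -/
noncomputable def GA (e Z : ℝ) (u : O) (x w z : ℂ) : ℂ :=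
  core h e Z u x w z / (6 * z - 1) / pf (rc (one q) (u ^ 5)) w

/-- the row term -/
noncomputable def IU (e Z : ℝ) (u : O) : ℂ := h.Iu (Psl q J e Z) (wt J Z) Z (RR Z) (KK Z) u

/-- the probe -/
noncomputable def II (e Z : ℝ) : ℂ := h.I (Psl q J e Z) (wt J Z) Z (RR Z) (KK Z)

/-- the Mellin transform of the main term -/
noncomputable def Ph0 (x : ℂ) : ℂ := LNt 1 (x - 1 / 3) * h.H₀ x * linv η x

/-- the main term -/
noncomputable def FF (σ Z : ℝ) : ℂ := VI σ fun s => Ph0 h s * (Z : ℂ) ^ s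

end high

end Crest.Agent.R17.Jb
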