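import Crest.Agent.R17.J.Ker

/-! Row 17, block J: very long and very short rows. -/

set_option autoImplicit false

namespace Crest.Agent.R17.Jb

open Complex MeasureTheory
open scoped Real

variable {β e : ℝ} {q : O} {η : O → ℂ} {J : ℕ}

/-- `IU_eq` on the line `Re z = s` large, `GA_eq`, `core_crude`, `I3_norm`:
`ex 3 3 s + (1/6+e)(s+1/2+e) ≤ (13/16 + e) s + 5`.  With `M = Z^(13/16+2e) < N u`,
`N u^(A-s) ≤ M^(A+2-s) N u^(-2)`; take `s = max (A + 2) ((7 + A) / e)`; `B_summable_nm`. -/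
theorem big_bound (c : Ctx β e q η J) (h : High q η 1 J) : ∃ C : ℝ, 0 ≤ C ∧
    ∀ (Z : ℝ) (A : Finset O), 1 ≤ Z → (∀ u ∈ A, Row q u ∧ Z ^ (13 / 16 + 2 * e) < nm u) →
    ∑ u ∈ A, ‖IU h e Z u‖ ≤ C := by
  obtain ⟨A, hA, hC⟩ := core_crude c h
  have he := c.e_pos
  have he' := c.e_le
  have hβ := c.hi
  set s : ℝ := max (A + 2) ((7 + A) / e) with hs
  have hs1 : A + 2 ≤ s := le_max_left _ _
  have hs2 : 7 + A ≤ e * s := by
    have : (7 + A) / e ≤ s := le_max_right _ _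
    rwa [div_le_iff₀' he] at this
  obtain ⟨C, hC0, hC⟩ := hC s
  have hsum := B_summable_nm (σ := 2) (by norm_num)
  refine ⟨512 * C * ∑' n : O, nm n ^ (-2 : ℝ), mul_nonneg (by positivity)
    (tsum_nonneg fun n => Real.rpow_nonneg (nm_nonneg n) _), fun Z A' hZ hA' => ?_⟩
  have key : ∀ u ∈ A', ‖IU h e Z u‖ ≤ 512 * C * nm u ^ (-2 : ℝ) := by
    intro u hu
    obtain ⟨hr, hM⟩ := hA' u hu
    have hM1 : 1 ≤ Z ^ (13 / 16 + 2 * e) := Real.one_le_rpow hZ (by linarith)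
    have h1 : u ≠ 1 := fun e1 => by
      rw [e1, nm_one] at hM
      linarith
    have hu0 : 0 < nm u := by linarith
    rw [IU_eq c h hZ hr (s := s) (by linarith), I3_congr (fun x w z _ _ _ => GA_eq c h Z hr h1 x w z),
      mul_assoc]
    refine I3_norm fun x w z hp => ?_
    obtain ⟨x1, x2, w1, w2, z1, z2⟩ := hp
    dsimp only at x1 x2 w1 w2 z1 z2
    have ex' : x.re = 3 := le_antisymm x2 x1
    have ew : w.re = 3 := le_antisymm w2 w1
    have ez : z.re = s := le_antisymm z2 z1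
    refine (hC Z u x w z hZ hr ⟨by dsimp only; linarith, by dsimp only; linarith,
      by dsimp only; linarith, by dsimp only; linarith⟩ (by linarith) x2 w2 z2).trans ?_
    refine mul_le_mul_of_nonneg_right ?_ (Real.exp_pos _).le
    rw [ex', ew, ez, mul_assoc]
    refine mul_le_mul_of_nonneg_left ?_ hC0
    have e1 : nm u ^ (A - s) = nm u ^ (A + 2 - s) * nm u ^ (-2 : ℝ) := by
      rw [← Real.rpow_add hu0]
      congr 1
      ring
    have e2 : nm u ^ (A + 2 - s) ≤ Z ^ ((13 / 16 + 2 * e) * (A + 2 - s)) := by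
      rw [Real.rpow_mul (by linarith)]
      exact Real.rpow_le_rpow_of_nonpos (by linarith) hM.le (by linarith)
    rw [e1, ← mul_assoc]
    refine mul_le_of_le_one_left (Real.rpow_nonneg hu0.le _) ?_
    refine (mul_le_mul_of_nonneg_left e2 (Real.rpow_nonneg (by linarith) _)).trans ?_
    rw [← Real.rpow_add (by linarith)]
    refine Real.rpow_le_one_of_one_le_of_nonpos hZ ?_
    unfold ex
    nlinarith
  refine (Finset.sum_le_sum key).trans ?_
  rw [← Finset.mul_sum]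
  exact mul_le_mul_of_nonneg_left
    (hsum.sum_le_tsum _ fun n _ => Real.rpow_nonneg (nm_nonneg n) _) (by positivity)

/-- the final lines `(β + e, 1/2, 17/50)`; valid for all rows, `u = 1` included.
`ex (β+e) (1/2) (17/50) + (1/6+e)(17/50+1/2+e) ≤ β + 0.6930 + 2e`. -/
theorem half_line (c : Ctx β e q η J) (h : High q η 1 J) : ∃ C A : ℝ, 0 ≤ C ∧ 0 ≤ A ∧
    ∀ (Z : ℝ) (u : O), 1 ≤ Z → Row q u →
    Dec3 (fun x w z => core h e Z u x w z / (6 * z - 1))
      (Box (β + e) (β + e) (1 / 2) (1 / 2) (17 / 50) (17 / 50)) (C * Z ^ (β + 7 / 10) * nm u ^ A) := by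
  obtain ⟨A, hA, hC⟩ := core_crude c h
  obtain ⟨C, hC0, hC⟩ := hC 1
  have he := c.e_pos
  have he' := c.e_le
  have hβ := c.hi
  have hβ' := c.lo
  refine ⟨C, A, hC0, hA, fun Z u hZ hr x w z hp => ?_⟩
  obtain ⟨x1, x2, w1, w2, z1, z2⟩ := hp
  dsimp only at x1 x2 w1 w2 z1 z2
  have ex' : x.re = β + e := le_antisymm x2 x1
  have ew : w.re = 1 / 2 := le_antisymm w2 w1
  have ez : z.re = 17 / 50 := le_antisymm z2 z1
  refine (hC Z u x w z hZ hr ⟨by dsimp only; linarith, by dsimp only; linarith,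
    by dsimp only; linarith, by dsimp only; linarith⟩ x1 (by linarith) (by linarith)
    (by linarith)).trans ?_
  refine mul_le_mul_of_nonneg_right ?_ (Real.exp_pos _).le
  have hu1 := one_le_nm (row_ne_zero hr)
  rw [ex', ew, ez]
  refine mul_le_mul (mul_le_mul_of_nonneg_left (Real.rpow_le_rpow_of_exponent_le hZ ?_) hC0)
    (Real.rpow_le_rpow_of_exponent_le hu1 (by linarith)) (Real.rpow_nonneg (by linarith) _)
    (mul_nonneg hC0 (Real.rpow_nonneg (by linarith) _))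
  unfold ex
  nlinarith

/-- on the big box the integrand decays (with some constant) -/
theorem box_dec (c : Ctx β e q η J) (h : High q η 1 J) {Z : ℝ} (hZ : 1 ≤ Z) {u : O} (hu : Row q u)
    {a b : ℝ} (ha : β + e ≤ a) (hb : -1 / 100 < b) (hab : 1 + e < a + b) :
    Hol3 (fun x w z => core h e Z u x w z / (6 * z - 1)) (Box a 3 b 3 (17 / 50) 2) ∧
    ∃ B : ℝ, Dec3 (fun x w z => core h e Z u x w z / (6 * z - 1)) (Box a 3 b 3 (17 / 50) 2) B := by
  obtain ⟨A, hA, hC⟩ := core_crude c h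
  obtain ⟨C, hC0, hC⟩ := hC 2
  have he := c.e_pos
  have he' := c.e_le
  have hβ := c.hi
  have hβ' := c.lo
  have hu0 := row_ne_zero hu
  have hu1 := one_le_nm hu0
  have hO : ∀ p ∈ Box a 3 b 3 (17 / 50) 2, p ∈ Om1 e := fun p hp => by
    obtain ⟨x1, -, w1, -, z1, -⟩ := hp
    exact ⟨by linarith, by linarith, by linarith, by linarith⟩
  refine ⟨(core_div_hol c h hZ hu).mono fun p hp =>
    ⟨hO p hp, zf_rc c.zf c.lev c.tw hu0 (by linarith [hp.1])⟩, C * Z ^ (10 : ℝ) * nm u ^ A,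
    fun x w z hp => ?_⟩
  have hp' := hO _ hp
  obtain ⟨x1, x2, w1, w2, z1, z2⟩ := hp
  dsimp only at x1 x2 w1 w2 z1 z2
  refine (hC Z u x w z hZ hu hp' (by linarith) x2 w2 z2).trans ?_
  refine mul_le_mul_of_nonneg_right ?_ (Real.exp_pos _).le
  refine mul_le_mul (mul_le_mul_of_nonneg_left (Real.rpow_le_rpow_of_exponent_le hZ ?_) hC0)
    (Real.rpow_le_rpow_of_exponent_le hu1 (by linarith)) (Real.rpow_nonneg (by linarith) _)
    (mul_nonneg hC0 (Real.rpow_nonneg (by linarith) _))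
  unfold ex
  nlinarith

theorem IU_shift (c : Ctx β e q η J) (h : High q η 1 J) {Z : ℝ} (hZ : 1 ≤ Z) {u : O} (hu : Row q u)
    (h1 : u ≠ 1) {a b : ℝ} (ha : β + e ≤ a) (ha' : a ≤ 3) (hb : -1 / 100 < b) (hb' : b ≤ 3)
    (hab : 1 + e < a + b) :
    IU h e Z u = I3 (fun x w z => core h e Z u x w z / (6 * z - 1)) a b (17 / 50) := by
  obtain ⟨hH, B, hB⟩ := box_dec c h hZ hu ha hb hab
  rw [IU_eq c h hZ hu (s := 2) (by norm_num),
    I3_congr (fun x w z _ _ _ => GA_eq c h Z hu h1 x w z)]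
  exact I3_box ha' hb' (by norm_num) hH hB

/-- `σ₀ = 1 / (100 (A + 1))`, `B_count` -/
theorem small_bound (c : Ctx β e q η J) (h : High q η 1 J) : ∃ σ₀ C : ℝ, 0 < σ₀ ∧ 0 ≤ C ∧
    ∀ (Z : ℝ) (A : Finset O), 1 ≤ Z → (∀ u ∈ A, Row q u ∧ u ≠ 1 ∧ nm u ≤ Z ^ σ₀) →
    ∑ u ∈ A, ‖IU h e Z u‖ ≤ C * Z ^ (β + 71 / 100) := by
  obtain ⟨C, A, hC0, hA, hC⟩ := half_line c h
  have he := c.e_pos
  have he' := c.e_le
  have hβ := c.hi
  have hβ' := c.lo
  set σ₀ : ℝ := 1 / (100 * (A + 1)) with hσ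
  have hσ0 : 0 < σ₀ := by positivity
  have hσ1 : σ₀ * (A + 1) = 1 / 100 := by
    rw [hσ]
    field_simp
  refine ⟨σ₀, 11 * (512 * C), hσ0, by positivity, fun Z A' hZ hA' => ?_⟩
  have hZ0 : 0 < Z := by linarith
  have key : ∀ u ∈ A', ‖IU h e Z u‖ ≤ 512 * (C * Z ^ (β + 7 / 10) * Z ^ (σ₀ * A)) := by
    intro u hu
    obtain ⟨hr, h1, hN⟩ := hA' u hu
    rw [IU_shift c h hZ hr h1 (a := β + e) (b := 1 / 2) le_rfl (by linarith) (by norm_num)
      (by norm_num) (by linarith)]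
    refine (I3_norm (hC Z u hZ hr)).trans ?_
    rw [Real.rpow_mul hZ0.le]
    gcongr
    exact nm_nonneg u
  have hc : (A'.card : ℝ) ≤ 11 * Z ^ σ₀ := card_le_of_nm_le (by positivity)
    fun u hu => ⟨row_ne_zero (hA' u hu).1, (hA' u hu).2.2⟩
  refine (Finset.sum_le_card_nsmul _ _ _ key).trans ?_
  rw [nsmul_eq_mul]
  refine (mul_le_mul_of_nonneg_right hc (by positivity)).trans (le_of_eq ?_)
  have : Z ^ (β + 71 / 100) = Z ^ σ₀ * Z ^ (β + 7 / 10) * Z ^ (σ₀ * A) := by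
    rw [← Real.rpow_add hZ0, ← Real.rpow_add hZ0]
    congr 1
    linarith
  rw [this]
  ring

end Crest.Agent.R17.Jb
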