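import Crest.Agent.R17.J.Slot

/-! Row 17, block J: the low side. -/

set_option autoImplicit false

namespace Crest.Agent.R17.Jb

open Complex MeasureTheory
open scoped Real

variable {β e : ℝ} {q : O} {η : O → ℂ} {J : ℕ}

theorem lowa_gw_le {K : ℝ} (hK : 0 < K) (k : O) : gw K k ≤ Real.exp (-(nm k / K)) := by
  rw [gw, Real.exp_le_exp, neg_le_neg_iff, ← div_mul_div_comm]
  refine le_mul_of_one_le_left (div_nonneg (nm_nonneg k) hK.le) ?_
  have h3 : Real.sqrt 3 ≤ 2 := Real.sqrt_le_iff.2 ⟨by norm_num, by norm_num⟩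
  rw [one_le_div (by positivity)]
  linarith [Real.pi_gt_three]

theorem lowa_log {x : ℝ} (hx : 1 ≤ x) : ∃ y, 0 ≤ y ∧ x = Real.exp y :=
  ⟨Real.log x, Real.log_nonneg hx, (Real.exp_log (by linarith)).symm⟩

open Classical in
/-- shells `(m - 1) K < N k ≤ m K`: `gw K k ≤ exp (-(m - 1))` there (`2π/√3 ≥ 1`) -/
theorem gw_shell : ∃ C : ℝ, 0 ≤ C ∧ ∀ (K B : ℝ) (f : O → ℝ), 0 < K → (∀ k, 0 ≤ f k) →
    (∀ (m : ℕ) (A : Finset O), 1 ≤ m → (∀ k ∈ A, k ≠ 0 ∧ nm k ≤ m * K) →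
      ∑ k ∈ A, f k ≤ B * (m : ℝ) ^ 3) →
    Summable (fun k : O => if k = 0 then 0 else gw K k * f k) ∧
      ∑' k : O, (if k = 0 then 0 else gw K k * f k) ≤ C * B := by
  have hs : Summable fun m : ℕ => Real.exp 1 * ((m : ℝ) ^ 3 * Real.exp (-1 * m)) :=
    (Real.summable_pow_mul_exp_neg_nat_mul 3 one_pos).mul_left _
  have hg0 : ∀ m : ℕ, 0 ≤ Real.exp 1 * ((m : ℝ) ^ 3 * Real.exp (-1 * m)) := fun m => by positivity
  refine ⟨∑' m : ℕ, Real.exp 1 * ((m : ℝ) ^ 3 * Real.exp (-1 * m)), tsum_nonneg hg0,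
    fun K B f hK hf hB => ?_⟩
  have hB0 : 0 ≤ B := by simpa using hB 1 ∅ le_rfl (by simp)
  have hnn : ∀ k : O, 0 ≤ (if k = 0 then 0 else gw K k * f k) := fun k => by
    split_ifs
    exacts [le_rfl, mul_nonneg (gw_pos _ _).le (hf k)]
  have key : ∀ A : Finset O, ∑ k ∈ A, (if k = 0 then 0 else gw K k * f k) ≤
      (∑' m : ℕ, Real.exp 1 * ((m : ℝ) ^ 3 * Real.exp (-1 * m))) * B := by
    intro A
    rw [← Finset.sum_erase A (a := 0) (by simp),
      ← Finset.sum_fiberwise_of_maps_to (s := A.erase 0) (g := fun k => ⌈nm k / K⌉₊)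
        (t := (A.erase 0).image fun k => ⌈nm k / K⌉₊) fun k hk => Finset.mem_image_of_mem _ hk]
    refine le_trans ?_ (mul_le_mul_of_nonneg_right
      (hs.sum_le_tsum ((A.erase 0).image fun k => ⌈nm k / K⌉₊) fun m _ => hg0 m) hB0)
    rw [Finset.sum_mul]
    refine Finset.sum_le_sum fun m hm => ?_
    have hm1 : 1 ≤ m := by
      obtain ⟨k, hk, rfl⟩ := Finset.mem_image.1 hm
      exact Nat.ceil_pos.2 (div_pos (nm_pos (Finset.ne_of_mem_erase hk)) hK)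
    have h1 := hB m ((A.erase 0).filter fun k => ⌈nm k / K⌉₊ = m) hm1 fun k hk => by
      obtain ⟨h2, rfl⟩ := Finset.mem_filter.1 hk
      exact ⟨Finset.ne_of_mem_erase h2, (div_le_iff₀ hK).1 (Nat.le_ceil _)⟩
    calc _ ≤ ∑ k ∈ (A.erase 0).filter fun k => ⌈nm k / K⌉₊ = m,
          Real.exp 1 * Real.exp (-1 * m) * f k := by
          refine Finset.sum_le_sum fun k hk => ?_
          obtain ⟨h2, rfl⟩ := Finset.mem_filter.1 hk
          rw [if_neg (Finset.ne_of_mem_erase h2)]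
          refine mul_le_mul_of_nonneg_right ((lowa_gw_le hK k).trans ?_) (hf k)
          rw [← Real.exp_add, Real.exp_le_exp]
          have := Nat.ceil_lt_add_one (div_nonneg (nm_nonneg k) hK.le)
          linarith
      _ ≤ Real.exp 1 * Real.exp (-1 * m) * (B * (m : ℝ) ^ 3) := by
          rw [← Finset.mul_sum]
          exact mul_le_mul_of_nonneg_left h1 (by positivity)
      _ = _ := by ring
  exact ⟨summable_of_sum_le hnn key, Real.tsum_le_of_sum_le hnn key⟩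

theorem lowa_four {a b c d x : ℝ} (ha : a ≤ x) (hb : b ≤ x) (hc : c ≤ x) (hd : d ≤ x) :
    Real.exp a + Real.exp b + Real.exp c + Real.exp d ≤ 4 * Real.exp x := by
  have := Real.exp_le_exp.2 ha
  have := Real.exp_le_exp.2 hb
  have := Real.exp_le_exp.2 hc
  have := Real.exp_le_exp.2 hd
  linarith

open Classical in
/-- `StF` with `(Z, K) := (m Z, m K)` and `gw_shell`; `N = Z`, `K = Z^(5/6) / D²`, `P ≤ Z^(1/6+e) / D`:
the four terms are at most `Z^(2 + 3e) D^(-3)`. -/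
theorem low_TT (hF : StF) (hq : Lev q) (he : 0 < e) (he' : e ≤ 1 / 10000) : ∃ C : ℝ, 0 ≤ C ∧
    ∀ (Z D P : ℝ) (ψ : O → ℂ) (Rs : Finset O) (c : O → ℂ), 1 ≤ Z → 1 ≤ D → 1 ≤ P →
    P * D ≤ Z ^ (1 / 6 + e) → IsTw q ψ →
    (∀ r ∈ Rs, Prim r ∧ Squarefree r ∧ IsCoprime r q ∧ nm r ≤ P) → (∀ r, ‖c r‖ ≤ 1) →
    Summable (fun k : O => if k = 0 then 0 else gw (KK Z / D ^ 2) k * ‖TT ψ 1 Z 0 Rs c k‖ ^ 2) ∧
      ∑' k : O, (if k = 0 then 0 else gw (KK Z / D ^ 2) k * ‖TT ψ 1 Z 0 Rs c k‖ ^ 2) ≤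
        C * Z ^ (2 + 4 * e) / D ^ 3 := by
  obtain ⟨C, hC⟩ := hF q 1 e hq one_pos he
  obtain ⟨C', hC'0, hsh⟩ := gw_shell
  refine ⟨C' * (4 * |C|), by positivity, fun Z D P ψ Rs c hZ hD hP hPD hψ hRs hc => ?_⟩
  obtain ⟨z, hz, rfl⟩ := lowa_log hZ
  obtain ⟨d, hd, rfl⟩ := lowa_log hD
  obtain ⟨p, hp, rfl⟩ := lowa_log hP
  have hw0 : 0 ≤ e * z := by positivity
  have hw1 : e * z ≤ z / 10000 := by nlinarith
  rw [← Real.exp_add, ← Real.exp_mul, Real.exp_le_exp] at hPD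
  have hK : KK (Real.exp z) / Real.exp d ^ 2 = Real.exp (5 / 6 * z - 2 * d) := by
    rw [KK, ← Real.exp_mul, ← Real.exp_nat_mul, ← Real.exp_sub]
    congr 1
    push_cast
    ring
  have hE : Real.exp z ^ (2 + 4 * e) / Real.exp d ^ 3 = Real.exp (2 * z + 4 * (e * z) - 3 * d) := by
    rw [← Real.exp_mul, ← Real.exp_nat_mul, ← Real.exp_sub]
    congr 1
    push_cast
    ring
  rw [hK, mul_div_assoc, hE, mul_assoc]
  refine hsh _ _ _ (Real.exp_pos _) (fun k => by positivity) fun m A hm hA => ?_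
  obtain ⟨μ, hμ, hmμ⟩ := lowa_log (x := m) (by exact_mod_cast hm)
  rw [hmμ, ← Real.exp_add] at hA
  refine (hC ψ (Real.exp (μ + z)) _ (Real.exp z) (Real.exp p) 0 Rs A c hψ
    (Real.one_le_exp (by linarith)) (Real.exp_le_exp.2 (by linarith)) hP
    (Real.exp_le_exp.2 (by linarith)) (by rw [← Real.exp_neg, Real.exp_le_exp]; linarith)
    (Real.exp_le_exp.2 (by linarith)) hRs hc hA).trans ?_
  rw [abs_zero, add_zero, Real.one_rpow, mul_one, hmμ]
  simp only [← Real.exp_add, ← Real.exp_mul, ← Real.exp_nat_mul]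
  have hμe : μ * e ≤ μ := by nlinarith
  rw [mul_assoc, mul_assoc, ← Real.exp_add]
  refine (mul_le_mul_of_nonneg_right (le_abs_self C) (by positivity)).trans ?_
  rw [mul_comm 4, mul_assoc]
  refine mul_le_mul_of_nonneg_left ?_ (abs_nonneg C)
  simp only [mul_add (Real.exp _), ← Real.exp_add]
  refine lowa_four ?_ ?_ ?_ ?_ <;> push_cast <;> linarith

theorem low_CC (hG : StGram) (hq : Lev q) (he : 0 < e) (he' : e ≤ 1 / 10000) : ∃ C : ℝ, 0 ≤ C ∧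
    ∀ (Z D : ℝ) (ψ : O → ℂ), 1 ≤ Z → 1 ≤ D → D ≤ Z ^ (1 / 6 + e) → IsTw q ψ →
    Summable (fun k : O => gw (KK Z / D ^ 2) k * ‖CC ψ 1 (RR Z / D) k‖ ^ 2) ∧
      ∑' k : O, gw (KK Z / D ^ 2) k * ‖CC ψ 1 (RR Z / D) k‖ ^ 2 ≤
        C * Z ^ (4 / 3 + e) / D ^ 2 := by
  obtain ⟨C, hC⟩ := hG q 1 e hq one_pos he
  refine ⟨|C| * 4, by positivity, fun Z D ψ hZ hD hDZ hψ => ?_⟩
  obtain ⟨z, hz, rfl⟩ := lowa_log hZ
  obtain ⟨d, hd, rfl⟩ := lowa_log hD
  have hw0 : 0 ≤ e * z := by positivity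
  have hw1 : e * z ≤ z / 10000 := by nlinarith
  rw [← Real.exp_mul, Real.exp_le_exp] at hDZ
  have hK : KK (Real.exp z) / Real.exp d ^ 2 = Real.exp (5 / 6 * z - 2 * d) := by
    rw [KK, ← Real.exp_mul, ← Real.exp_nat_mul, ← Real.exp_sub]
    congr 1
    push_cast
    ring
  have hR : RR (Real.exp z) / Real.exp d = Real.exp (23 / 48 * z - d) := by
    rw [RR, ← Real.exp_mul, ← Real.exp_sub]
    congr 1
    ring
  have hE : Real.exp z ^ (4 / 3 + e) / Real.exp d ^ 2 = Real.exp (4 / 3 * z + e * z - 2 * d) := by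
    rw [← Real.exp_mul, ← Real.exp_nat_mul, ← Real.exp_sub]
    congr 1
    push_cast
    ring
  rw [hK, hR, mul_div_assoc, hE]
  obtain ⟨h1, h2⟩ := hC ψ (Real.exp z) (Real.exp (5 / 6 * z - 2 * d)) (Real.exp (23 / 48 * z - d))
    hψ (Real.one_le_exp (by linarith)) (Real.exp_le_exp.2 (by linarith))
    (Real.one_le_exp (by linarith)) (Real.exp_le_exp.2 (by linarith))
  refine ⟨h1, h2.trans ?_⟩
  simp only [← Real.exp_add, ← Real.exp_mul, ← Real.exp_nat_mul]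
  rw [mul_assoc, mul_assoc]
  refine (mul_le_mul_of_nonneg_right (le_abs_self C) (by positivity)).trans
    (mul_le_mul_of_nonneg_left ?_ (abs_nonneg C))
  simp only [mul_add (Real.exp _), ← Real.exp_add]
  refine le_trans (le_add_of_nonneg_right (Real.exp_pos _).le) (lowa_four ?_ ?_ ?_ le_rfl) <;>
    push_cast <;> linarith

open Classical in
theorem lwb_subsets {ι : Type*} (T : Finset ι) (g : ι → ℝ) (hg : ∀ p ∈ T, 0 ≤ g p) {y : ℝ}
    (hy : 1 ≤ y) (hs : ∑ p ∈ T, g p ≤ y) (J : ℕ) :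
    ∑ S ∈ T.powerset with S.card ≤ J, ∏ p ∈ S, g p ≤ y ^ J * Real.exp 1 := by
  have hy0 : 0 < y := lt_of_lt_of_le one_pos hy
  have h0 : ∀ S ∈ T.powerset, 0 ≤ ∏ p ∈ S, g p / y := fun S hS =>
    Finset.prod_nonneg fun p hp => div_nonneg (hg p (Finset.mem_powerset.1 hS hp)) hy0.le
  calc _ ≤ ∑ S ∈ T.powerset with S.card ≤ J, y ^ J * ∏ p ∈ S, g p / y := by
        refine Finset.sum_le_sum fun S hS => ?_
        rw [Finset.mem_filter] at hS
        have e1 : ∏ p ∈ S, g p = y ^ S.card * ∏ p ∈ S, g p / y := by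
          rw [Finset.prod_div_distrib, Finset.prod_const]; field_simp
        rw [e1]
        exact mul_le_mul_of_nonneg_right (pow_le_pow_right₀ hy hS.2) (h0 S hS.1)
    _ ≤ ∑ S ∈ T.powerset, y ^ J * ∏ p ∈ S, g p / y :=
        Finset.sum_le_sum_of_subset_of_nonneg (Finset.filter_subset _ _)
          fun S hS _ => mul_nonneg (by positivity) (h0 S hS)
    _ = y ^ J * ∏ p ∈ T, (1 + g p / y) := by rw [← Finset.mul_sum, Finset.prod_one_add]
    _ ≤ y ^ J * Real.exp 1 := by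
        refine mul_le_mul_of_nonneg_left ?_ (by positivity)
        calc _ ≤ ∏ p ∈ T, Real.exp (g p / y) := by
              refine Finset.prod_le_prod (fun p hp => ?_) fun p _ => ?_
              · have := div_nonneg (hg p hp) hy0.le; linarith
              · have := Real.add_one_le_exp (g p / y); linarith
          _ = Real.exp (∑ p ∈ T, g p / y) := (Real.exp_sum _ _).symm
          _ ≤ _ := by
              refine Real.exp_le_exp.2 ?_
              rw [← Finset.sum_div, div_le_one hy0]; exact hs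

open Classical in
theorem lwb_cs {w a b : O → ℝ} (hw : ∀ k, 0 ≤ w k) (ha : ∀ k, 0 ≤ a k) (hb : ∀ k, 0 ≤ b k)
    {l : ℝ} (hl : 0 < l) (h1 : Summable fun k => w k * a k ^ 2)
    (h2 : Summable fun k => if k = 0 then 0 else w k * b k ^ 2) :
    ∑' k : O, (if k = 0 then 0 else w k * (a k * b k)) ≤
      l * ∑' k : O, w k * a k ^ 2 + l⁻¹ * ∑' k : O, (if k = 0 then 0 else w k * b k ^ 2) := by
  have hs := (h1.mul_left l).add (h2.mul_left l⁻¹)
  have hle : ∀ k : O, (if k = 0 then 0 else w k * (a k * b k)) ≤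
      l * (w k * a k ^ 2) + l⁻¹ * (if k = 0 then 0 else w k * b k ^ 2) := by
    intro k
    have := hw k
    split_ifs
    · positivity
    · have h3 : a k * b k ≤ l * a k ^ 2 + l⁻¹ * b k ^ 2 := by
        have h4 : l * a k ^ 2 + l⁻¹ * b k ^ 2 - 2 * (a k * b k) = l⁻¹ * (l * a k - b k) ^ 2 := by
          field_simp; ring
        have h5 : 0 ≤ l⁻¹ * (l * a k - b k) ^ 2 := by positivity
        have h6 := mul_nonneg (ha k) (hb k)
        linarith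
      calc _ ≤ w k * (l * a k ^ 2 + l⁻¹ * b k ^ 2) := mul_le_mul_of_nonneg_left h3 this
        _ = _ := by ring
  have h0 : ∀ k : O, 0 ≤ (if k = 0 then 0 else w k * (a k * b k)) := by
    intro k
    split_ifs
    · exact le_rfl
    · exact mul_nonneg (hw k) (mul_nonneg (ha k) (hb k))
  refine ((Summable.of_nonneg_of_le h0 hle hs).tsum_le_tsum hle hs).trans (le_of_eq ?_)
  rw [(h1.mul_left l).tsum_add (h2.mul_left l⁻¹), tsum_mul_left, tsum_mul_left]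

theorem lwb_inv_sum (he : 0 < e) {Z : ℝ} (hZ : 1 ≤ Z) :
    ∑ p ∈ Psl q J e Z, (nm p)⁻¹ ≤ 11 * Z ^ (2 * e / J) := by
  have hZ0 : 0 < Z := lt_of_lt_of_le one_pos hZ
  have hlo : 0 < Plo J e Z := Real.rpow_pos_of_pos hZ0 _
  have hc : ((Psl q J e Z).card : ℝ) ≤ 11 * Phi J e Z :=
    card_le_of_nm_le (le_trans zero_le_one (one_le_Phi he hZ)) fun n hn =>
      ⟨(mem_Psl.1 hn).1.ne_zero, (mem_Psl.1 hn).2.2.2.2⟩
  calc _ ≤ ∑ _p ∈ Psl q J e Z, (Plo J e Z)⁻¹ :=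
        Finset.sum_le_sum fun p hp => inv_anti₀ hlo (mem_Psl.1 hp).2.2.2.1
    _ = (Psl q J e Z).card * (Plo J e Z)⁻¹ := by rw [Finset.sum_const, nsmul_eq_mul]
    _ ≤ 11 * Phi J e Z * (Plo J e Z)⁻¹ := mul_le_mul_of_nonneg_right hc (by positivity)
    _ = 11 * Z ^ (2 * e / J) := by
        rw [mul_assoc, Phi, Plo, ← Real.rpow_neg hZ0.le, ← Real.rpow_add hZ0]
        congr 2
        ring

/-- `h.low`; for `S` with `s` elements, `D = ∏_{p ∈ S} N p ∈ [Plo^s, Phi^s]`, marks `≤ Phi^(J-s)`, so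
`Phi^(J-s) · D ≤ Z^(1/6+e)`.  Cauchy–Schwarz (or `2ab ≤ λa² + b²/λ`) gives `C Z^(5/3+3e) D^(-2)` for
the `k`-sum, the weight is `≤ D`, and `∑_{#S = s} D⁻¹ ≤ (#Psl / Plo)^s ≤ (C Z^(2e/J))^s`
(`B_count`, `Finset.card_powersetCard`, `Nat.choose_le_pow`). -/
theorem low_bound (hG : StGram) (hF : StF) (c : Ctx β e q η J) (h : High q η 1 J) :
    ∃ C : ℝ, 0 ≤ C ∧ ∀ Z : ℝ, 1 ≤ Z → ‖II h e Z‖ ≤ C * Z ^ (5 / 3 + 5 * e) := by
  classical
  obtain ⟨CT, hCT, hT⟩ := low_TT hF c.lev c.e_pos c.e_le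
  obtain ⟨CG, hCG, hC⟩ := low_CC hG c.lev c.e_pos c.e_le
  have hC₁ := h.C₁_nonneg
  have he := c.e_pos
  refine ⟨h.C₁ * (h.m * (CG + CT)) * (11 ^ J * Real.exp 1), by positivity, fun Z hZ => ?_⟩
  have hZ0 : 0 < Z := lt_of_lt_of_le one_pos hZ
  have hsl := slots_Psl (q := q) (J := J) he hZ
  obtain ⟨Rs, cc, hcc, hRs, -, hI⟩ := h.low (Phi J e Z) (Psl q J e Z) (wt J Z) Z (RR Z) (KK Z) hsl
    hZ0 (Real.rpow_pos_of_pos hZ0 _) (Real.rpow_pos_of_pos hZ0 _)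
  have hPhi : 1 ≤ Phi J e Z := one_le_Phi he hZ
  have key : ∀ S ∈ (Psl q J e Z).powerset.filter (fun S => S.card ≤ J),
      (∏ p ∈ S, ‖wt J Z p‖ * nm p) *
        ∑ i, ∑' k : O, (if k = 0 then 0 else gw (KK Z / (∏ p ∈ S, nm p) ^ 2) k *
          (‖CC (h.ψ₁ i) 1 (RR Z / ∏ p ∈ S, nm p) k‖ * ‖TT (h.ψ₂ i) 1 Z 0 (Rs S) cc k‖)) ≤
      h.m * (CG + CT) * Z ^ (5 / 3 + 3 * e) * ∏ p ∈ S, (nm p)⁻¹ := by
    intro S hS
    rw [Finset.mem_filter, Finset.mem_powerset] at hS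
    have hmem : ∀ p ∈ S, 1 ≤ nm p ∧ nm p ≤ Phi J e Z := fun p hp =>
      ⟨one_le_nm (mem_Psl.1 (hS.1 hp)).1.ne_zero, (mem_Psl.1 (hS.1 hp)).2.2.2.2⟩
    set D : ℝ := ∏ p ∈ S, nm p with hD
    have hD1 : 1 ≤ D := Finset.one_le_prod fun p hp => (hmem p hp).1
    have hD0 : 0 < D := lt_of_lt_of_le one_pos hD1
    have hD2 : D ≤ Phi J e Z ^ S.card := by
      rw [← Finset.prod_const]
      exact Finset.prod_le_prod (fun p _ => nm_nonneg p) fun p hp => (hmem p hp).2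
    have hP1 : 1 ≤ Phi J e Z ^ (J - S.card) := one_le_pow₀ hPhi
    have hPD : Phi J e Z ^ (J - S.card) * D ≤ Z ^ (1 / 6 + e) := by
      calc _ ≤ Phi J e Z ^ (J - S.card) * Phi J e Z ^ S.card :=
            mul_le_mul_of_nonneg_left hD2 (by positivity)
        _ = _ := by rw [← pow_add, Nat.sub_add_cancel hS.2, Phi_pow c.J_pos e hZ0]
    have hD3 : D ≤ Z ^ (1 / 6 + e) := le_trans (le_mul_of_one_le_left hD0.le hP1) hPD
    have hw : ∏ p ∈ S, ‖wt J Z p‖ * nm p ≤ D :=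
      Finset.prod_le_prod (fun p _ => mul_nonneg (norm_nonneg _) (nm_nonneg p)) fun p _ =>
        mul_le_of_le_one_left (nm_nonneg p) (hsl.2.2 p)
    have hk : ∀ i : Fin h.m, ∑' k : O, (if k = 0 then 0 else gw (KK Z / D ^ 2) k *
          (‖CC (h.ψ₁ i) 1 (RR Z / D) k‖ * ‖TT (h.ψ₂ i) 1 Z 0 (Rs S) cc k‖)) ≤
        (CG + CT) * Z ^ (5 / 3 + 3 * e) / D ^ 2 := by
      intro i
      obtain ⟨s1, b1⟩ := hC Z D (h.ψ₁ i) hZ hD1 hD3 (h.tw₁ i)
      obtain ⟨s2, b2⟩ := hT Z D _ (h.ψ₂ i) (Rs S) cc hZ hD1 hP1 hPD (h.tw₂ i) (hRs S) hcc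
      have hl : 0 < Z ^ (1 / 3 + 2 * e) := Real.rpow_pos_of_pos hZ0 _
      refine (lwb_cs (fun k => (Real.exp_pos _).le) (fun k => norm_nonneg _)
        (fun k => norm_nonneg _) hl s1 s2).trans ?_
      have e1 : Z ^ (1 / 3 + 2 * e) * Z ^ (4 / 3 + e) = Z ^ (5 / 3 + 3 * e) := by
        rw [← Real.rpow_add hZ0]; congr 1; ring
      have e2 : (Z ^ (1 / 3 + 2 * e))⁻¹ * Z ^ (2 + 4 * e) ≤ Z ^ (5 / 3 + 3 * e) := by
        rw [← Real.rpow_neg hZ0.le, ← Real.rpow_add hZ0]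
        exact Real.rpow_le_rpow_of_exponent_le hZ (by linarith)
      have e3 : CT * Z ^ (2 + 4 * e) / D ^ 3 ≤ CT * Z ^ (2 + 4 * e) / D ^ 2 :=
        div_le_div_of_nonneg_left (by positivity) (by positivity)
          (pow_le_pow_right₀ hD1 (by norm_num))
      calc _ ≤ Z ^ (1 / 3 + 2 * e) * (CG * Z ^ (4 / 3 + e) / D ^ 2) +
            (Z ^ (1 / 3 + 2 * e))⁻¹ * (CT * Z ^ (2 + 4 * e) / D ^ 2) :=
            add_le_add (mul_le_mul_of_nonneg_left b1 hl.le)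
              (mul_le_mul_of_nonneg_left (b2.trans e3) (by positivity))
        _ = (CG * (Z ^ (1 / 3 + 2 * e) * Z ^ (4 / 3 + e)) +
              CT * ((Z ^ (1 / 3 + 2 * e))⁻¹ * Z ^ (2 + 4 * e))) / D ^ 2 := by ring
        _ ≤ (CG * Z ^ (5 / 3 + 3 * e) + CT * Z ^ (5 / 3 + 3 * e)) / D ^ 2 := by
            rw [e1]
            exact div_le_div_of_nonneg_right
              (add_le_add le_rfl (mul_le_mul_of_nonneg_left e2 hCT)) (by positivity)
        _ = _ := by ring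
    have hk0 : 0 ≤ ∑ i : Fin h.m, ∑' k : O, (if k = 0 then 0 else gw (KK Z / D ^ 2) k *
          (‖CC (h.ψ₁ i) 1 (RR Z / D) k‖ * ‖TT (h.ψ₂ i) 1 Z 0 (Rs S) cc k‖)) := by
      refine Finset.sum_nonneg fun i _ => tsum_nonneg fun k => ?_
      split_ifs
      · exact le_rfl
      · exact mul_nonneg (Real.exp_pos _).le (by positivity)
    calc _ ≤ D * ∑ _i : Fin h.m, (CG + CT) * Z ^ (5 / 3 + 3 * e) / D ^ 2 :=
          mul_le_mul hw (Finset.sum_le_sum fun i _ => hk i) hk0 hD0.le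
      _ = _ := by
          rw [Finset.sum_const, Finset.card_univ, Fintype.card_fin, nsmul_eq_mul,
            Finset.prod_inv_distrib, ← hD]
          field_simp
  have hy : 1 ≤ 11 * Z ^ (2 * e / J) := by
    have := Real.one_le_rpow hZ (show 0 ≤ 2 * e / J by positivity)
    linarith
  have hsub := lwb_subsets (Psl q J e Z) (fun p => (nm p)⁻¹)
    (fun p _ => inv_nonneg.2 (nm_nonneg p)) hy (lwb_inv_sum he hZ) J
  have hJ0 : (J : ℝ) ≠ 0 := by
    have := c.J_pos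
    positivity
  have e4 : (11 * Z ^ (2 * e / J)) ^ J = 11 ^ J * Z ^ (2 * e) := by
    rw [mul_pow, ← Real.rpow_natCast (Z ^ (2 * e / J)), ← Real.rpow_mul hZ0.le,
      div_mul_cancel₀ _ hJ0]
  have e5 : Z ^ (5 / 3 + 5 * e) = Z ^ (5 / 3 + 3 * e) * Z ^ (2 * e) := by
    rw [← Real.rpow_add hZ0]; congr 1; ring
  unfold II
  refine hI.trans ?_
  calc _ ≤ h.C₁ * ∑ S ∈ (Psl q J e Z).powerset with S.card ≤ J,
          h.m * (CG + CT) * Z ^ (5 / 3 + 3 * e) * ∏ p ∈ S, (nm p)⁻¹ :=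
        mul_le_mul_of_nonneg_left (Finset.sum_le_sum key) hC₁
    _ ≤ h.C₁ * (h.m * (CG + CT) * Z ^ (5 / 3 + 3 * e) *
          ((11 * Z ^ (2 * e / J)) ^ J * Real.exp 1)) := by
        rw [← Finset.mul_sum]
        exact mul_le_mul_of_nonneg_left (mul_le_mul_of_nonneg_left hsub (by positivity)) hC₁
    _ = _ := by rw [e4, e5]; ring

end Crest.Agent.R17.Jb
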