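import Crest.Agent.R17.J.I3

/-!
Row 17, block J: the truncated shift for a finite family.

Recipe.  `‖I3 F a₂ b c‖ ≤ ∫_{(t₂,t₃)} ‖∫_{t₁} F‖` (Fubini).  For `|t₂|, |t₃| ≤ T` the inner integral is at most
`(8 m(t₃) + 27 B₁ e^{-T/4}) e^{-(|t₂|+|t₃|)/4}` (`VT_rect`, two tails `∫_{|t|>T} e^{-|t|/4} = 8 e^{-T/4}`);
otherwise at most `8 B₁ e^{-(|t₂|+|t₃|)/4}`.  Integrate (`norm_integral_le_of_norm_le`) to get
`trunc_one`; then sum over the family under the `t₃`-integral.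
-/

set_option autoImplicit false

namespace Crest.Agent.R17.Jb

open Complex MeasureTheory
open scoped Real

theorem tr_tail {T : ℝ} (hT : 0 ≤ T) :
    ∫ t : ℝ, (Set.Icc (-T) T)ᶜ.indicator (fun t => Real.exp (-|t| / 4)) t = 8 * Real.exp (-T / 4) := by
  have e : (fun t : ℝ => (Set.Icc (-T) T)ᶜ.indicator (fun t => Real.exp (-|t| / 4)) t) =
      fun t => (Set.Ioi T).indicator (fun x => Real.exp (-1 / 4 * x)) |t| := by
    funext t
    by_cases h : T < |t|
    · rw [Set.indicator_of_mem (show t ∈ (Set.Icc (-T) T)ᶜ from fun h' => absurd (abs_le.2 h') h.not_ge),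
        Set.indicator_of_mem (show |t| ∈ Set.Ioi T from h)]
      congr 1; ring
    · rw [Set.indicator_of_notMem (show t ∉ (Set.Icc (-T) T)ᶜ from fun h' => h' (abs_le.1 (not_lt.1 h))),
        Set.indicator_of_notMem (show |t| ∉ Set.Ioi T from h)]
  rw [e, integral_comp_abs (f := (Set.Ioi T).indicator fun x => Real.exp (-1 / 4 * x)),
    setIntegral_indicator measurableSet_Ioi, Set.Ioi_inter_Ioi, sup_eq_right.2 hT,
    integral_exp_mul_Ioi (by norm_num), show -1 / 4 * T = -T / 4 by ring]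
  ring

theorem tr_mid {T : ℝ} (hT : 0 ≤ T) : ∫ t in (-T)..T, Real.exp (-|t| / 4) ≤ 8 := by
  rw [intervalIntegral.integral_of_le (by linarith), ← integral_E1]
  exact setIntegral_le_integral integrable_E1 (Filter.Eventually.of_forall fun t => (Real.exp_pos _).le)

/-- the one-dimensional truncated shift -/
theorem tr_line {f : ℂ → ℂ} {a a₂ T B M : ℝ} (hT : 0 ≤ T) (ha : a ≤ a₂) (ha' : a₂ ≤ a + 3)
    (hc : Continuous fun t : ℝ => f (a₂ + t * I))
    (hb : ∀ t : ℝ, ‖f (a₂ + t * I)‖ ≤ B * Real.exp (-|t| / 4))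
    (hd : DifferentiableOn ℂ f (rect a a₂ 0 T))
    (hb' : ∀ s ∈ rect a a₂ 0 T, ‖f s‖ ≤ B * Real.exp (-|s.im| / 4))
    (hM : ∀ t : ℝ, |t| ≤ T → ‖f (a + t * I)‖ ≤ M * Real.exp (-|t| / 4)) :
    ‖∫ t : ℝ, f (a₂ + t * I)‖ ≤ 8 * M + 27 * B * Real.exp (-T / 4) := by
  have B0 : 0 ≤ B := nonneg_of_mul_nonneg_left ((norm_nonneg _).trans (hb 0)) (Real.exp_pos _)
  have M0 : 0 ≤ M :=
    nonneg_of_mul_nonneg_left ((norm_nonneg _).trans (hM 0 (by simpa using hT))) (Real.exp_pos _)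
  have hi : Integrable fun t : ℝ => f (a₂ + t * I) :=
    (integrable_E1.const_mul B).mono' hc.aestronglyMeasurable (Filter.Eventually.of_forall hb)
  have h1 : ‖∫ t in (Set.Icc (-T) T)ᶜ, f (a₂ + t * I)‖ ≤ B * (8 * Real.exp (-T / 4)) := by
    rw [← tr_tail hT, ← integral_const_mul, ← integral_indicator measurableSet_Icc.compl]
    refine norm_integral_le_of_norm_le ((integrable_E1.indicator measurableSet_Icc.compl).const_mul B)
      (Filter.Eventually.of_forall fun t => ?_)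
    by_cases h : t ∈ (Set.Icc (-T) T)ᶜ
    · rw [Set.indicator_of_mem h, Set.indicator_of_mem h]; exact hb t
    · rw [Set.indicator_of_notMem h, Set.indicator_of_notMem h]; simp
  have h2 : ‖∫ t in (-T)..T, f (a + t * I)‖ ≤ M * 8 := by
    refine (intervalIntegral.norm_integral_le_of_norm_le (g := fun t => M * Real.exp (-|t| / 4))
      (by linarith) (Filter.Eventually.of_forall fun t ht => hM t (abs_le.2 ⟨ht.1.le, ht.2⟩))
      (integrable_E1.const_mul M).intervalIntegrable).trans ?_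
    rw [intervalIntegral.integral_const_mul]
    exact mul_le_mul_of_nonneg_left (tr_mid hT) M0
  have h3 := VT_rect (M := B * Real.exp (-T / 4)) ha hT hd fun s hs hs' => by
    have := hb' s hs
    rwa [show |s.im| = T by simpa using hs'] at this
  simp only [VT, zero_sub, zero_add, ← mul_sub, norm_mul, Complex.norm_real] at h3
  have hpi := Real.pi_pos
  rw [Real.norm_of_nonneg (by positivity), one_div, inv_mul_le_iff₀ (by positivity)] at h3
  have h4 : 2 * π * ((a₂ - a) * (B * Real.exp (-T / 4))) ≤ 19 * (B * Real.exp (-T / 4)) := by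
    rw [← mul_assoc]
    refine mul_le_mul_of_nonneg_right ?_ (by positivity)
    have := Real.pi_lt_d2
    nlinarith
  rw [← integral_add_compl (s := Set.Icc (-T) T) measurableSet_Icc hi, integral_Icc_eq_integral_Ioc,
    ← intervalIntegral.integral_of_le (by linarith)]
  have h5 := norm_add_le ((∫ t in (-T)..T, f (a₂ + t * I)) - ∫ t in (-T)..T, f (a + t * I))
    (∫ t in (-T)..T, f (a + t * I))
  rw [sub_add_cancel] at h5
  refine (norm_add_le _ _).trans ?_
  linarith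

theorem tr_E3 (a b c t₁ t₂ t₃ : ℝ) : E3 (a + t₁ * I) (b + t₂ * I) (c + t₃ * I) =
    Real.exp (-|t₁| / 4) * (Real.exp (-|t₂| / 4) * Real.exp (-|t₃| / 4)) := by
  rw [E3, ← Real.exp_add, ← Real.exp_add]
  congr 1
  simp only [add_im, ofReal_im, mul_im, ofReal_re, I_im, I_re, mul_one, mul_zero, zero_add, add_zero]
  ring

theorem tr_E3' (x : ℂ) (b c t₂ t₃ : ℝ) : E3 x (b + t₂ * I) (c + t₃ * I) =
    Real.exp (-|x.im| / 4) * (Real.exp (-|t₂| / 4) * Real.exp (-|t₃| / 4)) := by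
  rw [E3, ← Real.exp_add, ← Real.exp_add]
  congr 1
  simp only [add_im, ofReal_im, mul_im, ofReal_re, I_im, I_re, mul_one, mul_zero, zero_add, add_zero]
  ring

theorem trunc_one {F : ℂ → ℂ → ℂ → ℂ} {a a₂ b c T B₁ : ℝ} {m : ℝ → ℝ} (hT : 0 ≤ T) (ha : a ≤ a₂)
    (ha' : a₂ ≤ a + 3) (hm : Continuous m) (h0 : Hol3 F (Box a₂ a₂ b b c c))
    (h0' : Dec3 F (Box a₂ a₂ b b c c) B₁) (h1 : Hol3 F (TBox a a₂ b c T))
    (h1' : Dec3 F (TBox a a₂ b c T) B₁)
    (h2 : ∀ x w z, (x, w, z) ∈ TBox a a b c T → ‖F x w z‖ ≤ m z.im * E3 x w z) :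
    ‖I3 F a₂ b c‖ ≤ 64 * (∫ τ in (-T)..T, m τ * Real.exp (-|τ| / 4)) +
      4000 * B₁ * Real.exp (-T / 4) := by
  set e : ℝ → ℝ := fun t => Real.exp (-|t| / 4) with he
  set S : Set ℝ := Set.Icc (-T) T with hS
  have e0 : ∀ t, 0 < e t := fun t => Real.exp_pos _
  have hbox : ∀ t₁ t₂ t₃ : ℝ, ((a₂ : ℂ) + t₁ * I, (b : ℂ) + t₂ * I, (c : ℂ) + t₃ * I) ∈
      Box a₂ a₂ b b c c := fun t₁ t₂ t₃ => by simp [Box]
  have hb : ∀ t₁ t₂ t₃ : ℝ, ‖F (a₂ + t₁ * I) (b + t₂ * I) (c + t₃ * I)‖ ≤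
      B₁ * (e t₁ * (e t₂ * e t₃)) := fun t₁ t₂ t₃ => by
    have := h0' _ _ _ (hbox t₁ t₂ t₃)
    rwa [tr_E3] at this
  have B0 : 0 ≤ B₁ := nonneg_of_mul_nonneg_left ((norm_nonneg _).trans (hb 0 0 0))
    (mul_pos (e0 _) (mul_pos (e0 _) (e0 _)))
  have hc : Continuous fun t : ℝ × ℝ × ℝ => F (a₂ + t.1 * I) (b + t.2.1 * I) (c + t.2.2 * I) :=
    h0.cont.comp_continuous
      (f := fun t : ℝ × ℝ × ℝ => ((a₂ : ℂ) + t.1 * I, (b : ℂ) + t.2.1 * I, (c : ℂ) + t.2.2 * I))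
      (by fun_prop) fun t => hbox _ _ _
  have ie : Integrable e := integrable_E1
  have iτ : Integrable (Sᶜ.indicator e) := ie.indicator measurableSet_Icc.compl
  have im : Integrable (S.indicator fun t => m t * e t) :=
    (integrable_indicator_iff measurableSet_Icc).2
      ((hm.mul (by rw [he]; fun_prop)).continuousOn.integrableOn_Icc)
  have hi : Integrable (fun t : ℝ × ℝ × ℝ => F (a₂ + t.1 * I) (b + t.2.1 * I) (c + t.2.2 * I))
      ((volume : Measure ℝ).prod ((volume : Measure ℝ).prod (volume : Measure ℝ))) :=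
    ((ie.mul_prod (ie.mul_prod ie)).const_mul B₁).mono' hc.aestronglyMeasurable
      (Filter.Eventually.of_forall fun t => hb _ _ _)
  have i1 := (ie.mul_prod im).const_mul 8
  have i2 := (ie.mul_prod ie).const_mul (27 * B₁ * Real.exp (-T / 4))
  have i3 := (iτ.mul_prod ie).const_mul (8 * B₁)
  have i4 := (ie.mul_prod iτ).const_mul (8 * B₁)
  have key : ∀ y : ℝ × ℝ, ‖∫ t : ℝ, F (a₂ + t * I) (b + y.1 * I) (c + y.2 * I)‖ ≤
      8 * (e y.1 * S.indicator (fun t => m t * e t) y.2) +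
        27 * B₁ * Real.exp (-T / 4) * (e y.1 * e y.2) +
        8 * B₁ * (Sᶜ.indicator e y.1 * e y.2) + 8 * B₁ * (e y.1 * Sᶜ.indicator e y.2) := by
    rintro ⟨t₂, t₃⟩
    simp only
    have p2 := e0 t₂
    have p3 := e0 t₃
    have hm0 : t₃ ∈ S → 0 ≤ m t₃ := fun h => by
      have := h2 a b (c + t₃ * I) (by simp [TBox, Box, hT, abs_le.2 h])
      rw [show ((c : ℂ) + t₃ * I).im = t₃ by simp] at this
      exact nonneg_of_mul_nonneg_left ((norm_nonneg _).trans this) (Real.exp_pos _)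
    have q1 : 0 ≤ S.indicator (fun t => m t * e t) t₃ :=
      Set.indicator_apply_nonneg fun h => mul_nonneg (hm0 h) p3.le
    have q2 : 0 ≤ Sᶜ.indicator e t₂ := Set.indicator_apply_nonneg fun _ => p2.le
    have q3 : 0 ≤ Sᶜ.indicator e t₃ := Set.indicator_apply_nonneg fun _ => p3.le
    have triv : ‖∫ t : ℝ, F (a₂ + t * I) (b + t₂ * I) (c + t₃ * I)‖ ≤ 8 * B₁ * (e t₂ * e t₃) := by
      refine (norm_integral_le_of_norm_le ((ie.mul_const (e t₂ * e t₃)).const_mul B₁)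
        (Filter.Eventually.of_forall fun t => hb t t₂ t₃)).trans ?_
      rw [integral_const_mul, integral_mul_const, he, integral_E1]
      exact le_of_eq (by ring)
    have r1 : 0 ≤ 8 * (e t₂ * S.indicator (fun t => m t * e t) t₃) := by positivity
    have r2 : 0 ≤ 27 * B₁ * Real.exp (-T / 4) * (e t₂ * e t₃) := by positivity
    have r3 : 0 ≤ 8 * B₁ * (Sᶜ.indicator e t₂ * e t₃) := by positivity
    have r4 : 0 ≤ 8 * B₁ * (e t₂ * Sᶜ.indicator e t₃) := by positivity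
    by_cases k2 : t₂ ∈ S
    · by_cases k3 : t₃ ∈ S
      · have mem : ∀ {a' : ℝ} {x : ℂ}, x ∈ rect a a' 0 T →
            (x, (b : ℂ) + t₂ * I, (c : ℂ) + t₃ * I) ∈ TBox a a' b c T := by
          intro a' x hx
          have h3 : |x.im| ≤ T := by simpa using hx.2.2
          simp [TBox, Box, hx.1, hx.2.1, h3, abs_le.2 k2, abs_le.2 k3]
        have := tr_line (f := fun x => F x (b + t₂ * I) (c + t₃ * I)) (B := B₁ * (e t₂ * e t₃))
          (M := m t₃ * (e t₂ * e t₃)) hT ha ha'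
          (hc.comp (f := fun t : ℝ => (t, t₂, t₃)) (by fun_prop))
          (fun t => (hb t t₂ t₃).trans_eq (by ring))
          ((h1.d1 _ _).mono fun x hx => mem hx)
          (fun s hs => by
            have := h1' _ _ _ (mem hs)
            rw [tr_E3'] at this
            exact this.trans_eq (by ring))
          (fun t ht => by
            have := h2 _ _ _ (mem (a' := a) (x := a + t * I) (by simp [rect, ht]))
            rw [tr_E3, show ((c : ℂ) + t₃ * I).im = t₃ by simp] at this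
            exact this.trans_eq (by ring))
        rw [Set.indicator_of_mem k3]
        have e1 : 8 * (m t₃ * (e t₂ * e t₃)) + 27 * (B₁ * (e t₂ * e t₃)) * Real.exp (-T / 4) =
            8 * (e t₂ * (m t₃ * e t₃)) + 27 * B₁ * Real.exp (-T / 4) * (e t₂ * e t₃) := by ring
        linarith
      · rw [Set.indicator_of_mem (show t₃ ∈ Sᶜ from k3)]
        linarith
    · rw [Set.indicator_of_mem (show t₂ ∈ Sᶜ from k2)]
      linarith
  have hI : I3 F a₂ b c = ∫ y : ℝ × ℝ, (∫ t : ℝ, F (a₂ + t * I) (b + y.1 * I) (c + y.2 * I))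
      ∂((volume : Measure ℝ).prod (volume : Measure ℝ)) := integral_prod_symm _ hi
  rw [hI]
  refine (norm_integral_le_of_norm_le (((i1.add i2).add i3).add i4)
    (Filter.Eventually.of_forall key)).trans ?_
  rw [integral_add' ((i1.add i2).add i3) i4, integral_add' (i1.add i2) i3, integral_add' i1 i2]
  simp only [integral_const_mul, integral_prod_mul]
  have v1 : ∫ t, e t = 8 := integral_E1
  have v2 : ∫ t, Sᶜ.indicator e t = 8 * Real.exp (-T / 4) := tr_tail hT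
  have v3 : ∫ t, S.indicator (fun t => m t * e t) t = ∫ τ in (-T)..T, m τ * e τ := by
    rw [integral_indicator measurableSet_Icc, integral_Icc_eq_integral_Ioc,
      ← intervalIntegral.integral_of_le (by linarith)]
  rw [v1, v2, v3]
  have : 0 ≤ B₁ * Real.exp (-T / 4) := by positivity
  nlinarith

theorem trunc_sum {ι : Type*} (A : Finset ι) {F : ι → ℂ → ℂ → ℂ → ℂ} {a b : ι → ℝ}
    {a₂ c T B₁ B₂ : ℝ} {m : ι → ℝ → ℝ} (hT : 0 ≤ T) (hB₂ : 0 ≤ B₂) (ha : ∀ u ∈ A, a u ≤ a₂)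
    (ha' : ∀ u ∈ A, a₂ ≤ a u + 3) (hm : ∀ u ∈ A, Continuous (m u))
    (h0 : ∀ u ∈ A, Hol3 (F u) (Box a₂ a₂ (b u) (b u) c c))
    (h0' : ∀ u ∈ A, Dec3 (F u) (Box a₂ a₂ (b u) (b u) c c) B₁)
    (h1 : ∀ u ∈ A, Hol3 (F u) (TBox (a u) a₂ (b u) c T))
    (h1' : ∀ u ∈ A, Dec3 (F u) (TBox (a u) a₂ (b u) c T) B₁)
    (h2 : ∀ u ∈ A, ∀ x w z, (x, w, z) ∈ TBox (a u) (a u) (b u) c T →
      ‖F u x w z‖ ≤ m u z.im * E3 x w z)
    (hs : ∀ τ : ℝ, |τ| ≤ T → ∑ u ∈ A, m u τ ≤ B₂) :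
    ∑ u ∈ A, ‖I3 (F u) a₂ (b u) c‖ ≤ 512 * B₂ + 4000 * A.card * B₁ * Real.exp (-T / 4) := by
  refine (Finset.sum_le_sum fun u hu => trunc_one hT (ha u hu) (ha' u hu) (hm u hu) (h0 u hu)
    (h0' u hu) (h1 u hu) (h1' u hu) (h2 u hu)).trans ?_
  have ce : Continuous fun τ : ℝ => Real.exp (-|τ| / 4) := by fun_prop
  have ii : ∀ u ∈ A, IntervalIntegrable (fun τ => m u τ * Real.exp (-|τ| / 4)) volume (-T) T :=
    fun u hu => ((hm u hu).mul ce).intervalIntegrable _ _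
  rw [Finset.sum_add_distrib, ← Finset.mul_sum, Finset.sum_const, nsmul_eq_mul,
    ← intervalIntegral.integral_finsetSum ii]
  have h3 : ∫ τ in (-T)..T, ∑ u ∈ A, m u τ * Real.exp (-|τ| / 4) ≤
      ∫ τ in (-T)..T, B₂ * Real.exp (-|τ| / 4) := by
    refine intervalIntegral.integral_mono_on (by linarith)
      ((continuous_finsetSum A fun u hu => (hm u hu).mul ce).intervalIntegrable _ _)
      ((continuous_const.mul ce).intervalIntegrable _ _) fun τ hτ => ?_
    rw [← Finset.sum_mul]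
    exact mul_le_mul_of_nonneg_right (hs τ (abs_le.2 hτ)) (Real.exp_pos _).le
  rw [intervalIntegral.integral_const_mul] at h3
  have h4 := mul_le_mul_of_nonneg_left (tr_mid hT) hB₂
  nlinarith

end Crest.Agent.R17.Jb
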