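import Crest.Agent.R17.J.Row
import Crest.Agent.R17.J.Amp
import Crest.Agent.R17.J.Trunc

/-! Row 17, block J: the rows of intermediate length. -/

set_option autoImplicit false

namespace Crest.Agent.R17.Jb

open Complex MeasureTheory
open scoped Real

variable {β e : ℝ} {q : O} {η : O → ℂ} {J : ℕ}

theorem mida_bin {Z x σ₀ e : ℝ} (hZ : 1 < Z) (he : 0 < e) (he' : e ≤ 1 / 10000) (hσ : 0 < σ₀)
    (h1 : Z ^ σ₀ < x) (h2 : x ≤ Z ^ (13 / 16 + 2 * e)) :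
    ∃ j : ℕ, (j : ℝ) ≤ 1 / e ∧ σ₀ + j * e ≤ 13 / 16 + 3 * e ∧ x ≤ Z ^ (σ₀ + j * e) ∧
      ∀ b : ℝ, 51 / 100 ≤ b → b ≤ 1 →
        x ^ (b - 21 / 25 + 4 * e) ≤ Z ^ ((σ₀ + j * e) * (b - 21 / 25) + 5 * e) := by
  have hZ0 : 0 < Z := by linarith
  have hx : 0 < x := (Real.rpow_pos_of_pos hZ0 _).trans h1
  obtain ⟨t, rfl⟩ : ∃ t : ℝ, x = Z ^ t :=
    ⟨Real.logb Z x, (Real.rpow_logb hZ0 hZ.ne' hx).symm⟩
  rw [Real.rpow_lt_rpow_left_iff hZ] at h1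
  rw [Real.rpow_le_rpow_left_iff hZ] at h2
  have hp : 0 ≤ (t - σ₀) / e := div_nonneg (by linarith) he.le
  have a1 := Nat.le_ceil ((t - σ₀) / e)
  have a2 := Nat.ceil_lt_add_one hp
  rw [div_le_iff₀ he] at a1
  rw [← sub_lt_iff_lt_add, lt_div_iff₀ he] at a2
  refine ⟨⌈(t - σ₀) / e⌉₊, ?_, by linarith, Real.rpow_le_rpow_of_exponent_le hZ.le (by linarith),
    fun b hb hb' => ?_⟩
  · rw [le_div_iff₀ he]; linarith
  · rw [← Real.rpow_mul hZ0.le]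
    refine Real.rpow_le_rpow_of_exponent_le hZ.le ?_
    have b1 : 0 ≤ (σ₀ + ⌈(t - σ₀) / e⌉₊ * e - t) * (b - 21 / 25 + 1) :=
      mul_nonneg (by linarith) (by linarith)
    have b2 : t * e ≤ 1 * e := mul_le_mul_of_nonneg_right (by linarith) he.le
    linarith

/-- Fibres of `u ↦ (j u, i u, n u)`, `j u` the least `j` with `N u ≤ Z^(σ₀ + j e)`; then `1 ≤ j ≤ 1/e`,
`μ = σ₀ + j e ≤ 13/16 + 3e`, `Z^(μ - e) < N u ≤ Z^μ`, so `N u^(b - 21/25 + 4e) ≤ Z^(μ (b - 21/25) + 5e)`.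
At most `(1/e + 1)³` fibres (`Finset.sum_fiberwise_of_maps_to`), `amp_sum` on each. -/
theorem mid_sum {C₀ σ₀ : ℝ} (hC₀ : 0 ≤ C₀) (hC : CountC C₀) (c : Ctx β e q η J) (hσ : 0 < σ₀) :
    ∃ C : ℝ, 0 ≤ C ∧ ∀ (Z τ : ℝ) (A : Finset O) (i n : O → ℕ), C ≤ Z →
    |τ| ≤ Real.log Z ^ 2 / 4 →
    (∀ u ∈ A, Row q u ∧ Z ^ σ₀ < nm u ∧ nm u ≤ Z ^ (13 / 16 + 2 * e) ∧ (i u : ℝ) ≤ 1 / e ∧
      (n u : ℝ) ≤ 1 / e ∧ Zs q u (grid β e (n u)) e (i u * Real.log Z ^ 2) Z) →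
    ∑ u ∈ A, Z ^ ex (grid β e (n u) + 3 * e) (1 - grid β e (n u) - e) (17 / 50) *
        nm u ^ (grid β e (n u) - 21 / 25 + 4 * e) * amp q J e Z u ((17 / 50 : ℝ) + τ * I) ≤
      C * Z ^ (5 / 3 + (β - 7 / 8) / 2 + C₀ / (6 * J) + (C₀ + 15) * e) := by
  classical
  obtain ⟨C₁, hC₁, H⟩ := amp_sum hC₀ hC c hσ
  obtain ⟨N, hN⟩ : ∃ N : ℕ, ∀ k : ℕ, (k : ℝ) ≤ 1 / e → k ∈ Finset.range N :=
    ⟨⌊1 / e⌋₊ + 1, fun k hk => Finset.mem_range.2 (Nat.lt_succ_of_le (Nat.le_floor hk))⟩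
  have hN3 : 0 ≤ (N : ℝ) ^ 3 * C₁ := by positivity
  refine ⟨N ^ 3 * C₁ + C₁ + 2, by positivity, fun Z τ A i n hZ hτ hA => ?_⟩
  have hZ1 : 1 < Z := by linarith
  have hZ0 : 0 < Z := by linarith
  have he := c.e_pos
  have hg : ∀ k : ℕ, 51 / 100 ≤ grid β e k ∧ grid β e k ≤ β := fun k =>
    ⟨le_min (by linarith [c.lo]) (le_add_of_nonneg_right (by positivity)), min_le_left _ _⟩
  choose! j hj using fun u (hu : u ∈ A) =>
    mida_bin hZ1 he c.e_le hσ (hA u hu).2.1 (hA u hu).2.2.1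
  rw [← Finset.sum_fiberwise_of_maps_to (t := Finset.range N ×ˢ Finset.range N ×ˢ Finset.range N)
    (g := fun u => (j u, i u, n u)) fun u hu => Finset.mem_product.2 ⟨hN _ (hj u hu).1,
      Finset.mem_product.2 ⟨hN _ (hA u hu).2.2.2.1, hN _ (hA u hu).2.2.2.2.1⟩⟩]
  set X := Z ^ (5 / 3 + (β - 7 / 8) / 2 + C₀ / (6 * J) + (C₀ + 15) * e) with hX
  have hX0 : 0 ≤ X := by positivity
  refine (Finset.sum_le_card_nsmul _ _ (C₁ * X) ?_).trans ?_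
  · rintro ⟨j₀, i₀, n₀⟩ -
    rcases (A.filter fun u => (j u, i u, n u) = (j₀, i₀, n₀)).eq_empty_or_nonempty with h0 | ⟨u₀, hu₀⟩
    · rw [h0, Finset.sum_empty]; positivity
    have hm : ∀ u ∈ A.filter fun u => (j u, i u, n u) = (j₀, i₀, n₀),
        u ∈ A ∧ j u = j₀ ∧ i u = i₀ ∧ n u = n₀ := fun u hu => by
      simpa only [Finset.mem_filter, Prod.mk.injEq] using hu
    obtain ⟨p0, p1, p2, -⟩ := hm u₀ hu₀
    have hi : (i₀ : ℝ) ≤ 2 / e := by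
      rw [← p2]
      exact (hA u₀ p0).2.2.2.1.trans (div_le_div_of_nonneg_right (by norm_num) he.le)
    have H1 := H Z (σ₀ + j₀ * e) (i₀ * Real.log Z ^ 2) (grid β e n₀) τ
      (A.filter fun u => (j u, i u, n u) = (j₀, i₀, n₀)) (by linarith)
      (le_add_of_nonneg_right (by positivity)) (p1 ▸ (hj u₀ p0).2.1) (by positivity)
      (mul_le_mul_of_nonneg_right hi (sq_nonneg _)) (hg n₀).1 (hg n₀).2 hτ fun u hu => by
        obtain ⟨r0, r1, r2, r3⟩ := hm u hu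
        refine ⟨row_ne_zero (hA u r0).1, row_not_exc (hA u r0).1
          ((Real.one_lt_rpow hZ1 hσ).trans (hA u r0).2.1), r1 ▸ (hj u r0).2.2.1, ?_⟩
        rw [← r2, ← r3]
        exact (hA u r0).2.2.2.2.2
    have e1 : C₁ * X = Z ^ (5 * e) *
        (C₁ * Z ^ (5 / 3 + (β - 7 / 8) / 2 + C₀ / (6 * J) + (C₀ + 10) * e)) := by
      rw [mul_left_comm, ← Real.rpow_add hZ0, hX]
      congr 2; ring
    rw [e1]
    refine le_trans ?_ (mul_le_mul_of_nonneg_left H1 (by positivity))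
    rw [← mul_assoc, Finset.mul_sum]
    refine Finset.sum_le_sum fun u hu => ?_
    obtain ⟨r0, r1, r2, r3⟩ := hm u hu
    refine mul_le_mul_of_nonneg_right ?_ (amp_nonneg hZ0.le _ _)
    have := (hj u r0).2.2.2 (grid β e n₀) (hg n₀).1 ((hg n₀).2.trans c.hi)
    rw [r1] at this
    rw [r3]
    refine (mul_le_mul_of_nonneg_left this (by positivity)).trans_eq ?_
    rw [← Real.rpow_add hZ0, ← Real.rpow_add hZ0]
    congr 1; ring
  · rw [Finset.card_product, Finset.card_product, Finset.card_range, nsmul_eq_mul, ← mul_assoc]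
    refine mul_le_mul_of_nonneg_right ?_ hX0
    push_cast
    linarith

/-- `bin_exists` + `choose`; `IU_shift` to `(3, 1 - b - e, 17/50)`; `trunc_sum` with `T = log² Z / 4`,
`H = i log² Z + log² Z ≥ T + 5`; `#A ≤ C Z`, `Z^(A+1) exp (-log² Z / 16) ≤ C` (`exp_neg_log_sq_le`). -/
theorem mid_bound {C₀ σ₀ : ℝ} (hC₀ : 0 ≤ C₀) (hC : CountC C₀) (c : Ctx β e q η J)
    (h : High q η 1 J) (hσ : 0 < σ₀) : ∃ C : ℝ, 0 ≤ C ∧ ∀ (Z : ℝ) (A : Finset O), C ≤ Z →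
    (∀ u ∈ A, Row q u ∧ Z ^ σ₀ < nm u ∧ nm u ≤ Z ^ (13 / 16 + 2 * e)) →
    ∑ u ∈ A, ‖IU h e Z u‖ ≤
      C * Z ^ (5 / 3 + (β - 7 / 8) / 2 + C₀ / (6 * J) + (C₀ + 15) * e) := by
  obtain ⟨Cm, hCm, hm⟩ := mid_sum hC₀ hC c hσ
  obtain ⟨Cc, Ac, hCc, hcr⟩ := row_crude c h
  obtain ⟨Cf, hCf, hf⟩ := row_fine c h
  obtain ⟨Ce, hCe, hE⟩ := exp_neg_log_sq_le (c := 1 / 16) (by norm_num) (Ac + 1)
  obtain ⟨Cn, hCn, hn⟩ := B_count
  have he := c.e_pos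
  have he' := c.e_le
  have hlo := c.lo
  have hhi := c.hi
  have h3 := Real.exp_pos 3
  refine ⟨Real.exp 3 + Cm + 512 * (Cf * Cm) + 4000 * (Cn * Cc * Ce), by positivity, fun Z A hZ hA => ?_⟩
  have p1 : 0 ≤ 512 * (Cf * Cm) := by positivity
  have p2 : 0 ≤ 4000 * (Cn * Cc * Ce) := by positivity
  have hZ3 : Real.exp 3 ≤ Z := by linarith
  have hZm : Cm ≤ Z := by linarith
  have hZ1 : 1 ≤ Z := (Real.one_le_exp (by norm_num)).trans hZ3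
  have hZ0 : 0 < Z := by linarith
  have hlog : 3 ≤ Real.log Z := (Real.le_log_iff_exp_le hZ0).2 hZ3
  have hL : 9 ≤ Real.log Z ^ 2 := by nlinarith
  have hb : ∀ u : O, ∃ i n : ℕ, u ≠ 0 → (i : ℝ) ≤ 1 / e ∧ (n : ℝ) ≤ 1 / e ∧
      Zs q u (grid β e n) e (i * Real.log Z ^ 2) Z := fun u => by
    by_cases hu : u = 0
    · exact ⟨0, 0, fun h' => absurd hu h'⟩
    · obtain ⟨i, n, h'⟩ := bin_exists hlo.le hhi c.zf he (by linarith) c.lev hu Z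
      exact ⟨i, n, fun _ => h'⟩
  choose i n hin using hb
  have g1 : ∀ k : ℕ, 51 / 100 ≤ grid β e k := fun k =>
    le_min (by linarith) (le_add_of_nonneg_right (by positivity))
  have g2 : ∀ k : ℕ, grid β e k ≤ 1 := fun k => (min_le_left _ _).trans hhi
  have r1 : ∀ u ∈ A, 1 < nm u := fun u hu => (Real.one_le_rpow hZ1 hσ.le).trans_lt (hA u hu).2.1
  have r2 : ∀ u ∈ A, nm u ≤ Z := fun u hu => (hA u hu).2.2.trans
    ((Real.rpow_le_rpow_of_exponent_le hZ1 (by linarith)).trans_eq (Real.rpow_one Z))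
  have r3 : ∀ u ∈ A, u ≠ 1 := fun u hu h1 => by
    have := r1 u hu
    rw [h1, nm_one'] at this
    exact lt_irrefl _ this
  have r4 : ∀ u ∈ A, u ≠ 0 := fun u hu => row_ne_zero (hA u hu).1
  have r5 : ∀ u ∈ A, ZH q u (grid β e (n u)) (i u * Real.log Z ^ 2 + Real.log Z ^ 2) :=
    fun u hu => (hin u (r4 u hu)).2.2.1
  have r6 : ∀ u : O, Real.log Z ^ 2 / 4 + 5 ≤ i u * Real.log Z ^ 2 + Real.log Z ^ 2 := fun u => by
    have : 0 ≤ (i u : ℝ) * Real.log Z ^ 2 := by positivity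
    linarith
  set E := 5 / 3 + (β - 7 / 8) / 2 + C₀ / (6 * J) + (C₀ + 15) * e with hEd
  have hE0 : 0 ≤ E := by
    have : 0 ≤ C₀ / (6 * J) := by positivity
    have : 0 ≤ (C₀ + 15) * e := by positivity
    linarith
  have hZE : 1 ≤ Z ^ E := Real.one_le_rpow hZ1 hE0
  have e1 : ∑ u ∈ A, ‖IU h e Z u‖ = ∑ u ∈ A, ‖I3 (fun x w z => core h e Z u x w z / (6 * z - 1)) 3
      (1 - grid β e (n u) - e) (17 / 50)‖ := Finset.sum_congr rfl fun u hu => by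
    have := g1 (n u)
    have := g2 (n u)
    rw [IU_shift c h hZ1 (hA u hu).1 (r3 u hu) (a := 3) (b := 1 - grid β e (n u) - e) (by linarith) le_rfl
      (by linarith) (by linarith) (by linarith)]
  have key := trunc_sum A (F := fun u x w z => core h e Z u x w z / (6 * z - 1))
    (a := fun u => grid β e (n u) + 3 * e) (b := fun u => 1 - grid β e (n u) - e) (a₂ := 3) (c := 17 / 50)
    (T := Real.log Z ^ 2 / 4) (B₁ := Cc * Z ^ Ac) (B₂ := Cf * (Cm * Z ^ E))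
    (m := fun u τ => Cf * Z ^ ex (grid β e (n u) + 3 * e) (1 - grid β e (n u) - e) (17 / 50) *
      nm u ^ (grid β e (n u) - 21 / 25 + 4 * e) * amp q J e Z u ((17 / 50 : ℝ) + τ * I))
    (by positivity) (by positivity)
    (fun u _ => by have := g2 (n u); show _ + _ ≤ _; linarith)
    (fun u _ => by have := g1 (n u); show _ ≤ _ + _ + _; linarith)
    (fun u _ => continuous_const.mul (continuous_amp Z u _))
    (fun u hu => by
      have := g1 (n u)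
      have := g2 (n u)
      refine (box_dec c h hZ1 (hA u hu).1 (a := 3) (b := 1 - grid β e (n u) - e) (by linarith)
        (by linarith) (by linarith)).1.mono fun p hp => ?_
      obtain ⟨a1, a2, a3, a4, a5, a6⟩ := hp
      exact ⟨a1, a2, a3, by linarith, a5, by linarith⟩)
    (fun u hu => (hcr Z _ _ _ u hZ1 (hA u hu).1 (r1 u hu) (r2 u hu) (g1 _) (g2 _) (r5 u hu) (r6 u)).1)
    (fun u hu => row_hol c h hZ1 (hA u hu).1 (g1 _) (g2 _) (r5 u hu) (by linarith [r6 u]))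
    (fun u hu => (hcr Z _ _ _ u hZ1 (hA u hu).1 (r1 u hu) (r2 u hu) (g1 _) (g2 _) (r5 u hu) (r6 u)).2)
    (fun u hu x w z hp => hf Z _ _ _ u x w z hZ1 (hA u hu).1 (r1 u hu) (g1 _) (g2 _) (r5 u hu) (r6 u) hp)
    (fun τ hτ => by
      have := hm Z τ A i n hZm hτ fun u hu =>
        ⟨(hA u hu).1, (hA u hu).2.1, (hA u hu).2.2, hin u (r4 u hu)⟩
      refine le_trans (le_of_eq ?_) (mul_le_mul_of_nonneg_left this hCf)
      rw [Finset.mul_sum]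
      exact Finset.sum_congr rfl fun u _ => by ring)
  rw [e1]
  refine key.trans ?_
  have t1 : (A.card : ℝ) ≤ Cn * Z := by
    have := hn Z A fun u hu => ⟨r4 u hu, r2 u hu⟩
    rwa [max_eq_left hZ0.le] at this
  have t2 : Real.exp (-(Real.log Z ^ 2 / 4) / 4) ≤ Ce * Z ^ (-(Ac + 1)) := by
    refine le_trans (le_of_eq ?_) (hE Z hZ0)
    congr 1
    ring
  have t3 : Z * Z ^ Ac * Z ^ (-(Ac + 1)) = 1 := by
    rw [mul_assoc, ← Real.rpow_add hZ0, show Ac + -(Ac + 1) = -1 by ring, Real.rpow_neg_one,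
      mul_inv_cancel₀ hZ0.ne']
  have t4 : 4000 * A.card * (Cc * Z ^ Ac) * Real.exp (-(Real.log Z ^ 2 / 4) / 4) ≤ 4000 * (Cn * Cc * Ce) := by
    calc 4000 * A.card * (Cc * Z ^ Ac) * Real.exp (-(Real.log Z ^ 2 / 4) / 4)
        ≤ 4000 * (Cn * Z) * (Cc * Z ^ Ac) * (Ce * Z ^ (-(Ac + 1))) := by gcongr
      _ = 4000 * (Cn * Cc * Ce) * (Z * Z ^ Ac * Z ^ (-(Ac + 1))) := by ring
      _ = _ := by rw [t3, mul_one]
  have t5 : 4000 * (Cn * Cc * Ce) ≤ 4000 * (Cn * Cc * Ce) * Z ^ E := le_mul_of_one_le_right p2 hZE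
  have t6 : 0 ≤ (Real.exp 3 + Cm) * Z ^ E := by positivity
  nlinarith

end Crest.Agent.R17.Jb
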