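import Crest.Agent.R17.J.One
import Crest.Agent.R17.J.Mid
import Crest.Agent.R17.J.Low

/-! Row 17, block J: the bound for the main term and the new zero-free half plane. -/

set_option autoImplicit false

namespace Crest.Agent.R17.Jb

open Complex MeasureTheory
open scoped Real

variable {β e : ℝ} {q : O} {η : O → ℂ} {J : ℕ}

/-- `h.rows`; every finite set of rows `≠ 1` splits into the three classes -/
theorem rows_bound {C₀ : ℝ} (hC₀ : 0 ≤ C₀) (hC : CountC C₀) (c : Ctx β e q η J)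
    (h : High q η 1 J) : ∃ C : ℝ, 0 ≤ C ∧ ∀ Z : ℝ, C ≤ Z →
    ‖II h e Z - IU h e Z 1‖ ≤ C * (Z ^ (β + 71 / 100) +
      Z ^ (5 / 3 + (β - 7 / 8) / 2 + C₀ / (6 * J) + (C₀ + 15) * e)) := by
  classical
  obtain ⟨σ₀, C₁, hσ, hC₁, h₁⟩ := small_bound c h
  obtain ⟨C₂, hC₂, h₂⟩ := mid_bound hC₀ hC c h hσ
  obtain ⟨C₃, hC₃, h₃⟩ := big_bound c h
  refine ⟨C₁ + C₂ + C₃ + 1, by positivity, fun Z hZ => ?_⟩
  have hZ1 : 1 ≤ Z := by linarith
  have hZ0 : 0 < Z := by linarith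
  have hs := h.rows _ _ _ Z (RR Z) (KK Z) (slots_Psl (q := q) (J := J) c.e_pos hZ1) hZ0
    (Real.rpow_pos_of_pos hZ0 _) (Real.rpow_pos_of_pos hZ0 _)
  have hs' := hasSum_ite_sub_hasSum hs ⟨1, row_one q⟩
  refine le_of_tendsto' hs'.norm fun S => ?_
  set A : Finset O := (S.erase ⟨1, row_one q⟩).map (Function.Embedding.subtype _) with hA
  have hmem : ∀ u ∈ A, Row q u ∧ u ≠ 1 := by
    intro u hu
    obtain ⟨v, hv, rfl⟩ := Finset.mem_map.1 hu
    exact ⟨v.2, fun h1 => (Finset.mem_erase.1 hv).1 (Subtype.ext h1)⟩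
  have e1 : ‖∑ u ∈ S, if u = ⟨1, row_one q⟩ then 0 else
      h.Iu (Psl q J e Z) (wt J Z) Z (RR Z) (KK Z) (u : O)‖ ≤ ∑ u ∈ A, ‖IU h e Z u‖ := by
    rw [← Finset.sum_erase (a := ⟨1, row_one q⟩) S (by rw [if_pos rfl]), hA, Finset.sum_map]
    refine (norm_sum_le _ _).trans (Finset.sum_le_sum fun u hu => ?_)
    rw [if_neg (Finset.mem_erase.1 hu).1]
    exact le_rfl
  refine e1.trans ?_
  have e2 : ∑ u ∈ A, ‖IU h e Z u‖ ≤ ∑ u ∈ A.filter (fun u => nm u ≤ Z ^ σ₀), ‖IU h e Z u‖ +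
      ∑ u ∈ A.filter (fun u => Z ^ σ₀ < nm u ∧ nm u ≤ Z ^ (13 / 16 + 2 * e)), ‖IU h e Z u‖ +
      ∑ u ∈ A.filter (fun u => Z ^ (13 / 16 + 2 * e) < nm u), ‖IU h e Z u‖ := by
    rw [Finset.sum_filter, Finset.sum_filter, Finset.sum_filter, ← Finset.sum_add_distrib,
      ← Finset.sum_add_distrib]
    refine Finset.sum_le_sum fun u _ => ?_
    have := norm_nonneg (IU h e Z u)
    by_cases a1 : nm u ≤ Z ^ σ₀
    · rw [if_pos a1]
      split_ifs <;> linarith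
    · by_cases a2 : nm u ≤ Z ^ (13 / 16 + 2 * e)
      · rw [if_neg a1, if_pos ⟨not_le.1 a1, a2⟩]
        split_ifs <;> linarith
      · rw [if_neg a1, if_pos (not_le.1 a2)]
        split_ifs <;> linarith
  have b1 := h₁ Z (A.filter (fun u => nm u ≤ Z ^ σ₀)) hZ1 fun u hu => by
    obtain ⟨x, y⟩ := Finset.mem_filter.1 hu
    exact ⟨(hmem u x).1, (hmem u x).2, y⟩
  have b2 := h₂ Z (A.filter (fun u => Z ^ σ₀ < nm u ∧ nm u ≤ Z ^ (13 / 16 + 2 * e)))
    (by linarith) fun u hu => by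
    obtain ⟨x, y⟩ := Finset.mem_filter.1 hu
    exact ⟨(hmem u x).1, y⟩
  have b3 := h₃ Z (A.filter (fun u => Z ^ (13 / 16 + 2 * e) < nm u)) hZ1 fun u hu => by
    obtain ⟨x, y⟩ := Finset.mem_filter.1 hu
    exact ⟨(hmem u x).1, y⟩
  have p1 : 1 ≤ Z ^ (β + 71 / 100) := Real.one_le_rpow hZ1 (by linarith [c.lo])
  have p2 : 0 ≤ Z ^ (5 / 3 + (β - 7 / 8) / 2 + C₀ / (6 * J) + (C₀ + 15) * e) := by positivity
  nlinarith [mul_nonneg hC₁ p2, mul_nonneg hC₃ p2, mul_nonneg hC₂ (zero_le_one.trans p1),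
    mul_le_mul_of_nonneg_left p1 hC₃]

/-- all error exponents are at most `β + 19/24 - e - γ`; divide by `‖c₂‖ Z^(49/72) Z^(1/9 - e)` -/
theorem FF_bound (hG : StGram) (hF : StF) {C₀ γ : ℝ} (hC₀ : 0 ≤ C₀) (hC : CountC C₀)
    (c : Ctx β e q η J) (h : High q η 1 J) (h1 : γ + e ≤ 1 / 250) (h2 : γ + 3 * e ≤ 1 / (9 * J))
    (h3 : γ + C₀ / (6 * J) + (C₀ + 16) * e ≤ (β - 7 / 8) / 2) (hγ : 0 ≤ γ) :
    ∃ C Z₀ : ℝ, ∀ Z : ℝ, Z₀ ≤ Z → 0 < Z → ‖FF h (β + e) Z‖ ≤ C * Z ^ (β - γ) := by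
  obtain ⟨C₁, hC₁, b₁⟩ := rows_bound hC₀ hC c h
  obtain ⟨C₂, hC₂, b₂⟩ := low_bound hG hF c h
  obtain ⟨c₂, C₃, hc₂, hC₃, b₃⟩ := one_bound c h
  obtain ⟨C₄, b₄⟩ := SJ_lower (J := J) c.lev.1 c.J_pos c.e_pos
  refine ⟨(2 * C₁ + C₂ + 2 * C₃) / ‖c₂‖, max 1 (max C₁ C₄), fun Z hZ hZ0 => ?_⟩
  have hZ1 : 1 ≤ Z := (le_max_left _ _).trans hZ
  have a₁ := b₁ Z (((le_max_left _ _).trans (le_max_right _ _)).trans hZ)
  have a₂ := b₂ Z hZ1
  have a₃ := b₃ Z hZ1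
  have a₄ := b₄ Z (((le_max_right _ _).trans (le_max_right _ _)).trans hZ)
  have he := c.e_pos
  have hJ : 0 ≤ C₀ / (6 * J) := by positivity
  have hCe : 0 ≤ C₀ * e := by positivity
  have hle : ∀ {x : ℝ}, x ≤ β + 19 / 24 - e - γ → Z ^ x ≤ Z ^ (β + 19 / 24 - e - γ) := fun hx =>
    Real.rpow_le_rpow_of_exponent_le hZ1 hx
  have e1 := hle (x := β + 71 / 100) (by linarith)
  have e2 := hle (x := 5 / 3 + (β - 7 / 8) / 2 + C₀ / (6 * J) + (C₀ + 15) * e) (by linarith)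
  have e3 := hle (x := 5 / 3 + 5 * e) (by linarith)
  have e4 := hle (x := β + 19 / 24 - 1 / 250) (by linarith)
  have e5 := hle (x := β + 19 / 24 - 1 / (9 * J) + 2 * e) (by linarith)
  set M := c₂ * (Z ^ (49 / 72 : ℝ) : ℝ) * SJ q J e Z * FF h (β + e) Z with hM
  have t : ‖M‖ ≤ ‖II h e Z‖ + ‖II h e Z - IU h e Z 1‖ + ‖IU h e Z 1 - M‖ := by
    have : M = II h e Z - (II h e Z - IU h e Z 1) - (IU h e Z 1 - M) := by ring
    calc ‖M‖ = ‖II h e Z - (II h e Z - IU h e Z 1) - (IU h e Z 1 - M)‖ := by rw [← this]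
      _ ≤ _ := (norm_sub_le _ _).trans (by gcongr; exact norm_sub_le _ _)
  have t2 : ‖M‖ ≤ (2 * C₁ + C₂ + 2 * C₃) * Z ^ (β + 19 / 24 - e - γ) := by
    have g1 := mul_le_mul_of_nonneg_left (add_le_add e1 e2) hC₁
    have g2 := mul_le_mul_of_nonneg_left e3 hC₂
    have g3 := mul_le_mul_of_nonneg_left (add_le_add e4 e5) hC₃
    linarith
  have hc : 0 < ‖c₂‖ := norm_pos_iff.2 hc₂
  have hp : 0 < Z ^ (49 / 72 : ℝ) * Z ^ (1 / 9 - e) := by positivity
  have t3 : ‖c₂‖ * (Z ^ (49 / 72 : ℝ) * Z ^ (1 / 9 - e)) * ‖FF h (β + e) Z‖ ≤ ‖M‖ := by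
    rw [hM, norm_mul, norm_mul, norm_mul, Complex.norm_real, Real.norm_of_nonneg (by positivity),
      ← mul_assoc]
    gcongr
  have t4 : Z ^ (β + 19 / 24 - e - γ) = Z ^ (49 / 72 : ℝ) * Z ^ (1 / 9 - e) * Z ^ (β - γ) := by
    rw [← Real.rpow_add hZ0, ← Real.rpow_add hZ0]
    congr 1
    ring
  have t5 := t3.trans t2
  rw [t4] at t5
  rw [div_mul_eq_mul_div, le_div_iff₀ hc]
  refine le_of_mul_le_mul_left ?_ hp
  linarith

/-- `mellin_cont` on the strip `[β + e, 3]` gives `G`; `G · Lx η - LNt 1 (· - 1/3) · H₀ · pf η` is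
holomorphic on `θ < Re s < 3` and vanishes on `β + e < Re s < 3`, hence everywhere; at a zero `s` of
`Lx η` this forces `pf η s = 0`, i.e. `Princ η` and `s = 1`, against `Lx_princ_ne`.  (For `β < Re s` use `c.zf`.) -/
theorem zf_of_FF (c : Ctx β e q η J) (h : High q η 1 J) {θ C Z₀ : ℝ} (hθ : 43 / 50 ≤ θ)
    (hθ' : θ ≤ β) (hb : ∀ Z : ℝ, Z₀ ≤ Z → 0 < Z → ‖FF h (β + e) Z‖ ≤ C * Z ^ θ) {s : ℂ}
    (hs : θ < s.re) : Lx η s ≠ 0 := by
  by_cases hβ : β < s.re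
  · exact c.zf q η c.lev c.tw s hβ
  intro h0
  have he := c.e_pos
  have he' := c.e_le
  have hlo := c.lo
  have hhi := c.hi
  obtain ⟨C₁, hC₁, b₁⟩ := LNt_linv_le c
  obtain ⟨G, hG, hGe⟩ := mellin_cont (σ₁ := β + e) (σ₂ := 3) (Φ := Ph0 h)
    (φ := fun t => 3 / 2 * C₁ * Real.exp (-|t| / 4)) (by linarith : θ < β + e) (by linarith)
    ((Ph0_diffOn c h).mono fun x hx => by
      have := hx.1
      show β < x.re
      linarith)
    (integrable_E1.const_mul _)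
    (fun x hx => by
      have a1 := b₁ x hx.1 hx.2
      have a2 := h.H₀_near x (by linarith [hx.1])
      have a3 : ‖h.H₀ x‖ ≤ 3 / 2 := by
        have := norm_add_le (h.H₀ x - 1) 1
        rw [sub_add_cancel, norm_one] at this
        linarith
      rw [Ph0, mul_right_comm, norm_mul, mul_comm, mul_assoc]
      exact mul_le_mul a3 a1 (norm_nonneg _) (by norm_num))
    hb
  set U : Set ℂ := {s | θ < s.re ∧ s.re < 3} with hU
  have hUo : IsOpen U :=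
    (isOpen_lt continuous_const continuous_re).inter (isOpen_lt continuous_re continuous_const)
  have hUc : IsPreconnected U :=
    ((convex_halfSpace_re_gt θ).inter (convex_halfSpace_re_lt 3)).isPreconnected
  have hpf : Differentiable ℂ (pf η) := by
    unfold pf
    split_ifs <;> fun_prop
  have hD : DifferentiableOn ℂ (fun x => G x * Lx η x - LNt 1 (x - 1 / 3) * h.H₀ x * pf η x) U := by
    refine (hG.mul (isL_tw c.lev c.tw).1.differentiableOn).sub (DifferentiableOn.mul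
      (DifferentiableOn.mul ?_ (h.H₀_holo.mono fun x hx => ?_)) hpf.differentiableOn)
    · exact ((differentiable_LNt 1).comp (by fun_prop)).differentiableOn
    · have := hx.1
      show 43 / 50 < x.re
      linarith
  have hz := (hD.analyticOnNhd hUo).eqOn_zero_of_preconnected_of_eventuallyEq_zero hUc
    (z₀ := 2) ⟨by simp; linarith, by simp; norm_num⟩ (by
      have hV : IsOpen {s : ℂ | β + e < s.re ∧ s.re < 3} :=
        (isOpen_lt continuous_const continuous_re).inter (isOpen_lt continuous_re continuous_const)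
      filter_upwards [hV.mem_nhds (show (2 : ℂ) ∈ _ from ⟨by simp; linarith, by simp; norm_num⟩)]
        with x hx
      have a1 : Lx η x ≠ 0 := c.zf q η c.lev c.tw x (by linarith [hx.1])
      simp only [Pi.zero_apply]
      rw [hGe x hx.1 hx.2, Ph0, linv]
      field_simp
      ring)
  have a1 := hz (x := s) ⟨hs, by linarith⟩
  simp only [Pi.zero_apply] at a1
  rw [h0, mul_zero, zero_sub, neg_eq_zero] at a1
  have a2 : h.H₀ s ≠ 0 := fun a => by
    have := h.H₀_near s (by linarith)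
    rw [a] at this
    norm_num at this
  have a3 : pf η s = 0 :=
    (mul_eq_zero.1 a1).resolve_left (mul_ne_zero (LNt_ne_zero one_ne_zero _) a2)
  unfold pf at a3
  split_ifs at a3 with hp
  · rw [sub_eq_zero.1 a3] at h0
    exact Lx_princ_ne c.lev c.tw hp h0
  · exact one_ne_zero a3

end Crest.Agent.R17.Jb
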