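import Crest.Agent.R17.J.Defs

/-! Row 17, block J: Fubini helpers for `I3_box`, `I3_pole`, `I2_pole`. -/

set_option autoImplicit false

namespace Crest.Agent.R17.Jb

open Complex MeasureTheory
open scoped Real

noncomputable def i3b_e (t : ℝ) : ℝ := Real.exp (-|t| / 4)

theorem i3b_e_int : Integrable i3b_e := by
  have h := linec_exp_abs (ε := 1 / 4) (by norm_num)
  refine h.congr (Filter.Eventually.of_forall fun y => ?_)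
  show Real.exp _ = Real.exp _
  congr 1
  ring

theorem i3b_e_pos (t : ℝ) : 0 < i3b_e t := Real.exp_pos _

theorem i3b_e_le (t : ℝ) : i3b_e t ≤ 1 := by
  unfold i3b_e
  rw [Real.exp_le_one_iff]
  have := abs_nonneg t
  linarith

theorem i3b_E3 (x w z : ℂ) : E3 x w z = i3b_e x.im * (i3b_e w.im * i3b_e z.im) := by
  unfold E3 i3b_e
  rw [← Real.exp_add, ← Real.exp_add]
  congr 1
  ring

theorem i3b_E2 (x z : ℂ) : E2 x z = i3b_e x.im * i3b_e z.im := by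
  unfold E2 i3b_e
  rw [← Real.exp_add]
  congr 1
  ring

theorem i3b_int2 {f : ℝ × ℝ → ℂ} {B : ℝ} (hc : Continuous f)
    (hb : ∀ t, ‖f t‖ ≤ B * (i3b_e t.1 * i3b_e t.2)) : Integrable f := by
  have h : Integrable (fun t : ℝ × ℝ => B * (i3b_e t.1 * i3b_e t.2)) :=
    (Integrable.mul_prod i3b_e_int i3b_e_int).const_mul B
  exact h.mono' hc.aestronglyMeasurable (Filter.Eventually.of_forall hb)

theorem i3b_int3 {f : ℝ × ℝ × ℝ → ℂ} {B : ℝ} (hc : Continuous f)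
    (hb : ∀ t, ‖f t‖ ≤ B * (i3b_e t.1 * (i3b_e t.2.1 * i3b_e t.2.2))) : Integrable f := by
  have h2 : Integrable (fun t : ℝ × ℝ => i3b_e t.1 * i3b_e t.2) :=
    Integrable.mul_prod i3b_e_int i3b_e_int
  have h : Integrable (fun t : ℝ × ℝ × ℝ => B * (i3b_e t.1 * (i3b_e t.2.1 * i3b_e t.2.2))) :=
    (Integrable.mul_prod i3b_e_int h2).const_mul B
  exact h.mono' hc.aestronglyMeasurable (Filter.Eventually.of_forall hb)

theorem i3b_int3' {f : (ℝ × ℝ) × ℝ → ℂ} {B : ℝ} (hc : Continuous f)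
    (hb : ∀ t, ‖f t‖ ≤ B * ((i3b_e t.1.1 * i3b_e t.1.2) * i3b_e t.2)) : Integrable f := by
  have h2 : Integrable (fun t : ℝ × ℝ => i3b_e t.1 * i3b_e t.2) :=
    Integrable.mul_prod i3b_e_int i3b_e_int
  have h : Integrable (fun t : (ℝ × ℝ) × ℝ => B * ((i3b_e t.1.1 * i3b_e t.1.2) * i3b_e t.2)) :=
    (Integrable.mul_prod h2 i3b_e_int).const_mul B
  exact h.mono' hc.aestronglyMeasurable (Filter.Eventually.of_forall hb)

/-- the first variable innermost -/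
theorem i3b_fst {f : ℝ → ℝ → ℝ → ℂ} {B : ℝ}
    (hc : Continuous fun t : ℝ × ℝ × ℝ => f t.1 t.2.1 t.2.2)
    (hb : ∀ x y z, ‖f x y z‖ ≤ B * (i3b_e x * (i3b_e y * i3b_e z))) :
    ∫ t : ℝ × ℝ × ℝ, f t.1 t.2.1 t.2.2 = ∫ p : ℝ × ℝ, ∫ x, f x p.1 p.2 := by
  have h := i3b_int3 hc (fun t => hb t.1 t.2.1 t.2.2)
  exact integral_prod_symm _ h

/-- the last variable innermost -/
theorem i3b_lst {f : ℝ → ℝ → ℝ → ℂ} {B : ℝ}
    (hc : Continuous fun t : ℝ × ℝ × ℝ => f t.1 t.2.1 t.2.2)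
    (hb : ∀ x y z, ‖f x y z‖ ≤ B * (i3b_e x * (i3b_e y * i3b_e z))) :
    ∫ t : ℝ × ℝ × ℝ, f t.1 t.2.1 t.2.2 = ∫ x, ∫ y, ∫ z, f x y z := by
  have h := i3b_int3 hc (fun t => hb t.1 t.2.1 t.2.2)
  refine (integral_prod _ h).trans ?_
  refine integral_congr_ae (Filter.Eventually.of_forall fun x => ?_)
  have h2 : Integrable (fun p : ℝ × ℝ => f x p.1 p.2) :=
    i3b_int2 (B := B * i3b_e x) (hc.comp (Continuous.prodMk_right x)) fun t => by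
      rw [mul_assoc]; exact hb x t.1 t.2
  exact integral_prod _ h2

/-- the middle variable innermost -/
theorem i3b_mid {f : ℝ → ℝ → ℝ → ℂ} {B : ℝ}
    (hc : Continuous fun t : ℝ × ℝ × ℝ => f t.1 t.2.1 t.2.2)
    (hb : ∀ x y z, ‖f x y z‖ ≤ B * (i3b_e x * (i3b_e y * i3b_e z))) :
    (∫ t : ℝ × ℝ × ℝ, f t.1 t.2.1 t.2.2 = ∫ p : ℝ × ℝ, ∫ y, f p.1 y p.2) ∧
      Integrable (fun p : ℝ × ℝ => ∫ y, f p.1 y p.2) := by
  have h := i3b_int3 hc (fun t => hb t.1 t.2.1 t.2.2)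
  have hc' : Continuous fun t : (ℝ × ℝ) × ℝ => f t.1.1 t.2 t.1.2 :=
    hc.comp (by fun_prop : Continuous fun t : (ℝ × ℝ) × ℝ => (t.1.1, t.2, t.1.2))
  have h' : Integrable (fun t : (ℝ × ℝ) × ℝ => f t.1.1 t.2 t.1.2) :=
    i3b_int3' (B := B) hc' fun t => by
      have := hb t.1.1 t.2 t.1.2
      calc _ ≤ _ := this
        _ = _ := by ring
  have hI : Integrable (fun p : ℝ × ℝ => ∫ y, f p.1 y p.2) := h'.integral_prod_left
  refine ⟨?_, hI⟩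
  refine (integral_prod _ h).trans (Eq.trans ?_ (integral_prod _ hI).symm)
  refine integral_congr_ae (Filter.Eventually.of_forall fun x => ?_)
  have h2 : Integrable (fun p : ℝ × ℝ => f x p.1 p.2) :=
    i3b_int2 (B := B * i3b_e x) (hc.comp (Continuous.prodMk_right x)) fun t => by
      rw [mul_assoc]; exact hb x t.1 t.2
  exact integral_prod_symm _ h2

theorem i3b_two_pi : ((1 / (2 * π) : ℝ) : ℂ) ≠ 0 := by
  have := Real.pi_pos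
  exact_mod_cast (by positivity : (1 / (2 * π) : ℝ) ≠ 0)

theorem i3b_int_eq (σ : ℝ) (F : ℂ → ℂ) : ∫ y : ℝ, F (σ + y * I) = 2 * π * VI σ F := by
  have := Real.pi_pos
  have h : (π : ℂ) ≠ 0 := by exact_mod_cast this.ne'
  unfold VI
  generalize (∫ y : ℝ, F (σ + y * I)) = J
  push_cast
  field_simp

theorem i3b_line {σ₁ σ₂ B : ℝ} {F : ℂ → ℂ} (h12 : σ₁ ≤ σ₂)
    (hd : DifferentiableOn ℂ F (strip σ₁ σ₂))
    (hb : ∀ s ∈ strip σ₁ σ₂, ‖F s‖ ≤ B * i3b_e s.im) :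
    ∫ y : ℝ, F (σ₂ + y * I) = ∫ y : ℝ, F (σ₁ + y * I) := by
  rw [i3b_int_eq, i3b_int_eq,
    (VI_shift (T₀ := 0) h12 hd (i3b_e_int.const_mul B) fun s hs _ => hb s hs).2.2]

theorem i3b_line_pole {σ₁ σ₂ s₀ B : ℝ} {G : ℂ → ℂ} (h1 : σ₁ < s₀) (h2 : s₀ < σ₂)
    (hd : DifferentiableOn ℂ G (strip σ₁ σ₂))
    (hb : ∀ s ∈ strip σ₁ σ₂, ‖G s‖ ≤ B * i3b_e s.im) :
    ∫ y : ℝ, G (σ₂ + y * I) / (σ₂ + y * I - s₀) =
      (∫ y : ℝ, G (σ₁ + y * I) / (σ₁ + y * I - s₀)) + 2 * π * G s₀ := by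
  have h := (VI_shift_pole (T₀ := 0) (ρ := (s₀ : ℂ)) (by simpa using h1) (by simpa using h2) hd
    (i3b_e_int.const_mul B) fun s hs _ => hb s hs).2.2
  rw [i3b_int_eq σ₂ (fun s => G s / (s - s₀)), i3b_int_eq σ₁ (fun s => G s / (s - s₀)), h]
  ring

/-- continuity on three lines inside a box -/
theorem i3b_cont3 {F : ℂ → ℂ → ℂ → ℂ} {a₁ a₂ b₁ b₂ c₁ c₂ a b c : ℝ}
    (hF : Hol3 F (Box a₁ a₂ b₁ b₂ c₁ c₂)) (ha : a₁ ≤ a ∧ a ≤ a₂) (hb : b₁ ≤ b ∧ b ≤ b₂)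
    (hc : c₁ ≤ c ∧ c ≤ c₂) :
    Continuous fun t : ℝ × ℝ × ℝ => F (a + t.1 * I) (b + t.2.1 * I) (c + t.2.2 * I) := by
  have h := hF.cont.comp_continuous
    (f := fun t : ℝ × ℝ × ℝ => ((a + t.1 * I, b + t.2.1 * I, c + t.2.2 * I) : ℂ × ℂ × ℂ))
    (by fun_prop) (fun t => by simp [Box, ha.1, ha.2, hb.1, hb.2, hc.1, hc.2])
  exact h

theorem i3b_dec3 {F : ℂ → ℂ → ℂ → ℂ} {a₁ a₂ b₁ b₂ c₁ c₂ a b c B : ℝ}
    (hB : Dec3 F (Box a₁ a₂ b₁ b₂ c₁ c₂) B) (ha : a₁ ≤ a ∧ a ≤ a₂) (hb : b₁ ≤ b ∧ b ≤ b₂)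
    (hc : c₁ ≤ c ∧ c ≤ c₂) (x y z : ℝ) :
    ‖F (a + x * I) (b + y * I) (c + z * I)‖ ≤ B * (i3b_e x * (i3b_e y * i3b_e z)) := by
  have h := hB (a + x * I) (b + y * I) (c + z * I)
    (by simp [Box, ha.1, ha.2, hb.1, hb.2, hc.1, hc.2])
  rw [i3b_E3] at h
  simpa using h

theorem i3b_cont2 {F : ℂ → ℂ → ℂ} {a₁ a₂ c₁ c₂ a c : ℝ}
    (hF : Hol2 F (Box2 a₁ a₂ c₁ c₂)) (ha : a₁ ≤ a ∧ a ≤ a₂) (hc : c₁ ≤ c ∧ c ≤ c₂) :
    Continuous fun t : ℝ × ℝ => F (a + t.1 * I) (c + t.2 * I) := by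
  have h := hF.cont.comp_continuous
    (f := fun t : ℝ × ℝ => ((a + t.1 * I, c + t.2 * I) : ℂ × ℂ))
    (by fun_prop) (fun t => by simp [Box2, ha.1, ha.2, hc.1, hc.2])
  exact h

theorem i3b_dec2 {F : ℂ → ℂ → ℂ} {a₁ a₂ c₁ c₂ a c B : ℝ}
    (hB : Dec2 F (Box2 a₁ a₂ c₁ c₂) B) (ha : a₁ ≤ a ∧ a ≤ a₂) (hc : c₁ ≤ c ∧ c ≤ c₂) (x z : ℝ) :
    ‖F (a + x * I) (c + z * I)‖ ≤ B * (i3b_e x * i3b_e z) := by
  have h := hB (a + x * I) (c + z * I) (by simp [Box2, ha.1, ha.2, hc.1, hc.2])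
  rw [i3b_E2] at h
  simpa using h

theorem i3b_den_ne {b s₀ : ℝ} (h : b ≠ s₀) (y : ℝ) : (b : ℂ) + y * I - s₀ ≠ 0 := by
  intro h0
  have := congrArg Complex.re h0
  simp at this
  exact h (by linarith)

theorem i3b_div_le {b s₀ M : ℝ} (h : b ≠ s₀) (y : ℝ) {g : ℂ} (hg : ‖g‖ ≤ M) :
    ‖g / ((b : ℂ) + y * I - s₀)‖ ≤ |b - s₀|⁻¹ * M := by
  have h0 : 0 < |b - s₀| := abs_pos.2 (sub_ne_zero.2 h)
  have h1 : |b - s₀| ≤ ‖(b : ℂ) + y * I - s₀‖ := by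
    have := Complex.abs_re_le_norm ((b : ℂ) + y * I - s₀)
    simpa using this
  rw [norm_div, div_eq_inv_mul]
  exact mul_le_mul (inv_anti₀ h0 h1) hg (norm_nonneg _) (by positivity)

theorem i3b_box1 {F : ℂ → ℂ → ℂ → ℂ} {a₁ a₂ b₁ b₂ c₁ c₂ b c B : ℝ} (ha : a₁ ≤ a₂)
    (hb : b₁ ≤ b ∧ b ≤ b₂) (hc : c₁ ≤ c ∧ c ≤ c₂) (hF : Hol3 F (Box a₁ a₂ b₁ b₂ c₁ c₂))
    (hB : Dec3 F (Box a₁ a₂ b₁ b₂ c₁ c₂) B) : I3 F a₂ b c = I3 F a₁ b c := by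
  unfold I3
  rw [i3b_fst (f := fun x y z => F (a₂ + x * I) (b + y * I) (c + z * I))
      (i3b_cont3 hF ⟨ha, le_rfl⟩ hb hc) (i3b_dec3 hB ⟨ha, le_rfl⟩ hb hc),
    i3b_fst (f := fun x y z => F (a₁ + x * I) (b + y * I) (c + z * I))
      (i3b_cont3 hF ⟨le_rfl, ha⟩ hb hc) (i3b_dec3 hB ⟨le_rfl, ha⟩ hb hc)]
  refine integral_congr_ae (Filter.Eventually.of_forall fun p => ?_)
  have hmem : ∀ s ∈ strip a₁ a₂,
      (s, (b : ℂ) + p.1 * I, (c : ℂ) + p.2 * I) ∈ Box a₁ a₂ b₁ b₂ c₁ c₂ := fun s hs => by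
    simp [Box, hs.1, hs.2, hb.1, hb.2, hc.1, hc.2]
  refine i3b_line (F := fun x => F x (b + p.1 * I) (c + p.2 * I))
    (B := B * (i3b_e p.1 * i3b_e p.2)) ha ((hF.d1 _ _).mono hmem) fun s hs => ?_
  have h := hB _ _ _ (hmem s hs)
  rw [i3b_E3] at h
  simp only [add_im, ofReal_im, mul_im, ofReal_re, I_im, mul_one, I_re, mul_zero, add_zero,
    zero_add] at h
  calc _ ≤ _ := h
    _ = _ := by ring

theorem i3b_box2 {F : ℂ → ℂ → ℂ → ℂ} {a₁ a₂ b₁ b₂ c₁ c₂ a c B : ℝ} (ha : a₁ ≤ a ∧ a ≤ a₂)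
    (hb : b₁ ≤ b₂) (hc : c₁ ≤ c ∧ c ≤ c₂) (hF : Hol3 F (Box a₁ a₂ b₁ b₂ c₁ c₂))
    (hB : Dec3 F (Box a₁ a₂ b₁ b₂ c₁ c₂) B) : I3 F a b₂ c = I3 F a b₁ c := by
  unfold I3
  rw [(i3b_mid (f := fun x y z => F (a + x * I) (b₂ + y * I) (c + z * I))
      (i3b_cont3 hF ha ⟨hb, le_rfl⟩ hc) (i3b_dec3 hB ha ⟨hb, le_rfl⟩ hc)).1,
    (i3b_mid (f := fun x y z => F (a + x * I) (b₁ + y * I) (c + z * I))
      (i3b_cont3 hF ha ⟨le_rfl, hb⟩ hc) (i3b_dec3 hB ha ⟨le_rfl, hb⟩ hc)).1]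
  refine integral_congr_ae (Filter.Eventually.of_forall fun p => ?_)
  have hmem : ∀ s ∈ strip b₁ b₂,
      ((a : ℂ) + p.1 * I, s, (c : ℂ) + p.2 * I) ∈ Box a₁ a₂ b₁ b₂ c₁ c₂ := fun s hs => by
    simp [Box, hs.1, hs.2, ha.1, ha.2, hc.1, hc.2]
  refine i3b_line (F := fun w => F (a + p.1 * I) w (c + p.2 * I))
    (B := B * (i3b_e p.1 * i3b_e p.2)) hb ((hF.d2 _ _).mono hmem) fun s hs => ?_
  have h := hB _ _ _ (hmem s hs)
  rw [i3b_E3] at h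
  simp only [add_im, ofReal_im, mul_im, ofReal_re, I_im, mul_one, I_re, mul_zero, add_zero,
    zero_add] at h
  calc _ ≤ _ := h
    _ = _ := by ring

theorem i3b_box3 {F : ℂ → ℂ → ℂ → ℂ} {a₁ a₂ b₁ b₂ c₁ c₂ a b B : ℝ} (ha : a₁ ≤ a ∧ a ≤ a₂)
    (hb : b₁ ≤ b ∧ b ≤ b₂) (hc : c₁ ≤ c₂) (hF : Hol3 F (Box a₁ a₂ b₁ b₂ c₁ c₂))
    (hB : Dec3 F (Box a₁ a₂ b₁ b₂ c₁ c₂) B) : I3 F a b c₂ = I3 F a b c₁ := by
  unfold I3
  rw [i3b_lst (f := fun x y z => F (a + x * I) (b + y * I) (c₂ + z * I))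
      (i3b_cont3 hF ha hb ⟨hc, le_rfl⟩) (i3b_dec3 hB ha hb ⟨hc, le_rfl⟩),
    i3b_lst (f := fun x y z => F (a + x * I) (b + y * I) (c₁ + z * I))
      (i3b_cont3 hF ha hb ⟨le_rfl, hc⟩) (i3b_dec3 hB ha hb ⟨le_rfl, hc⟩)]
  refine integral_congr_ae (Filter.Eventually.of_forall fun x => ?_)
  refine integral_congr_ae (Filter.Eventually.of_forall fun y => ?_)
  have hmem : ∀ s ∈ strip c₁ c₂,
      ((a : ℂ) + x * I, (b : ℂ) + y * I, s) ∈ Box a₁ a₂ b₁ b₂ c₁ c₂ := fun s hs => by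
    simp [Box, hs.1, hs.2, ha.1, ha.2, hb.1, hb.2]
  refine i3b_line (F := fun z => F (a + x * I) (b + y * I) z)
    (B := B * (i3b_e x * i3b_e y)) hc ((hF.d3 _ _).mono hmem) fun s hs => ?_
  have h := hB _ _ _ (hmem s hs)
  rw [i3b_E3] at h
  simp only [add_im, ofReal_im, mul_im, ofReal_re, I_im, mul_one, I_re, mul_zero, add_zero,
    zero_add] at h
  calc _ ≤ _ := h
    _ = _ := by ring

theorem i3b_pole3 {G : ℂ → ℂ → ℂ → ℂ} {a b₁ b₂ c s₀ B : ℝ} (h1 : b₁ < s₀) (h2 : s₀ < b₂)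
    (hG : Hol3 G (Box a a b₁ b₂ c c)) (hB : Dec3 G (Box a a b₁ b₂ c c) B) :
    I3 (fun x w z => G x w z / (w - s₀)) a b₂ c =
      I3 (fun x w z => G x w z / (w - s₀)) a b₁ c + 2 * π * I2 (fun x z => G x s₀ z) a c := by
  have hb : b₁ ≤ b₂ := (h1.trans h2).le
  have ha : a ≤ a ∧ a ≤ a := ⟨le_rfl, le_rfl⟩
  have hc : c ≤ c ∧ c ≤ c := ⟨le_rfl, le_rfl⟩
  have key : ∀ b : ℝ, b₁ ≤ b ∧ b ≤ b₂ → b ≠ s₀ →
      (∫ t : ℝ × ℝ × ℝ, G (a + t.1 * I) (b + t.2.1 * I) (c + t.2.2 * I) / (b + t.2.1 * I - s₀) =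
        ∫ p : ℝ × ℝ, ∫ y : ℝ, G (a + p.1 * I) (b + y * I) (c + p.2 * I) / (b + y * I - s₀)) ∧
      Integrable (fun p : ℝ × ℝ =>
        ∫ y : ℝ, G (a + p.1 * I) (b + y * I) (c + p.2 * I) / (b + y * I - s₀)) := by
    intro b hbb hne
    refine i3b_mid (f := fun x y z => G (a + x * I) (b + y * I) (c + z * I) / (b + y * I - s₀))
      (B := |b - s₀|⁻¹ * B)
      ((i3b_cont3 hG ha hbb hc).div (by fun_prop) fun t => i3b_den_ne hne _) fun x y z => ?_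
    rw [mul_assoc]
    exact i3b_div_le hne y (i3b_dec3 hB ha hbb hc x y z)
  obtain ⟨e2, -⟩ := key b₂ ⟨hb, le_rfl⟩ h2.ne'
  obtain ⟨e1, i1⟩ := key b₁ ⟨le_rfl, hb⟩ h1.ne
  have hs : b₁ ≤ s₀ ∧ s₀ ≤ b₂ := ⟨h1.le, h2.le⟩
  have i0 : Integrable (fun p : ℝ × ℝ => G (a + p.1 * I) s₀ (c + p.2 * I)) := by
    refine i3b_int2 (B := B * i3b_e 0) ?_ fun t => ?_
    · have h := (i3b_cont3 hG ha hs hc).comp
        (by fun_prop : Continuous fun p : ℝ × ℝ => ((p.1, 0, p.2) : ℝ × ℝ × ℝ))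
      simpa [Function.comp_def] using h
    · have h := i3b_dec3 hB ha hs hc t.1 0 t.2
      simp only [ofReal_zero, zero_mul, add_zero] at h
      calc _ ≤ _ := h
        _ = _ := by ring
  unfold I3 I2
  beta_reduce
  rw [e2, e1, ← integral_const_mul, ← integral_add i1 (i0.const_mul _)]
  refine integral_congr_ae (Filter.Eventually.of_forall fun p => ?_)
  have hmem : ∀ s ∈ strip b₁ b₂,
      ((a : ℂ) + p.1 * I, s, (c : ℂ) + p.2 * I) ∈ Box a a b₁ b₂ c c := fun s hs => by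
    simp [Box, hs.1, hs.2]
  refine i3b_line_pole (G := fun w => G (a + p.1 * I) w (c + p.2 * I))
    (B := B * (i3b_e p.1 * i3b_e p.2)) h1 h2 ((hG.d2 _ _).mono hmem) fun s hs => ?_
  have h := hB _ _ _ (hmem s hs)
  rw [i3b_E3] at h
  simp only [add_im, ofReal_im, mul_im, ofReal_re, I_im, mul_one, I_re, mul_zero, add_zero,
    zero_add] at h
  calc _ ≤ _ := h
    _ = _ := by ring

theorem i3b_pole2 {G : ℂ → ℂ → ℂ} {a c₁ c₂ s₀ B : ℝ} (h1 : c₁ < s₀) (h2 : s₀ < c₂)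
    (hG : Hol2 G (Box2 a a c₁ c₂)) (hB : Dec2 G (Box2 a a c₁ c₂) B) :
    I2 (fun x z => G x z / (z - s₀)) a c₂ =
      I2 (fun x z => G x z / (z - s₀)) a c₁ + (2 * π) ^ 2 * VI a (fun x => G x s₀) := by
  have hc : c₁ ≤ c₂ := (h1.trans h2).le
  have ha : a ≤ a ∧ a ≤ a := ⟨le_rfl, le_rfl⟩
  have key : ∀ c : ℝ, c₁ ≤ c ∧ c ≤ c₂ → c ≠ s₀ →
      Integrable (fun t : ℝ × ℝ => G (a + t.1 * I) (c + t.2 * I) / (c + t.2 * I - s₀)) := by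
    intro c hcc hne
    refine i3b_int2 (B := |c - s₀|⁻¹ * B)
      ((i3b_cont2 hG ha hcc).div (by fun_prop) fun t => i3b_den_ne hne _) fun t => ?_
    rw [mul_assoc]
    exact i3b_div_le hne t.2 (i3b_dec2 hB ha hcc t.1 t.2)
  have k2 := key c₂ ⟨hc, le_rfl⟩ h2.ne'
  have k1 := key c₁ ⟨le_rfl, hc⟩ h1.ne
  have hs : c₁ ≤ s₀ ∧ s₀ ≤ c₂ := ⟨h1.le, h2.le⟩
  have i0 : Integrable (fun x : ℝ => G (a + x * I) s₀) := by
    refine (i3b_e_int.const_mul (B * i3b_e 0)).mono' (Continuous.aestronglyMeasurable ?_)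
      (Filter.Eventually.of_forall fun x => ?_)
    · have h := (i3b_cont2 hG ha hs).comp
        (by fun_prop : Continuous fun x : ℝ => ((x, 0) : ℝ × ℝ))
      simpa [Function.comp_def] using h
    · have h := i3b_dec2 hB ha hs x 0
      simp only [ofReal_zero, zero_mul, add_zero] at h
      calc _ ≤ _ := h
        _ = _ := by ring
  have e2 := integral_prod _ k2
  have e1 := integral_prod _ k1
  have i1 : Integrable (fun x : ℝ =>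
      ∫ y : ℝ, G (a + x * I) (c₁ + y * I) / (c₁ + y * I - s₀)) := k1.integral_prod_left
  have e0 : (2 * π : ℂ) ^ 2 * VI a (fun x => G x s₀) =
      ∫ x : ℝ, 2 * π * G (a + x * I) s₀ := by
    rw [integral_const_mul, i3b_int_eq a (fun x => G x s₀)]
    ring
  unfold I2
  beta_reduce
  rw [e0]
  refine e2.trans (Eq.trans ?_ (congrArg (· + _) e1.symm))
  rw [← integral_add i1 (i0.const_mul _)]
  refine integral_congr_ae (Filter.Eventually.of_forall fun x => ?_)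
  have hmem : ∀ s ∈ strip c₁ c₂, ((a : ℂ) + x * I, s) ∈ Box2 a a c₁ c₂ := fun s hs => by
    simp [Box2, hs.1, hs.2]
  refine i3b_line_pole (G := fun z => G (a + x * I) z)
    (B := B * i3b_e x) h1 h2 ((hG.d2 _).mono hmem) fun s hs => ?_
  have h := hB _ _ (hmem s hs)
  rw [i3b_E2] at h
  simp only [add_im, ofReal_im, mul_im, ofReal_re, I_im, mul_one, I_re, mul_zero, add_zero,
    zero_add] at h
  calc _ ≤ _ := h
    _ = _ := by ring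

end Crest.Agent.R17.Jb
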