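import Crest.Agent.R17.J.Defs
import Crest.Agent.R17.J.I3AuxB

/-!
Row 17, block J: shifting multiple line integrals.

Recipe.  First a lemma on `ℝ × Y` (`Y` any s-finite measure space, majorant `g y · E1`): Fubini
(`integral_prod_symm`, integrability from continuity on the lines and the product majorant) and
`VI_shift` / `VI_shift_pole` for each `y`.  The coordinates of `ℝ × ℝ × ℝ` are permuted by measure
preserving equivalences (`MeasurableEquiv.prodAssoc`, `prodComm`, `measurePreserving_prodAssoc`,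
`Measure.measurePreserving_swap`, `MeasurePreserving.integral_comp'`); `E3` is symmetric and factors as
`E1 x * E1 w * E1 z`; `∫ exp (-|t| / 4) = 8`.
-/

set_option autoImplicit false

namespace Crest.Agent.R17.Jb

open Complex MeasureTheory
open scoped Real

theorem Hol3.mono {F : ℂ → ℂ → ℂ → ℂ} {Ω Ω' : Set (ℂ × ℂ × ℂ)} (h : Hol3 F Ω) (hΩ : Ω' ⊆ Ω) :
    Hol3 F Ω' :=
  ⟨h.cont.mono hΩ, fun w z => (h.d1 w z).mono fun _ hx => hΩ hx,
    fun x z => (h.d2 x z).mono fun _ hx => hΩ hx, fun x w => (h.d3 x w).mono fun _ hx => hΩ hx⟩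

theorem Hol3.mul {F G : ℂ → ℂ → ℂ → ℂ} {Ω : Set (ℂ × ℂ × ℂ)} (hF : Hol3 F Ω) (hG : Hol3 G Ω) :
    Hol3 (fun x w z => F x w z * G x w z) Ω :=
  ⟨hF.cont.mul hG.cont, fun w z => (hF.d1 w z).mul (hG.d1 w z),
    fun x z => (hF.d2 x z).mul (hG.d2 x z), fun x w => (hF.d3 x w).mul (hG.d3 x w)⟩

theorem Hol3.div {F G : ℂ → ℂ → ℂ → ℂ} {Ω : Set (ℂ × ℂ × ℂ)} (hF : Hol3 F Ω) (hG : Hol3 G Ω)
    (h0 : ∀ p ∈ Ω, G p.1 p.2.1 p.2.2 ≠ 0) : Hol3 (fun x w z => F x w z / G x w z) Ω :=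
  ⟨hF.cont.div hG.cont h0, fun w z => (hF.d1 w z).div (hG.d1 w z) fun _ hx => h0 _ hx,
    fun x z => (hF.d2 x z).div (hG.d2 x z) fun _ hx => h0 _ hx,
    fun x w => (hF.d3 x w).div (hG.d3 x w) fun _ hx => h0 _ hx⟩

theorem Hol3.congr {F G : ℂ → ℂ → ℂ → ℂ} {Ω : Set (ℂ × ℂ × ℂ)} (hF : Hol3 F Ω)
    (h : ∀ p ∈ Ω, G p.1 p.2.1 p.2.2 = F p.1 p.2.1 p.2.2) : Hol3 G Ω :=
  ⟨hF.cont.congr h, fun w z => (hF.d1 w z).congr fun _ hx => h _ hx,
    fun x z => (hF.d2 x z).congr fun _ hx => h _ hx, fun x w => (hF.d3 x w).congr fun _ hx => h _ hx⟩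

/-- a jointly differentiable function -/
theorem hol3_of_diffOn {F : ℂ → ℂ → ℂ → ℂ} {Ω : Set (ℂ × ℂ × ℂ)}
    (h : DifferentiableOn ℂ (fun p : ℂ × ℂ × ℂ => F p.1 p.2.1 p.2.2) Ω) : Hol3 F Ω :=
  ⟨h.continuousOn,
    fun w z => h.comp (f := fun x : ℂ => (x, w, z)) (by fun_prop) fun _ hx => hx,
    fun x z => h.comp (f := fun w : ℂ => (x, w, z)) (by fun_prop) fun _ hx => hx,
    fun x w => h.comp (f := fun z : ℂ => (x, w, z)) (by fun_prop) fun _ hx => hx⟩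

theorem Hol3.slice {F : ℂ → ℂ → ℂ → ℂ} {Ω : Set (ℂ × ℂ × ℂ)} (h : Hol3 F Ω) (w : ℂ)
    {Ω' : Set (ℂ × ℂ)} (hΩ : ∀ p ∈ Ω', (p.1, w, p.2) ∈ Ω) : Hol2 (fun x z => F x w z) Ω' :=
  ⟨h.cont.comp (f := fun p : ℂ × ℂ => (p.1, w, p.2)) (by fun_prop) hΩ,
    fun z => (h.d1 w z).mono fun _ hx => hΩ _ hx, fun x => (h.d3 x w).mono fun _ hx => hΩ _ hx⟩

theorem Hol2.mono {F : ℂ → ℂ → ℂ} {Ω Ω' : Set (ℂ × ℂ)} (h : Hol2 F Ω) (hΩ : Ω' ⊆ Ω) :
    Hol2 F Ω' :=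
  ⟨h.cont.mono hΩ, fun z => (h.d1 z).mono fun _ hx => hΩ hx,
    fun x => (h.d2 x).mono fun _ hx => hΩ hx⟩

theorem integrable_E1 : Integrable fun t : ℝ => Real.exp (-|t| / 4) := by
  have h := linec_exp_abs (ε := 1 / 4) (by norm_num)
  refine h.congr (Filter.Eventually.of_forall fun t => ?_)
  exact congrArg Real.exp (by ring)

theorem integral_E1 : ∫ t : ℝ, Real.exp (-|t| / 4) = 8 := by
  have h := integral_exp_mul_Ioi (a := -1 / 4) (by norm_num) 0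
  rw [integral_comp_abs (f := fun t => Real.exp (-t / 4))]
  have e : (fun t : ℝ => Real.exp (-t / 4)) = fun t => Real.exp (-1 / 4 * t) :=
    funext fun t => congrArg Real.exp (by ring)
  rw [e, h]
  norm_num

theorem I3_congr {F G : ℂ → ℂ → ℂ → ℂ} {a b c : ℝ}
    (h : ∀ x w z : ℂ, x.re = a → w.re = b → z.re = c → F x w z = G x w z) :
    I3 F a b c = I3 G a b c :=
  integral_congr_ae (Filter.Eventually.of_forall fun t => h _ _ _ (by simp) (by simp) (by simp))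

theorem I2_congr {F G : ℂ → ℂ → ℂ} {a c : ℝ}
    (h : ∀ x z : ℂ, x.re = a → z.re = c → F x z = G x z) : I2 F a c = I2 G a c :=
  integral_congr_ae (Filter.Eventually.of_forall fun t => h _ _ (by simp) (by simp))

theorem I3_norm {F : ℂ → ℂ → ℂ → ℂ} {a b c B : ℝ} (h : Dec3 F (Box a a b b c c) B) :
    ‖I3 F a b c‖ ≤ 512 * B := by
  have hi : Integrable fun t : ℝ × ℝ × ℝ => Real.exp (-|t.1| / 4) *
      (Real.exp (-|t.2.1| / 4) * Real.exp (-|t.2.2| / 4)) :=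
    integrable_E1.mul_prod (integrable_E1.mul_prod integrable_E1)
  refine (norm_integral_le_of_norm_le (hi.const_mul B)
    (Filter.Eventually.of_forall fun t => ?_)).trans (le_of_eq ?_)
  · refine (h _ _ _ (by simp [Box])).trans (le_of_eq ?_)
    rw [E3, ← Real.exp_add, ← Real.exp_add]
    simp only [add_im, ofReal_im, mul_im, ofReal_re, I_im, mul_one, I_re, mul_zero, add_zero,
      zero_add]
    congr 2
    ring
  · rw [integral_const_mul, Measure.volume_eq_prod,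
      integral_prod_mul (fun t : ℝ => Real.exp (-|t| / 4))
        (fun t : ℝ × ℝ => Real.exp (-|t.1| / 4) * Real.exp (-|t.2| / 4)), Measure.volume_eq_prod,
      integral_prod_mul (fun t : ℝ => Real.exp (-|t| / 4)) (fun t : ℝ => Real.exp (-|t| / 4)),
      integral_E1]
    ring

theorem I2_norm {F : ℂ → ℂ → ℂ} {a c B : ℝ} (h : Dec2 F (Box2 a a c c) B) :
    ‖I2 F a c‖ ≤ 64 * B := by
  have hi : Integrable fun t : ℝ × ℝ => Real.exp (-|t.1| / 4) * Real.exp (-|t.2| / 4) :=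
    integrable_E1.mul_prod integrable_E1
  refine (norm_integral_le_of_norm_le (hi.const_mul B)
    (Filter.Eventually.of_forall fun t => ?_)).trans (le_of_eq ?_)
  · refine (h _ _ (by simp [Box2])).trans (le_of_eq ?_)
    rw [E2, ← Real.exp_add]
    simp only [add_im, ofReal_im, mul_im, ofReal_re, I_im, mul_one, I_re, mul_zero, add_zero,
      zero_add]
    congr 2
    ring
  · rw [integral_const_mul, Measure.volume_eq_prod,
      integral_prod_mul (fun t : ℝ => Real.exp (-|t| / 4)) (fun t : ℝ => Real.exp (-|t| / 4)),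
      integral_E1]
    ring

theorem VI_norm {F : ℂ → ℂ} {a B : ℝ} (h : ∀ x : ℂ, x.re = a → ‖F x‖ ≤ B * E1 x) :
    ‖VI a F‖ ≤ 2 * B := by
  have hB : 0 ≤ B := by
    have := (norm_nonneg _).trans (h a (ofReal_re a))
    exact nonneg_of_mul_nonneg_left this (Real.exp_pos _)
  refine (norm_VI_le (integrable_E1.const_mul B) fun y => ?_).trans ?_
  · refine (h _ (by simp)).trans (le_of_eq ?_)
    simp [E1]
  · rw [integral_const_mul, integral_E1]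
    have := Real.pi_gt_three
    rw [one_div, inv_mul_le_iff₀ (by positivity)]
    nlinarith

/-- all three lines may be moved inside a box -/
theorem I3_box {F : ℂ → ℂ → ℂ → ℂ} {a₁ a₂ b₁ b₂ c₁ c₂ B : ℝ} (ha : a₁ ≤ a₂) (hb : b₁ ≤ b₂)
    (hc : c₁ ≤ c₂) (hF : Hol3 F (Box a₁ a₂ b₁ b₂ c₁ c₂)) (hB : Dec3 F (Box a₁ a₂ b₁ b₂ c₁ c₂) B) :
    I3 F a₂ b₂ c₂ = I3 F a₁ b₁ c₁ := by
  rw [i3b_box1 ha ⟨hb, le_rfl⟩ ⟨hc, le_rfl⟩ hF hB, i3b_box2 ⟨le_rfl, ha⟩ hb ⟨hc, le_rfl⟩ hF hB,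
    i3b_box3 ⟨le_rfl, ha⟩ ⟨le_rfl, hb⟩ hc hF hB]

/-- crossing a simple pole in the second variable -/
theorem I3_pole {G : ℂ → ℂ → ℂ → ℂ} {a b₁ b₂ c s₀ B : ℝ} (h1 : b₁ < s₀) (h2 : s₀ < b₂)
    (hG : Hol3 G (Box a a b₁ b₂ c c)) (hB : Dec3 G (Box a a b₁ b₂ c c) B) :
    I3 (fun x w z => G x w z / (w - s₀)) a b₂ c =
      I3 (fun x w z => G x w z / (w - s₀)) a b₁ c + 2 * π * I2 (fun x z => G x s₀ z) a c :=
  i3b_pole3 h1 h2 hG hB

/-- crossing a simple pole in the second variable -/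
theorem I2_pole {G : ℂ → ℂ → ℂ} {a c₁ c₂ s₀ B : ℝ} (h1 : c₁ < s₀) (h2 : s₀ < c₂)
    (hG : Hol2 G (Box2 a a c₁ c₂)) (hB : Dec2 G (Box2 a a c₁ c₂) B) :
    I2 (fun x z => G x z / (z - s₀)) a c₂ =
      I2 (fun x z => G x z / (z - s₀)) a c₁ + (2 * π) ^ 2 * VI a (fun x => G x s₀) :=
  i3b_pole2 h1 h2 hG hB

end Crest.Agent.R17.Jb
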