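import Crest.Agent.R17.J.ApiA

/-! Row 17, block J: the slot primes. -/

set_option autoImplicit false

namespace Crest.Agent.R17.Jb

open Complex MeasureTheory
open scoped Real

variable {q : O} {J : ℕ} {e : ℝ}

theorem mem_Psl {Z : ℝ} {p : O} : p ∈ Psl q J e Z ↔
    Prime p ∧ Prim p ∧ IsCoprime p q ∧ Plo J e Z ≤ nm p ∧ nm p ≤ Phi J e Z := by
  have h : (PsS q J e Z).Finite := (ball_finite (Phi J e Z)).subset fun p hp => hp.2.2.2.2
  rw [Psl, dif_pos h, Set.Finite.mem_toFinset]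
  rfl

theorem Phi_pow (hJ : 1 ≤ J) (e : ℝ) {Z : ℝ} (hZ : 0 < Z) : Phi J e Z ^ J = Z ^ (1 / 6 + e) := by
  have hJ' : (J : ℝ) ≠ 0 := by positivity
  rw [Phi, ← Real.rpow_natCast, ← Real.rpow_mul hZ.le, div_mul_cancel₀ _ hJ']

theorem one_le_Phi (he : 0 < e) {Z : ℝ} (hZ : 1 ≤ Z) : 1 ≤ Phi J e Z := by
  exact Real.one_le_rpow hZ (by positivity)

theorem slots_Psl (he : 0 < e) {Z : ℝ} (hZ : 1 ≤ Z) :
    Slots q (Phi J e Z) (Psl q J e Z) (wt J Z) := by
  refine ⟨one_le_Phi he hZ, fun p hp => ?_, fun p => norm_LN_le_one _ _ _ _⟩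
  obtain ⟨h1, h2, h3, -, h5⟩ := mem_Psl.1 hp
  exact ⟨h1, h2, h3, h5⟩

theorem amp_nonneg {Z : ℝ} (hZ : 0 ≤ Z) (u : O) (z : ℂ) : 0 ≤ amp q J e Z u z := by
  exact pow_nonneg (add_nonneg (norm_nonneg _) (Real.rpow_nonneg (Real.rpow_nonneg hZ _) _)) _

theorem continuous_amp (Z : ℝ) (u : O) (c : ℝ) :
    Continuous fun τ : ℝ => amp q J e Z u (c + τ * I) := by
  have h1 : Continuous fun τ : ℝ => slot q J e Z u (c + τ * I) := by
    refine continuous_finsetSum _ fun p hp => (continuous_const.mul ?_).mul continuous_const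
    have hp0 : (nm p : ℂ) ≠ 0 := ofReal_ne_zero.2 (nm_pos (mem_Psl.1 hp).1.ne_zero).ne'
    exact Continuous.const_cpow (by fun_prop) (Or.inl hp0)
  have h2 : ∀ τ : ℝ, ((c : ℂ) + τ * I).re = c := fun τ => by simp
  simp only [amp, h2]
  exact (h1.norm.add continuous_const).pow _

/-- trivial bound: `N p ^ (σ - 1/2) ≤ Phi ^ (σ + 1/2 + e) · N p ^ (-1 - e)`, `B_summable_nm` -/
theorem amp_triv (hJ : 1 ≤ J) (he : 0 < e) : ∃ C : ℝ, 0 ≤ C ∧ ∀ (Z : ℝ) (u : O) (z : ℂ), 1 ≤ Z →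
    0 ≤ z.re → amp q J e Z u z ≤ C * Z ^ ((1 / 6 + e) * (z.re + 1 / 2 + e)) := by
  have hs := B_summable_nm (σ := 1 + e) (by linarith)
  set S : ℝ := ∑' n : O, nm n ^ (-(1 + e)) with hS
  have h0 : ∀ n : O, 0 ≤ nm n ^ (-(1 + e)) := fun n => Real.rpow_nonneg (nm_nonneg n) _
  have hS0 : 0 ≤ S := tsum_nonneg h0
  refine ⟨(S + 1) ^ J, by positivity, fun Z u z hZ hz => ?_⟩
  have hZ0 : 0 < Z := by linarith
  have hP : 1 ≤ Phi J e Z := one_le_Phi he hZ
  have hP0 : 0 < Phi J e Z := by linarith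
  have hE : 0 ≤ Phi J e Z ^ (z.re + 1 / 2 + e) := by positivity
  have h1 : ‖slot q J e Z u z‖ ≤ Phi J e Z ^ (z.re + 1 / 2 + e) * S := by
    refine (norm_sum_le _ _).trans (le_trans ?_ (mul_le_mul_of_nonneg_left
      (hs.sum_le_tsum (Psl q J e Z) fun n _ => h0 n) hE))
    rw [Finset.mul_sum]
    refine Finset.sum_le_sum fun p hp => ?_
    obtain ⟨hp1, -, -, -, hp5⟩ := mem_Psl.1 hp
    have hp0 : 0 < nm p := nm_pos hp1.ne_zero
    have e1 : ‖(nm p : ℂ) ^ (z - 1 / 2)‖ = nm p ^ (z.re + 1 / 2 + e) * nm p ^ (-(1 + e)) := by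
      rw [norm_cpow_eq_rpow_re_of_pos hp0, ← Real.rpow_add hp0]
      congr 1
      simp only [sub_re, one_div, inv_re, re_ofNat, normSq_ofNat]
      ring
    have e2 : nm p ^ (z.re + 1 / 2 + e) ≤ Phi J e Z ^ (z.re + 1 / 2 + e) :=
      Real.rpow_le_rpow hp0.le hp5 (by linarith)
    rw [norm_mul, norm_mul, e1]
    calc _ ≤ 1 * (nm p ^ (z.re + 1 / 2 + e) * nm p ^ (-(1 + e))) * 1 := by
          have := norm_sx_le u p
          have : ‖wt J Z p‖ ≤ 1 := norm_LN_le_one _ _ _ _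
          gcongr
      _ ≤ _ := by
          rw [one_mul, mul_one]
          exact mul_le_mul_of_nonneg_right e2 (h0 p)
  have h2 : Phi J e Z ^ (z.re + e) ≤ Phi J e Z ^ (z.re + 1 / 2 + e) :=
    Real.rpow_le_rpow_of_exponent_le hP (by linarith)
  have h3 : (Phi J e Z ^ (z.re + 1 / 2 + e)) ^ J = Z ^ ((1 / 6 + e) * (z.re + 1 / 2 + e)) := by
    rw [Real.rpow_mul hZ0.le, ← Phi_pow hJ e hZ0, ← Real.rpow_natCast, ← Real.rpow_natCast,
      ← Real.rpow_mul hP0.le, ← Real.rpow_mul hP0.le, mul_comm]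
  rw [← h3, ← mul_pow]
  refine pow_le_pow_left₀ (add_nonneg (norm_nonneg _) (by positivity)) ?_ _
  nlinarith

/-- The slot sum is a prime sum: `LN_mul_cpow` with `s = z - 1/2` turns `wt p · N p ^ (z - 1/2)` into
`c · P0 ^ s · LN 1 (P0 e^{-4/25}) τ (N p)`, `‖c‖ = exp ((4/25)² / 2) ≤ 2`; the primes outside
`[Plo, Phi] = [P0 Z^(-e/J), P0 Z^(e/J)]` contribute at most `1` (`sum_LN_O_negl` applied to the
coefficients `N p ^ (z - 1/2)`, centre `P0`). -/
theorem slot_le_PP (hJ : 1 ≤ J) (he : 0 < e) : ∃ C : ℝ, ∀ (Z τ : ℝ) (u : O), C ≤ Z →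
    ‖slot q J e Z u ((17 / 50 : ℝ) + τ * I)‖ ≤ 2 * P0 J Z ^ (-(4 / 25) : ℝ) *
      ‖PP (rc (one q) u) 1 (P0 J Z * Real.exp (-(4 / 25))) τ‖ + 1 := by
  classical
  have hJ0 : (1 : ℝ) ≤ J := by exact_mod_cast hJ
  obtain ⟨C₁, -, h₁⟩ := sum_LN_O one_pos 0
  obtain ⟨C₂, hC₂, h₂⟩ := sum_LN_O_negl one_pos (show 0 < e / J by positivity) 0 2
  refine ⟨max 1 C₂, fun Z τ u hZ => ?_⟩
  have hZ1 : 1 ≤ Z := (le_max_left _ _).trans hZ
  have hZ0 : 0 < Z := by linarith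
  have hP : 0 < P0 J Z := Real.rpow_pos_of_pos hZ0 _
  have hPZ : P0 J Z ≤ Z := by
    refine (Real.rpow_le_rpow_of_exponent_le hZ1 ?_).trans_eq (Real.rpow_one Z)
    rw [div_le_one (by positivity)]; linarith
  set s : ℂ := (17 / 50 : ℝ) + τ * I - 1 / 2 with hs
  have hre : s.re = -(4 / 25) := by simp [hs]; norm_num
  have him : s.im = τ := by simp [hs]
  set c : O → ℂ := fun n => if Prim n ∧ Prime n then rc (one q) u n else 0 with hc
  have hc0 : ∀ n, c n ≠ 0 → Prime n ∧ Prim n ∧ IsCoprime n q := fun n hn => by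
    by_cases h : Prim n ∧ Prime n
    · refine ⟨h.2, h.1, not_not.1 fun h' => hn ?_⟩
      simp [hc, rc, one, h']
    · exact absurd (if_neg h) hn
  have hc1 : ∀ n, n ≠ 0 → ‖c n * (nm n : ℂ) ^ s‖ ≤ 1 * nm n ^ (0 : ℝ) := fun n hn => by
    rw [Real.rpow_zero, norm_mul, norm_cpow_eq_rpow_re_of_pos (nm_pos hn), hre]
    refine mul_le_mul ?_ (Real.rpow_le_one_of_one_le_of_nonpos (one_le_nm hn) (by norm_num))
      (Real.rpow_nonneg (nm_nonneg n) _) zero_le_one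
    simp only [hc, rc, one]
    split_ifs <;> simp [norm_sx_le]
  have hc2 : c 0 = 0 := if_neg fun h => not_prime_zero h.2
  set c' : O → ℂ := fun n => if n ∈ Psl q J e Z then 0 else c n * (nm n : ℂ) ^ s with hc'
  have hc'1 : ∀ n, n ≠ 0 → ‖c' n‖ ≤ 1 * nm n ^ (0 : ℝ) := fun n hn => by
    simp only [hc']
    split_ifs
    · simp
    · exact hc1 n hn
  have hc'2 : ∀ n, n = 0 → c' n = 0 := by
    rintro _ rfl
    simp [hc', hc2]
  have s1 := (h₁ id (fun n => c n * (nm n : ℂ) ^ s) 1 _ 0 Function.injective_id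
    (by rintro _ rfl; simp [hc2]) hc1 zero_le_one hP).1
  have s2 := (h₁ id c' 1 _ 0 Function.injective_id hc'2 hc'1 zero_le_one hP).1
  have b2 := h₂ id c' 1 _ 0 Z Function.injective_id hc'2 hc'1 zero_le_one hP hZ1 fun n hn => by
    have h1 : n ∉ Psl q J e Z := fun h => hn (if_pos h)
    obtain ⟨h2, h3, h4⟩ := hc0 n fun h => hn (by simp [hc', h])
    have e1 : P0 J Z * Z ^ (-(e / J)) = Plo J e Z := by
      rw [P0, Plo, ← Real.rpow_add hZ0]; congr 1; field_simp; ring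
    have e2 : P0 J Z * Z ^ (e / J) = Phi J e Z := by
      rw [P0, Phi, ← Real.rpow_add hZ0]; congr 1; field_simp
    rw [e1, e2]
    by_contra h5
    rw [not_or, not_le, not_le] at h5
    exact h1 (mem_Psl.2 ⟨h2, h3, h4, h5.1.le, h5.2.le⟩)
  simp only [id] at s1 s2 b2
  have e1 : slot q J e Z u ((17 / 50 : ℝ) + τ * I) =
      SS (fun n => c n * (nm n : ℂ) ^ s) nm 1 (P0 J Z) 0 -
        ∑' n, c' n * LN 1 (P0 J Z) 0 (nm n) := by
    rw [SS, ← s1.of_norm.tsum_sub s2.of_norm, tsum_eq_sum (s := Psl q J e Z) fun n hn => by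
      simp only [hc', if_neg hn, sub_self]]
    refine Finset.sum_congr rfl fun p hp => ?_
    obtain ⟨h2, h3, h4, -⟩ := mem_Psl.1 hp
    simp only [hc', if_pos hp, hc, if_pos (And.intro h3 h2), rc, one, if_pos h4, wt]
    ring
  have e2 : SS c nm 1 (P0 J Z * Real.exp (-(4 / 25))) τ =
      PP (rc (one q) u) 1 (P0 J Z * Real.exp (-(4 / 25))) τ := by
    rw [PP, tsum_Pr_eq fun n => if Prime n then
      rc (one q) u n * LN 1 (P0 J Z * Real.exp (-(4 / 25))) τ (nm n) else 0]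
    refine tsum_congr fun n => ?_
    simp only [hc, ite_and, ite_mul, zero_mul]
  rw [e1, SS_mul_cpow (fun n hn => nm_pos (hc0 n hn).1.ne_zero) one_pos hP, hre, him, one_pow,
    one_mul (-(4 / 25) : ℝ), zero_add, e2]
  refine (norm_sub_le _ _).trans (add_le_add ?_ ?_)
  · rw [norm_mul, norm_mul, norm_cpow_eq_rpow_re_of_pos hP, hre, mul_comm 2]
    gcongr
    rw [Complex.norm_exp]
    refine le_trans (Real.exp_le_exp.2 ?_) (Real.exp_log two_pos).le
    have := Real.log_two_gt_d9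
    simp only [add_re, ofReal_re, mul_re, I_re, I_im, ofReal_im]
    linarith
  · refine ((norm_tsum_le_tsum_norm s2).trans b2).trans ?_
    rw [zero_add, Real.rpow_one, mul_one, Real.rpow_neg hZ0.le, Real.rpow_two,
      ← div_eq_mul_inv, div_le_one (by positivity), sq]
    exact mul_le_mul ((le_max_right _ _).trans hZ) hPZ hP.le hZ0.le

theorem PP_triv : ∃ C : ℝ, 0 ≤ C ∧ ∀ (q u : O) (Y τ : ℝ), 0 < Y →
    ‖PP (rc (one q) u) 1 Y τ‖ ≤ C * Y := by
  classical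
  obtain ⟨C, hC, H⟩ := sum_LN_O (a := 1) one_pos 0
  refine ⟨C, hC.le, fun q u Y τ hY => ?_⟩
  obtain ⟨h1, h2⟩ := H (ι := Pr) Subtype.val
    (fun n => if Prime (n : O) then rc (one q) u n else 0) 1 Y τ Subtype.val_injective
    (fun n hn => absurd hn (sob_Pr_ne_zero n)) (fun n _ => by
      rw [Real.rpow_zero, mul_one]
      split_ifs
      · rw [rc, norm_mul]
        have h1 : ‖one q n‖ ≤ 1 := by
          unfold one
          split_ifs <;> simp
        exact mul_le_one₀ h1 (norm_nonneg _) (norm_sx_le u n)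
      · simp) zero_le_one hY
  have e : PP (rc (one q) u) 1 Y τ =
      ∑' n : Pr, (if Prime (n : O) then rc (one q) u n else 0) * LN 1 Y τ (nm n) := by
    unfold PP
    congr 1
    funext n
    split_ifs <;> simp
  rw [e]
  refine (norm_tsum_le_tsum_norm h1).trans (h2.trans (le_of_eq ?_))
  simp

/-- All terms are positive reals; keep the subsets of the primes `S` of `primes_lower` at `X = P0`
(`S ⊆ Psl` for large `Z`): at least `choose #S J ≥ (#S / J)^J` terms, each at least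
`(c' P0^(-1/3))^J` (`le_norm_LN`); take `ε = min e (1/2)` in `primes_lower`. -/
theorem SJ_lower (hq : q ≠ 0) (hJ : 1 ≤ J) (he : 0 < e) : ∃ C : ℝ, ∀ Z : ℝ, C ≤ Z →
    Z ^ (1 / 9 - e) ≤ ‖SJ q J e Z‖ := by
  classical
  set ε : ℝ := min e (1 / 2) with hε
  have hε0 : 0 < ε := lt_min he (by norm_num)
  have hε1 : ε ≤ e := min_le_left _ _
  have hε2 : ε ≤ 1 / 2 := min_le_right _ _
  obtain ⟨c, X₀, hc, H⟩ := primes_lower hq hε0
  have hJ0 : (0 : ℝ) < J := by exact_mod_cast hJ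
  have hc0 : 0 < c := by linarith
  set κ : ℝ := Real.exp (-(Real.log c ^ 2 / (2 * 1 ^ 2))) * c ^ (-1 / 3 : ℝ) with hκ
  have hκ0 : 0 < κ := by positivity
  set K : ℝ := (κ / 2) ^ J / J.factorial with hK
  have hK0 : 0 < K := by positivity
  have ev : ∀ {a : ℝ}, 0 < a → ∀ b : ℝ, ∀ᶠ Z : ℝ in Filter.atTop, b ≤ Z ^ a := fun ha b =>
    (tendsto_rpow_atTop ha).eventually_ge_atTop b
  have h16 : (0 : ℝ) < 1 / (6 * J) := by positivity
  obtain ⟨C, hC⟩ := Filter.eventually_atTop.1 ((Filter.eventually_ge_atTop (1 : ℝ)).and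
    ((ev h16 X₀).and ((ev (div_pos he hJ0) c).and
      ((ev (mul_pos h16 (by linarith : 0 < 1 - ε)) (2 * J)).and
        (ev (by linarith : 0 < e - ε / 6) K⁻¹)))))
  refine ⟨C, fun Z hZ => ?_⟩
  obtain ⟨hZ1, hX, hcZ, hn, hKZ⟩ := hC Z hZ
  have hZ0 : 0 < Z := by linarith
  have hP0 : 0 < P0 J Z := Real.rpow_pos_of_pos hZ0 _
  obtain ⟨S, hS, hSp⟩ := H (P0 J Z) hX
  have hsub : S ⊆ Psl q J e Z := fun p hp => by
    obtain ⟨h1, h2, h3, h4, h5⟩ := hSp p hp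
    refine mem_Psl.2 ⟨h1, h2, h3, le_trans ?_ h4, h5.trans ?_⟩
    · refine Real.rpow_le_rpow_of_exponent_le hZ1 ?_
      rw [div_le_div_iff₀ hJ0 (by positivity)]
      nlinarith
    · have e1 : Phi J e Z = Z ^ (e / J) * P0 J Z := by
        rw [Phi, P0, ← Real.rpow_add hZ0]
        congr 1
        field_simp
        ring
      rw [e1]
      exact mul_le_mul_of_nonneg_right hcZ hP0.le
  set w : O → ℝ := fun p => ‖LN 1 (P0 J Z) 0 (nm p)‖ * nm p ^ (-1 / 3 : ℝ) with hw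
  have hw0 : ∀ p, 0 ≤ w p := fun p => mul_nonneg (norm_nonneg _) (Real.rpow_nonneg (nm_nonneg p) _)
  have e1 : SJ q J e Z = ((∑ A ∈ (Psl q J e Z).powersetCard J, ∏ p ∈ A, w p : ℝ) : ℂ) := by
    unfold SJ
    rw [ofReal_sum]
    refine Finset.sum_congr rfl fun A _ => ?_
    rw [ofReal_prod]
    refine Finset.prod_congr rfl fun p _ => ?_
    simp only [hw, wt, LN_zero, ofReal_mul, Complex.norm_real, Real.norm_eq_abs,
      Real.abs_exp]
  have hlow : ∀ p ∈ S, κ * P0 J Z ^ (-1 / 3 : ℝ) ≤ w p := fun p hp => by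
    obtain ⟨h1, -, -, h4, h5⟩ := hSp p hp
    have hp0 : 0 < nm p := nm_pos h1.ne_zero
    have a1 : |Real.log (nm p / P0 J Z)| ≤ Real.log c := by
      rw [abs_of_nonneg (Real.log_nonneg ((one_le_div hP0).2 h4))]
      exact Real.log_le_log (by positivity) ((div_le_iff₀ hP0).2 h5)
    have a2 : c ^ (-1 / 3 : ℝ) * P0 J Z ^ (-1 / 3 : ℝ) ≤ nm p ^ (-1 / 3 : ℝ) := by
      rw [← Real.mul_rpow hc0.le hP0.le]
      exact Real.rpow_le_rpow_of_nonpos hp0 h5 (by norm_num)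
    rw [hκ, mul_assoc]
    exact mul_le_mul (le_norm_LN a1 0) a2 (by positivity) (norm_nonneg _)
  have hPε : P0 J Z ^ (1 - ε) = Z ^ (1 / (6 * J) * (1 - ε)) := by
    rw [P0, ← Real.rpow_mul hZ0.le]
  have hcard : (2 * J : ℝ) ≤ S.card := hn.trans (hPε ▸ hS)
  have hch : (P0 J Z ^ (1 - ε) / 2) ^ J / J.factorial ≤ (S.card.choose J : ℝ) := by
    refine le_trans ?_ (Nat.pow_le_choose J S.card)
    have hJS : J ≤ S.card + 1 := by
      have : (J : ℝ) ≤ S.card := by linarith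
      have : J ≤ S.card := by exact_mod_cast this
      omega
    have : P0 J Z ^ (1 - ε) / 2 ≤ ((S.card + 1 - J : ℕ) : ℝ) := by
      rw [Nat.cast_sub hJS]
      push_cast
      linarith
    push_cast
    gcongr
  have hsum : (S.card.choose J : ℝ) * (κ * P0 J Z ^ (-1 / 3 : ℝ)) ^ J ≤
      ∑ A ∈ (Psl q J e Z).powersetCard J, ∏ p ∈ A, w p := by
    refine le_trans ?_ (Finset.sum_le_sum_of_subset_of_nonneg (Finset.powersetCard_mono hsub)
      fun A _ _ => Finset.prod_nonneg fun p _ => hw0 p)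
    rw [← Finset.card_powersetCard, ← nsmul_eq_mul]
    refine Finset.card_nsmul_le_sum _ _ _ fun A hA => ?_
    obtain ⟨hA1, hA2⟩ := Finset.mem_powersetCard.1 hA
    have hpos : 0 ≤ κ * P0 J Z ^ (-1 / 3 : ℝ) := by positivity
    generalize κ * P0 J Z ^ (-1 / 3 : ℝ) = y at hlow hpos
    rw [← hA2, ← Finset.prod_const]
    exact Finset.prod_le_prod (fun _ _ => hpos) fun p hp => hlow p (hA1 hp)
  have e2 : (P0 J Z ^ (1 - ε) / 2) ^ J / J.factorial * (κ * P0 J Z ^ (-1 / 3 : ℝ)) ^ J =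
      K * Z ^ (e - ε / 6) * Z ^ (1 / 9 - e) := by
    have a1 : (P0 J Z ^ (1 - ε) * P0 J Z ^ (-1 / 3 : ℝ)) ^ J = Z ^ (e - ε / 6) * Z ^ (1 / 9 - e) := by
      rw [← Real.rpow_add hP0, P0, ← Real.rpow_mul hZ0.le, ← Real.rpow_natCast,
        ← Real.rpow_mul hZ0.le, ← Real.rpow_add hZ0]
      congr 1
      field_simp
      ring
    rw [mul_assoc K, ← a1, hK, mul_pow, mul_pow, div_pow, div_pow]
    ring
  rw [e1, Complex.norm_real, Real.norm_of_nonneg
    (Finset.sum_nonneg fun A _ => Finset.prod_nonneg fun p _ => hw0 p)]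
  refine le_trans ?_ (le_trans (mul_le_mul_of_nonneg_right hch (by positivity)) hsum)
  rw [e2]
  have a3 : 1 ≤ K * Z ^ (e - ε / 6) := by
    rw [← inv_mul_le_iff₀ hK0, mul_one]
    exact hKZ
  exact le_mul_of_one_le_left (by positivity) a3

end Crest.Agent.R17.Jb
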