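import Crest.Agent.R17.J.I3
import Crest.Agent.R17.J.Slot
import Crest.Agent.R17.J.ApiC

/-! Row 17, block J: kernel bounds, holomorphy of the integrand, the starting identity. -/

set_option autoImplicit false

namespace Crest.Agent.R17.Jb

open Complex MeasureTheory
open scoped Real

variable {β e : ℝ} {q : O} {η : O → ℂ} {J : ℕ}

theorem Kera_poly {A : ℝ} (hA : 0 ≤ A) : ∃ C : ℝ, 0 < C ∧ ∀ u : ℝ, 0 ≤ u →
    (2 + u) ^ A ≤ C * Real.exp (u / 12) := by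
  refine ⟨(12 * (A + 1)) ^ (A + 1), by positivity, fun u hu => ?_⟩
  have hB : 0 < 12 * (A + 1) := by positivity
  have h1 : 2 + u ≤ 12 * (A + 1) * Real.exp (u / (12 * (A + 1))) := by
    have := Real.add_one_le_exp (u / (12 * (A + 1)))
    have h2 := mul_le_mul_of_nonneg_left this hB.le
    rw [mul_add, mul_div_cancel₀ _ hB.ne'] at h2
    linarith
  calc (2 + u) ^ A ≤ (2 + u) ^ (A + 1) :=
        Real.rpow_le_rpow_of_exponent_le (by linarith) (by linarith)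
    _ ≤ (12 * (A + 1) * Real.exp (u / (12 * (A + 1)))) ^ (A + 1) :=
        Real.rpow_le_rpow (by linarith) h1 (by linarith)
    _ = _ := by
        rw [Real.mul_rpow hB.le (Real.exp_pos _).le, ← Real.exp_mul]
        congr 2
        field_simp

theorem Kera_LNt {B : ℝ} {s : ℂ} (hs : |s.re| ≤ B) :
    ‖LNt 1 s‖ ≤ √(2 * π) * Real.exp (B ^ 2 / 2 + 1 / 2) * Real.exp (-|s.im|) := by
  rw [norm_LNt zero_le_one, mul_one, mul_assoc, mul_assoc, ← Real.exp_add, ← Real.exp_add]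
  refine mul_le_mul_of_nonneg_left (Real.exp_le_exp.2 ?_) (Real.sqrt_nonneg _)
  have h1 : s.re ^ 2 ≤ B ^ 2 := by
    rw [← sq_abs s.re]
    exact pow_le_pow_left₀ (abs_nonneg _) hs 2
  have h2 : s.im ^ 2 = |s.im| ^ 2 := (sq_abs _).symm
  rw [h2]
  nlinarith [sq_nonneg (|s.im| - 1)]

theorem Kera_pow {Z : ℝ} (hZ : 0 < Z) (x w z : ℂ) :
    ‖(Z : ℂ) ^ (x + z - 1 / 2)‖ * ‖((RR Z : ℝ) : ℂ) ^ (w + z - 1 / 2)‖ * ‖((KK Z : ℝ) : ℂ) ^ (1 - z)‖ =
      Z ^ ex x.re w.re z.re := by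
  have hR : 0 < RR Z := Real.rpow_pos_of_pos hZ _
  have hK : 0 < KK Z := Real.rpow_pos_of_pos hZ _
  rw [Complex.norm_cpow_eq_rpow_re_of_pos hZ, Complex.norm_cpow_eq_rpow_re_of_pos hR,
    Complex.norm_cpow_eq_rpow_re_of_pos hK, RR, KK, ← Real.rpow_mul hZ.le, ← Real.rpow_mul hZ.le,
    ← Real.rpow_add hZ, ← Real.rpow_add hZ, ex]
  congr 1
  simp

/-- `norm_LNt`, `Gamma_strip`; `exp (-s²/2) ≤ e^{1/2} exp (-|s|)`;
`|t₁| + |t₂| + |t₃| ≤ |t₁ + t₃| + |t₂ + t₃| + 3|t₃|`; `(2 + |t|)^A ≤ C exp (|t| / 12)`. -/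
theorem kk_le (h : High q η 1 J) {A : ℝ} (hA : 0 ≤ A) : ∃ C : ℝ, 0 ≤ C ∧ ∀ (Z : ℝ) (x w z : ℂ),
    0 < Z → |x.re| ≤ A → |w.re| ≤ A → 1 / 10 ≤ z.re → z.re ≤ A →
    ‖kk h Z x w z‖ * pw x w z ^ A ≤ C * Z ^ ex x.re w.re z.re * E3 x w z := by
  obtain ⟨C₁, hC₁, h₁⟩ := Kera_poly hA
  obtain ⟨C₂, hC₂, h₂⟩ := Gamma_strip (show (0 : ℝ) < 1 / 10 by norm_num) A
  set L : ℝ := √(2 * π) * Real.exp ((2 * A + 1 / 2) ^ 2 / 2 + 1 / 2) with hL
  have hL0 : 0 ≤ L := by positivity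
  refine ⟨L * L * C₂ * Real.exp (|Real.log h.c₁| * A) * C₁ ^ 3, by positivity,
    fun Z x w z hZ hx hw hz hz' => ?_⟩
  have hzA : |z.re| ≤ A := abs_le.2 ⟨by linarith, hz'⟩
  have b1 : ‖LNt 1 (x + z - 1 / 2)‖ ≤ L * Real.exp (-|x.im + z.im|) := by
    have := Kera_LNt (B := 2 * A + 1 / 2) (s := x + z - 1 / 2) (by
      have := abs_le.1 hx
      have := abs_le.1 hzA
      simp only [sub_re, add_re, one_div, inv_re, re_ofNat, normSq_ofNat]
      rw [abs_le]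
      constructor <;> norm_num <;> linarith)
    rwa [show (x + z - 1 / 2).im = x.im + z.im by simp] at this
  have b2 : ‖LNt 1 (w + z - 1 / 2)‖ ≤ L * Real.exp (-|w.im + z.im|) := by
    have := Kera_LNt (B := 2 * A + 1 / 2) (s := w + z - 1 / 2) (by
      have := abs_le.1 hw
      have := abs_le.1 hzA
      simp only [sub_re, add_re, one_div, inv_re, re_ofNat, normSq_ofNat]
      rw [abs_le]
      constructor <;> norm_num <;> linarith)
    rwa [show (w + z - 1 / 2).im = w.im + z.im by simp] at this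
  have b3 : ‖Gamma z‖ ≤ C₂ * Real.exp (-|z.im|) := h₂ z ⟨hz, hz'⟩
  have b4 : ‖(h.c₁ : ℂ) ^ (-z)‖ ≤ Real.exp (|Real.log h.c₁| * A) := by
    rw [Complex.norm_cpow_eq_rpow_re_of_pos h.c₁_pos, Real.rpow_def_of_pos h.c₁_pos]
    refine Real.exp_le_exp.2 ((le_abs_self _).trans ?_)
    rw [abs_mul, neg_re, abs_neg]
    exact mul_le_mul_of_nonneg_left hzA (abs_nonneg _)
  have b5 : pw x w z ^ A ≤ C₁ ^ 3 * Real.exp ((|x.im| + |w.im| + |z.im|) / 12) := by
    rw [pw, Real.mul_rpow (by positivity) (by positivity), Real.mul_rpow (by positivity) (by positivity)]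
    have e1 := h₁ _ (abs_nonneg x.im)
    have e2 := h₁ _ (abs_nonneg w.im)
    have e3 := h₁ _ (abs_nonneg z.im)
    calc _ ≤ C₁ * Real.exp (|x.im| / 12) * (C₁ * Real.exp (|w.im| / 12)) *
          (C₁ * Real.exp (|z.im| / 12)) := by gcongr
      _ = _ := by rw [add_div, add_div, Real.exp_add, Real.exp_add]; ring
  have b6 : Real.exp (-|x.im + z.im|) * Real.exp (-|w.im + z.im|) * Real.exp (-|z.im|) *
      Real.exp ((|x.im| + |w.im| + |z.im|) / 12) ≤ E3 x w z := by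
    rw [← Real.exp_add, ← Real.exp_add, ← Real.exp_add, E3]
    refine Real.exp_le_exp.2 ?_
    have e1 : |x.im| ≤ |x.im + z.im| + |z.im| := by
      have := abs_sub (x.im + z.im) z.im
      rwa [add_sub_cancel_right] at this
    have e2 : |w.im| ≤ |w.im + z.im| + |z.im| := by
      have := abs_sub (w.im + z.im) z.im
      rwa [add_sub_cancel_right] at this
    have := abs_nonneg (x.im + z.im)
    have := abs_nonneg (w.im + z.im)
    linarith
  have e : ‖kk h Z x w z‖ = ‖LNt 1 (x + z - 1 / 2)‖ * ‖LNt 1 (w + z - 1 / 2)‖ * ‖Gamma z‖ *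
      ‖(h.c₁ : ℂ) ^ (-z)‖ * Z ^ ex x.re w.re z.re := by
    rw [← Kera_pow hZ, kk, kerH]
    simp only [norm_mul]
    ring
  have hZe : 0 ≤ Z ^ ex x.re w.re z.re := by positivity
  have hpw : 0 ≤ pw x w z ^ A := Real.rpow_nonneg (by rw [pw]; positivity) _
  rw [e]
  calc _ ≤ L * Real.exp (-|x.im + z.im|) * (L * Real.exp (-|w.im + z.im|)) *
        (C₂ * Real.exp (-|z.im|)) * Real.exp (|Real.log h.c₁| * A) * Z ^ ex x.re w.re z.re *
        (C₁ ^ 3 * Real.exp ((|x.im| + |w.im| + |z.im|) / 12)) := by gcongr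
    _ = L * L * C₂ * Real.exp (|Real.log h.c₁| * A) * C₁ ^ 3 * Z ^ ex x.re w.re z.re *
        (Real.exp (-|x.im + z.im|) * Real.exp (-|w.im + z.im|) * Real.exp (-|z.im|) *
          Real.exp ((|x.im| + |w.im| + |z.im|) / 12)) := by ring
    _ ≤ _ := mul_le_mul_of_nonneg_left b6 (by positivity)

theorem kk_hol (h : High q η 1 J) {Z : ℝ} (hZ : 0 < Z) : Hol3 (kk h Z) {p | 0 < p.2.2.re} := by
  have hR : 0 < RR Z := Real.rpow_pos_of_pos hZ _
  have hK : 0 < KK Z := Real.rpow_pos_of_pos hZ _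
  refine hol3_of_diffOn fun p hp => DifferentiableAt.differentiableWithinAt ?_
  have hc : ∀ {X : ℝ}, 0 < X → ∀ {f : ℂ × ℂ × ℂ → ℂ}, DifferentiableAt ℂ f p →
      DifferentiableAt ℂ (fun p => (X : ℂ) ^ f p) p := fun hX _ hf =>
    hf.const_cpow (Or.inl (ofReal_ne_zero.2 hX.ne'))
  have hG : DifferentiableAt ℂ (fun p : ℂ × ℂ × ℂ => Gamma p.2.2) p := by
    refine (Complex.differentiableAt_Gamma p.2.2 fun m hm => ?_).comp p (by fun_prop)
    have h0 : 0 < p.2.2.re := hp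
    rw [hm] at h0
    simp only [neg_re, natCast_re] at h0
    linarith [Nat.cast_nonneg (α := ℝ) m]
  simp only [kk, kerH]
  refine ((((((?_ : DifferentiableAt ℂ _ p).mul ?_).mul hG).mul (hc h.c₁_pos ?_)).mul
    (hc hZ ?_)).mul (hc hR ?_)).mul (hc hK ?_)
  · exact (differentiable_LNt 1 _).comp p (by fun_prop)
  · exact (differentiable_LNt 1 _).comp p (by fun_prop)
  all_goals fun_prop

theorem HH_hol (c : Ctx β e q η J) (h : High q η 1 J) {Z : ℝ} (hZ : 1 ≤ Z) {u : O} (hu : Row q u) :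
    Hol3 (HH h e Z u) (Om1 e ∪ Om2) := by
  have hs := slots_Psl (q := q) (J := J) c.e_pos hZ
  exact ⟨h.cont _ _ _ u e hs hu c.e_pos,
    fun w z => h.holo _ _ _ u e id (fun _ => w) (fun _ => z) hs hu c.e_pos differentiable_id
      (differentiable_const _) (differentiable_const _),
    fun x z => h.holo _ _ _ u e (fun _ => x) id (fun _ => z) hs hu c.e_pos (differentiable_const _)
      differentiable_id (differentiable_const _),
    fun x w => h.holo _ _ _ u e (fun _ => x) (fun _ => w) id hs hu c.e_pos (differentiable_const _)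
      (differentiable_const _) differentiable_id⟩

theorem diffOn_linv {χ : O → ℂ} (hχ : Differentiable ℂ (Lx χ)) :
    DifferentiableOn ℂ (linv χ) {x | Lx χ x ≠ 0} := by
  refine DifferentiableOn.div ?_ hχ.differentiableOn fun x hx => hx
  by_cases hp : Princ χ
  · have e : pf χ = fun s => s - 1 := funext fun s => by rw [pf, if_pos hp]
    rw [e]
    fun_prop
  · have e : pf χ = fun _ => 1 := funext fun s => by rw [pf, if_neg hp]
    rw [e]
    fun_prop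

theorem core_hol (c : Ctx β e q η J) (h : High q η 1 J) {Z : ℝ} (hZ : 1 ≤ Z) {u : O}
    (hu : Row q u) : Hol3 (core h e Z u) {p | p ∈ Om1 e ∪ Om2 ∧ Lx (rc η u) p.1 ≠ 0} := by
  have hu0 := row_ne_zero hu
  have hn : (nm u : ℂ) ≠ 0 := ofReal_ne_zero.2 (nm_pos hu0).ne'
  have d1 := (isL_tw c.lev (isTw_one' q)).1
  have d2 := (isL_rc c.lev (isTw_one' q) (pow_ne_zero 5 hu0)).1
  have d3 := diffOn_linv (isL_rc c.lev c.tw hu0).1
  refine Hol3.mul (Hol3.mul (Hol3.mul ((kk_hol h (by linarith)).mono ?_) (hol3_of_diffOn ?_))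
    (Hol3.mul (Hol3.mul (hol3_of_diffOn ?_) (hol3_of_diffOn ?_)) (hol3_of_diffOn ?_)))
    ((HH_hol c h hZ hu).mono fun p hp => hp.1)
  · rintro p ⟨hp | hp, -⟩
    · exact lt_trans (by norm_num) hp.2.2.1
    · exact lt_trans (by norm_num) hp.2.2
  · exact (Differentiable.const_cpow (by fun_prop) (Or.inl hn)).differentiableOn
  · exact (d1.comp (f := fun p : ℂ × ℂ × ℂ => 6 * p.2.2) (by fun_prop)).differentiableOn
  · exact (d2.comp (f := fun p : ℂ × ℂ × ℂ => p.2.1) (by fun_prop)).differentiableOn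
  · exact d3.comp (f := fun p : ℂ × ℂ × ℂ => p.1) (by fun_prop) fun p hp => hp.2

/-- for `u ≠ 1` the factor `pf` is `1` (`not_princ_row`) -/
theorem GA_eq (c : Ctx β e q η J) (h : High q η 1 J) (Z : ℝ) {u : O} (hu : Row q u) (h1 : u ≠ 1)
    (x w z : ℂ) : GA h e Z u x w z = core h e Z u x w z / (6 * z - 1) := by
  rw [GA, pf, if_neg (not_princ_row c.lev hu h1), div_one]

theorem GA_one (c : Ctx β e q η J) (h : High q η 1 J) (Z : ℝ) (x w z : ℂ) :
    GA h e Z 1 x w z = core h e Z 1 x w z / (6 * z - 1) / (w - 1) := by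
  rw [GA, one_pow, rc_one c.lev (isTw_one' q), pf, if_pos (princ_one q)]

theorem core_div_hol (c : Ctx β e q η J) (h : High q η 1 J) {Z : ℝ} (hZ : 1 ≤ Z) {u : O}
    (hu : Row q u) : Hol3 (fun x w z => core h e Z u x w z / (6 * z - 1))
      {p | p ∈ Om1 e ∧ Lx (rc η u) p.1 ≠ 0} := by
  refine Hol3.div (G := fun _ _ z => 6 * z - 1)
    ((core_hol c h hZ hu).mono fun p hp => ⟨Or.inl hp.1, hp.2⟩)
    (hol3_of_diffOn (by fun_prop)) fun p hp h0 => ?_
  have h1 := congrArg re h0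
  have h2 := hp.1.2.2.1
  simp at h1
  linarith

theorem kerb_pf (χ : O → ℂ) {s : ℂ} (hs : 1 < s.re) : pf χ s ≠ 0 := by
  unfold pf
  split_ifs
  · intro h
    rw [sub_eq_zero.1 h] at hs
    simp at hs
  · exact one_ne_zero

/-- `h.high`; on the three lines `Lx χ = pf χ · DS χ` and `pf χ ≠ 0` -/
theorem IU_eq (c : Ctx β e q η J) (h : High q η 1 J) {Z : ℝ} (hZ : 1 ≤ Z) {u : O} (hu : Row q u)
    {s : ℝ} (hs : 17 / 50 ≤ s) : IU h e Z u = I3 (GA h e Z u) 3 3 s := by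
  have hZ0 : 0 < Z := by linarith
  have hu0 := row_ne_zero hu
  have k := (h.high _ _ _ Z (RR Z) (KK Z) u 3 3 s (slots_Psl (q := q) (J := J) c.e_pos hZ) hZ0
    (Real.rpow_pos_of_pos hZ0 _) (Real.rpow_pos_of_pos hZ0 _) hu le_rfl le_rfl hs).2
  refine k.trans (I3_congr (F := intH q η 1 h.c₁ Z (RR Z) (KK Z) (HH h e Z u) u)
    fun x w z hx hw hz => ?_)
  have hz' : 1 < (6 * z).re := by
    simp
    linarith
  have e1 := (isL_tw c.lev (isTw_one' q)).2 _ hz'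
  have e2 := (isL_rc c.lev (isTw_one' q) (pow_ne_zero 5 hu0)).2 w (by linarith)
  have e3 := (isL_rc c.lev c.tw hu0).2 x (by linarith)
  have p1 := kerb_pf (one q) hz'
  have p2 := kerb_pf (rc (one q) (u ^ 5)) (s := w) (by linarith)
  have p3 := kerb_pf (rc η u) (s := x) (by linarith)
  have e4 : pf (one q) (6 * z) = 6 * z - 1 := by rw [pf, if_pos (princ_one q)]
  rw [GA, core, intH, linv, e1, e2, e3, ← e4, div_mul_cancel_left₀ p3, div_eq_mul_inv _ (DS _ x), kk]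
  generalize (DS (rc η u) x)⁻¹ = D
  generalize pf (one q) (6 * z) = P at p1 ⊢
  field_simp

/-- the product bound (`kk_le`, and `Lx_poly` with `u = 1` for the factor `Lx (one q) (6 z)`) -/
theorem core_le (c : Ctx β e q η J) (h : High q η 1 J) {A : ℝ} (hA : 0 ≤ A) : ∃ C : ℝ, 0 ≤ C ∧
    ∀ (Z L₁ L₂ M : ℝ) (u : O) (x w z : ℂ), 0 < Z → u ≠ 0 → |x.re| ≤ A → |w.re| ≤ A →
    1 / 10 ≤ z.re → z.re ≤ A → ‖linv (rc η u) x‖ ≤ L₁ * (2 + |x.im|) ^ A →
    ‖Lx (rc (one q) (u ^ 5)) w‖ ≤ L₂ * (2 + |w.im|) ^ A → ‖HH h e Z u x w z‖ ≤ M →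
    ‖core h e Z u x w z‖ ≤
      C * Z ^ ex x.re w.re z.re * nm u ^ (-z.re) * L₁ * L₂ * M * E3 x w z := by
  obtain ⟨C₁, A₁, hC₁, hA₁, h₁⟩ := Lx_poly c.lev (6 * A)
  obtain ⟨C₂, hC₂, h₂⟩ := kk_le h (show 0 ≤ A + A₁ by positivity)
  refine ⟨C₂ * C₁ * 6 ^ A₁, by positivity,
    fun Z L₁ L₂ M u x w z hZ hu hx hw hz hz' b1 b2 b3 => ?_⟩
  have hL₁ : 0 ≤ L₁ := by
    have := (norm_nonneg _).trans b1
    exact nonneg_of_mul_nonneg_left this (by positivity)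
  have hL₂ : 0 ≤ L₂ := by
    have := (norm_nonneg _).trans b2
    exact nonneg_of_mul_nonneg_left this (by positivity)
  have hM : 0 ≤ M := (norm_nonneg _).trans b3
  have b4 : ‖Lx (one q) (6 * z)‖ ≤ C₁ * 6 ^ A₁ * (2 + |z.im|) ^ A₁ := by
    have := h₁ (one q) 1 (6 * z) (isTw_one' q) one_ne_zero (by simp; linarith) (by simp; linarith)
    rw [rc_one c.lev (isTw_one' q), nm_one', one_mul] at this
    refine this.trans ?_
    rw [mul_assoc, ← Real.mul_rpow (by norm_num) (by positivity)]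
    refine mul_le_mul_of_nonneg_left (Real.rpow_le_rpow (by positivity) ?_ hA₁) hC₁
    have : |(6 * z).im| = 6 * |z.im| := by simp [abs_mul]
    rw [this]
    linarith
  have b5 := h₂ Z x w z hZ (by linarith) (by linarith) hz (by linarith)
  have b6 : (2 + |x.im|) ^ A * (2 + |w.im|) ^ A * (2 + |z.im|) ^ A₁ ≤ pw x w z ^ (A + A₁) := by
    rw [pw, Real.mul_rpow (by positivity) (by positivity), Real.mul_rpow (by positivity) (by positivity)]
    have e1 := Real.rpow_le_rpow_of_exponent_le (x := 2 + |x.im|) (by linarith [abs_nonneg x.im])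
      (show A ≤ A + A₁ by linarith)
    have e2 := Real.rpow_le_rpow_of_exponent_le (x := 2 + |w.im|) (by linarith [abs_nonneg w.im])
      (show A ≤ A + A₁ by linarith)
    have e3 := Real.rpow_le_rpow_of_exponent_le (x := 2 + |z.im|) (by linarith [abs_nonneg z.im])
      (show A₁ ≤ A + A₁ by linarith)
    gcongr
  have hnu : 0 < nm u := nm_pos hu
  have b7 : ‖(nm u : ℂ) ^ (-z)‖ = nm u ^ (-z.re) := by
    rw [Complex.norm_cpow_eq_rpow_re_of_pos hnu, neg_re]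
  rw [core]
  simp only [norm_mul]
  rw [b7]
  calc _ ≤ ‖kk h Z x w z‖ * nm u ^ (-z.re) * (C₁ * 6 ^ A₁ * (2 + |z.im|) ^ A₁ *
        (L₂ * (2 + |w.im|) ^ A) * (L₁ * (2 + |x.im|) ^ A)) * M := by gcongr
    _ = ‖kk h Z x w z‖ * ((2 + |x.im|) ^ A * (2 + |w.im|) ^ A * (2 + |z.im|) ^ A₁) *
        (C₁ * 6 ^ A₁ * nm u ^ (-z.re) * L₁ * L₂ * M) := by ring
    _ ≤ ‖kk h Z x w z‖ * pw x w z ^ (A + A₁) *
        (C₁ * 6 ^ A₁ * nm u ^ (-z.re) * L₁ * L₂ * M) := by gcongr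
    _ ≤ C₂ * Z ^ ex x.re w.re z.re * E3 x w z *
        (C₁ * 6 ^ A₁ * nm u ^ (-z.re) * L₁ * L₂ * M) := by gcongr
    _ = _ := by ring

theorem HH_le (c : Ctx β e q η J) (h : High q η 1 J) : ∃ C : ℝ, 0 ≤ C ∧
    ∀ (Z : ℝ) (u r : O) (x w z : ℂ), 1 ≤ Z → Row q u → IsRad r u → (x, w, z) ∈ Om1 e →
    ‖HH h e Z u x w z‖ ≤
      C * nm u ^ e * (nm u / nm r) ^ max 0 (1 / 2 - w.re) * amp q J e Z u z := by
  obtain ⟨C, hC⟩ := h.bound₁ e e c.e_pos c.e_pos
  refine ⟨|C|, abs_nonneg C, fun Z u r x w z hZ hu hr hp =>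
    (hC _ _ _ u r x w z (slots_Psl (q := q) (J := J) c.e_pos hZ) hu hr hp).trans ?_⟩
  refine mul_le_mul_of_nonneg_right (mul_le_mul_of_nonneg_right (mul_le_mul_of_nonneg_right
    (le_abs_self C) (Real.rpow_nonneg (nm_nonneg u) _))
    (Real.rpow_nonneg (div_nonneg (nm_nonneg u) (nm_nonneg r)) _))
    (amp_nonneg (q := q) (J := J) (e := e) (by linarith) u z)

theorem krc_poly {C A B N t : ℝ} (hC : 0 ≤ C) (hN : 0 ≤ N) (hAB : A ≤ B) :
    C * (N * (2 + |t|)) ^ A ≤ C * N ^ A * (2 + |t|) ^ B := by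
  have h : (1 : ℝ) ≤ 2 + |t| := by linarith [abs_nonneg t]
  rw [Real.mul_rpow hN (by linarith), ← mul_assoc]
  exact mul_le_mul_of_nonneg_left (Real.rpow_le_rpow_of_exponent_le h hAB) (by positivity)

/-- The crude bound, for every row, with `1 / L(x)` under `ZF β` (`linv_poly`, `Lx_poly` for `u ^ 5`,
`HH_le` with `exists_rad`, `amp_triv`).  The exponent `A` does not depend on `s`. -/
theorem core_crude (c : Ctx β e q η J) (h : High q η 1 J) : ∃ A : ℝ, 0 ≤ A ∧ ∀ s : ℝ, ∃ C : ℝ, 0 ≤ C ∧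
    ∀ (Z : ℝ) (u : O) (x w z : ℂ), 1 ≤ Z → Row q u → (x, w, z) ∈ Om1 e → β + e ≤ x.re →
    x.re ≤ 3 → w.re ≤ 3 → z.re ≤ s →
    ‖core h e Z u x w z / (6 * z - 1)‖ ≤ C * Z ^ (ex x.re w.re z.re +
      (1 / 6 + e) * (z.re + 1 / 2 + e)) * nm u ^ (A - z.re) * E3 x w z := by
  have he := c.e_pos
  have he' := c.e_le
  have hβ := c.lo
  obtain ⟨C₁, A₁, hC₁, hA₁, h₁⟩ := linv_poly (by linarith) c.hi c.zf he c.lev
  obtain ⟨C₂, A₂, hC₂, hA₂, h₂⟩ := Lx_poly c.lev 3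
  obtain ⟨C₃, hC₃, h₃⟩ := HH_le c h
  obtain ⟨C₄, hC₄, h₄⟩ := amp_triv (q := q) c.J_pos he
  refine ⟨A₁ + 5 * A₂ + (e + 1), by positivity, fun s => ?_⟩
  have hB : 0 ≤ A₁ + A₂ + |s| + 3 := by positivity
  obtain ⟨C₅, hC₅, h₅⟩ := core_le c h hB
  refine ⟨C₅ * C₁ * C₂ * C₃ * C₄, by positivity, ?_⟩
  intro Z u x w z hZ hu hΩ hx hx' hw' hz'
  obtain ⟨o1, o2, o3, -⟩ := id hΩ
  simp only at o1 o2 o3
  have hu0 := row_ne_zero hu
  have hN : 1 ≤ nm u := one_le_nm hu0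
  have hN0 : 0 < nm u := by linarith
  have hZ0 : 0 < Z := by linarith
  have hs := le_abs_self s
  have hs0 := abs_nonneg s
  obtain ⟨r, hr, hr1, hr2⟩ := exists_rad hu0
  have b1 : ‖linv (rc η u) x‖ ≤ C₁ * nm u ^ A₁ * (2 + |x.im|) ^ (A₁ + A₂ + |s| + 3) :=
    (h₁ η u x c.tw hu0 hx hx').trans (krc_poly hC₁ hN0.le (by linarith))
  have b2 : ‖Lx (rc (one q) (u ^ 5)) w‖ ≤
      C₂ * nm u ^ (5 * A₂) * (2 + |w.im|) ^ (A₁ + A₂ + |s| + 3) := by
    have h6 := (h₂ (one q) (u ^ 5) w (isTw_one' q) (pow_ne_zero _ hu0) (by linarith) hw').trans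
      (krc_poly (B := A₁ + A₂ + |s| + 3) hC₂ (nm_nonneg _) (by linarith))
    rwa [nm_pow', ← Real.rpow_natCast, ← Real.rpow_mul hN0.le, Nat.cast_ofNat] at h6
  have b3 : ‖HH h e Z u x w z‖ ≤
      C₃ * nm u ^ (e + 1) * (C₄ * Z ^ ((1 / 6 + e) * (z.re + 1 / 2 + e))) := by
    refine (h₃ Z u r x w z hZ hu hr hΩ).trans ?_
    refine mul_le_mul ?_ (h₄ Z u z hZ (by linarith)) (amp_nonneg hZ0.le _ _) (by positivity)
    rw [Real.rpow_add hN0, Real.rpow_one, ← mul_assoc]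
    refine mul_le_mul_of_nonneg_left ?_ (by positivity)
    have h7 : 1 ≤ nm u / nm r := (one_le_div (by linarith)).2 hr2
    calc (nm u / nm r) ^ max 0 (1 / 2 - w.re) ≤ (nm u / nm r) ^ (1 : ℝ) :=
          Real.rpow_le_rpow_of_exponent_le h7 (max_le zero_le_one (by linarith))
      _ ≤ nm u := by
          rw [Real.rpow_one]
          exact div_le_self hN0.le hr1
  have b4 := h₅ Z _ _ _ u x w z hZ0 hu0 (abs_le.2 ⟨by linarith, by linarith⟩)
    (abs_le.2 ⟨by linarith, by linarith⟩) (by linarith) (by linarith) b1 b2 b3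
  have b5 : 1 ≤ ‖6 * z - 1‖ := by
    refine le_trans ?_ (Complex.re_le_norm _)
    simp only [sub_re, mul_re, re_ofNat, im_ofNat, zero_mul, sub_zero, one_re]
    linarith
  rw [norm_div]
  refine (div_le_self (norm_nonneg _) b5).trans (b4.trans (le_of_eq ?_))
  rw [Real.rpow_add hZ0, sub_eq_add_neg (A₁ + 5 * A₂ + (e + 1)), Real.rpow_add hN0 _ (-z.re),
    Real.rpow_add hN0 _ (e + 1), Real.rpow_add hN0 A₁]
  ring

end Crest.Agent.R17.Jb
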