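import Crest.Agent.R17.J.Ends

/-! Row 17, block J: the row `u = 1` and the main term. -/

set_option autoImplicit false

namespace Crest.Agent.R17.Jb

open Complex MeasureTheory
open scoped Real

variable {β e : ℝ} {q : O} {η : O → ℂ} {J : ℕ}

/-- `IU_eq` at `s = 2`, `GA_one`; `I3_box` on `Box (β+e) 3 3 3 (17/50) 2` (there `‖w - 1‖ ≥ 1`), `I3_pole` in
`w` from `3` to `1/2` (`box_dec`), `half_line` and `‖w - 1‖ ≥ 1/2` on `Re w = 1/2`. -/
theorem one_w (c : Ctx β e q η J) (h : High q η 1 J) : ∃ C : ℝ, 0 ≤ C ∧ ∀ Z : ℝ, 1 ≤ Z →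
    ‖IU h e Z 1 - 2 * π * I2 (fun x z => core h e Z 1 x 1 z / (6 * z - 1)) (β + e) (17 / 50)‖ ≤
      C * Z ^ (β + 7 / 10) := by
  obtain ⟨C, A, hC, -, h1⟩ := half_line c h
  refine ⟨512 * (2 * C), by positivity, fun Z hZ => ?_⟩
  have := c.lo
  have := c.hi
  have := c.e_le
  obtain ⟨h2, B, h3⟩ := box_dec c h hZ (row_one q) (a := β + e) (b := 1 / 2) le_rfl (by norm_num)
    (by linarith)
  have h4 := h1 Z 1 hZ (row_one q)
  rw [nm_one', Real.one_rpow, mul_one] at h4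
  have e1 : GA h e Z 1 = fun x w z => core h e Z 1 x w z / (6 * z - 1) / (w - 1) := by
    funext x w z; exact GA_one c h Z x w z
  rw [IU_eq c h hZ (row_one q) (s := 2) (by norm_num), e1]
  generalize hG : (fun x w z => core h e Z 1 x w z / (6 * z - 1)) = G at h2 h3 h4
  have e2 : ∀ x w z, core h e Z 1 x w z / (6 * z - 1) = G x w z := fun x w z => by rw [← hG]
  simp only [e2]
  have s1 : Box (β + e) 3 3 3 (17 / 50) 2 ⊆ Box (β + e) 3 (1 / 2) 3 (17 / 50) 2 :=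
    fun p ⟨a1, a2, a3, a4, a5⟩ => ⟨a1, a2, by linarith, a4, a5⟩
  have s2 : Box (β + e) (β + e) (1 / 2) 3 (17 / 50) (17 / 50) ⊆
      Box (β + e) 3 (1 / 2) 3 (17 / 50) 2 :=
    fun p ⟨a1, a2, a3, a4, a5, a6⟩ => ⟨a1, by linarith, a3, a4, a5, by linarith⟩
  have n1 : ∀ w : ℂ, |w.re - 1| ≤ ‖w - 1‖ := fun w => by simpa using abs_re_le_norm (w - 1)
  have h5 := I3_box (F := fun x w z => G x w z / (w - 1)) (B := B) (by linarith) le_rfl
    (by norm_num) ((h2.mono s1).div (hol3_of_diffOn (F := fun _ w _ => w - 1) (by fun_prop))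
      fun p hp h0 => by
        have b1 := n1 p.2.1
        have b2 := hp.2.2.1
        rw [h0, norm_zero, abs_le] at b1
        linarith) fun x w z hp => by
      have b1 := (le_abs_self _).trans (n1 w)
      have b2 : 3 ≤ w.re := hp.2.2.1
      rw [norm_div]
      exact (div_le_self (norm_nonneg _) (by linarith)).trans (h3 x w z (s1 hp))
  have h6 := I3_pole (s₀ := 1) (by norm_num) (by norm_num) (h2.mono s2) (B := B)
    fun x w z hp => h3 x w z (s2 hp)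
  rw [ofReal_one] at h6
  rw [h5, h6, add_sub_cancel_right, mul_assoc, mul_assoc]
  refine I3_norm fun x w z hp => ?_
  have b1 := (neg_le_abs _).trans (n1 w)
  have b2 : w.re ≤ 1 / 2 := hp.2.2.2.1
  have b3 := h4 x w z hp
  rw [norm_div, div_le_iff₀ (by linarith)]
  nlinarith [norm_nonneg (G x w z)]

/-- `core_le` with `linv_poly`, `Lx_poly` and `h.bound₂` on `Om2` -/
theorem one_dec (c : Ctx β e q η J) (h : High q η 1 J) : ∃ C : ℝ, 0 ≤ C ∧ ∀ (Z : ℝ) (x z : ℂ),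
    1 ≤ Z → x.re = β + e → 4 / 25 < z.re → z.re ≤ 1 →
    ‖core h e Z 1 x 1 z‖ ≤
      C * Z ^ (ex (β + e) 1 z.re + (1 / 6 + e) * (z.re + 1 / 2 + e)) * E2 x z := by
  have := c.lo
  have := c.hi
  have := c.e_le
  have he := c.e_pos
  obtain ⟨C₁, A₁, hC₁, hA₁, h1⟩ := linv_poly (by linarith) c.hi c.zf he c.lev
  obtain ⟨C₂, A₂, hC₂, hA₂, h2⟩ := Lx_poly c.lev 1
  obtain ⟨C₃, h3⟩ := h.bound₂ e he
  obtain ⟨C, hC, h4⟩ := core_le c h (A := A₁ + A₂ + 2) (by positivity)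
  refine ⟨C * C₁ * C₂ * |C₃|, by positivity, fun Z x z hZ hx hz hz' => ?_⟩
  have hP := one_le_Phi (J := J) he hZ
  have key : ∀ {a C t A : ℝ}, 0 ≤ C → A ≤ A₁ + A₂ + 2 → a ≤ C * (nm 1 * (2 + |t|)) ^ A →
      a ≤ C * (2 + |t|) ^ (A₁ + A₂ + 2) := fun {a C t A} b1 b2 b3 => by
    rw [nm_one', one_mul] at b3
    exact b3.trans (mul_le_mul_of_nonneg_left
      (Real.rpow_le_rpow_of_exponent_le (by linarith [abs_nonneg t]) b2) b1)
  have h5 := h4 Z C₁ C₂ (|C₃| * Z ^ ((1 / 6 + e) * (z.re + 1 / 2 + e))) 1 x 1 z (by linarith)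
    one_ne_zero (by rw [hx, abs_le]; constructor <;> linarith) (by rw [one_re, abs_one]; linarith)
    (by linarith) (by linarith)
    (key hC₁ (by linarith) (h1 η 1 x c.tw one_ne_zero hx.ge (by linarith)))
    (by rw [one_pow]; exact key hC₂ (by linarith) (h2 _ 1 1 (isTw_one' q) one_ne_zero
      (by norm_num) (by norm_num))) (by
      refine (h3 _ _ _ x 1 z (slots_Psl he hZ) ⟨by rw [hx]; linarith, by norm_num, hz⟩).trans ?_
      rw [Real.rpow_pow_comm (by linarith), Phi_pow c.J_pos e (by linarith),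
        ← Real.rpow_mul (by linarith)]
      exact mul_le_mul_of_nonneg_right (le_abs_self _) (by positivity))
  have e1 : E3 x 1 z = E2 x z := by simp [E3, E2]
  rw [nm_one', Real.one_rpow, hx, one_re, e1] at h5
  rw [Real.rpow_add (by linarith)]
  exact h5.trans_eq (by ring)

/-- `core / (6z - 1) = (core / 6) / (z - 1/6)`; `I2_pole` from `17/50` to `161/1000`
(`core_hol`, `Hol3.slice`, `one_dec`); on the new line `‖6z - 1‖ ≥ 17/500` and the exponent is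
`β + 19/24 - (13/16)(1/6 - 161/1000) + O(2e)`. -/
theorem one_z (c : Ctx β e q η J) (h : High q η 1 J) : ∃ C : ℝ, 0 ≤ C ∧ ∀ Z : ℝ, 1 ≤ Z →
    ‖I2 (fun x z => core h e Z 1 x 1 z / (6 * z - 1)) (β + e) (17 / 50) -
        (2 * π) ^ 2 * VI (β + e) (fun x => core h e Z 1 x 1 (1 / 6) / 6)‖ ≤
      C * Z ^ (β + 19 / 24 - 1 / 250) := by
  obtain ⟨C, hC, h1⟩ := one_dec c h
  refine ⟨64 * (30 * C), by positivity, fun Z hZ => ?_⟩
  have := c.lo
  have := c.hi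
  have := c.e_le
  have he := c.e_pos
  have hE : ∀ x z, 0 ≤ E2 x z := fun _ _ => (Real.exp_pos _).le
  have h2 : Hol2 (fun x z => core h e Z 1 x 1 z / 6)
      (Box2 (β + e) (β + e) (161 / 1000) (17 / 50)) :=
    ((core_hol c h hZ (row_one q)).div (hol3_of_diffOn (F := fun _ _ _ => 6) (by fun_prop))
      fun _ _ => by norm_num).slice 1 fun p ⟨a1, _, a3, _⟩ =>
        ⟨Or.inr ⟨by dsimp only; linarith, by norm_num, by dsimp only; linarith⟩,
          zf_rc c.zf c.lev c.tw one_ne_zero (by dsimp only; linarith)⟩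
  have h3 := I2_pole (s₀ := 1 / 6) (by norm_num) (by norm_num) h2 (B := C * Z ^ (3 : ℝ))
    fun x z ⟨a1, a2, a3, a4⟩ => by
      dsimp only at a1 a2 a3 a4
      rw [norm_div]
      refine (div_le_self (norm_nonneg _) (by norm_num)).trans
        ((h1 Z x z hZ (le_antisymm a2 a1) (by linarith) (by linarith)).trans ?_)
      refine mul_le_mul_of_nonneg_right (mul_le_mul_of_nonneg_left
        (Real.rpow_le_rpow_of_exponent_le hZ ?_) hC) (hE _ _)
      unfold ex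
      nlinarith
  have e1 : (fun x z => core h e Z 1 x 1 z / (6 * z - 1)) =
      fun x z => core h e Z 1 x 1 z / 6 / (z - (1 / 6 : ℝ)) := by
    funext x z
    rw [div_div]
    congr 1
    push_cast
    ring
  rw [e1, h3]
  simp only [ofReal_div, ofReal_one, ofReal_ofNat, add_sub_cancel_right]
  rw [mul_assoc, mul_assoc]
  refine I2_norm fun x z ⟨a1, a2, a3, a4⟩ => ?_
  dsimp only at a1 a2 a3 a4
  have b1 : |z.re - 1 / 6| ≤ ‖z - 1 / 6‖ := by simpa using abs_re_le_norm (z - 1 / 6)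
  have b2 := (neg_le_abs _).trans b1
  have b3 : ‖core h e Z 1 x 1 z‖ ≤ C * Z ^ (β + 19 / 24 - 1 / 250) * E2 x z := by
    refine (h1 Z x z hZ (le_antisymm a2 a1) (by linarith) (by linarith)).trans ?_
    refine mul_le_mul_of_nonneg_right (mul_le_mul_of_nonneg_left
      (Real.rpow_le_rpow_of_exponent_le hZ ?_) hC) (hE _ _)
    rw [le_antisymm a4 a3]
    unfold ex
    nlinarith
  rw [norm_div, norm_div, Complex.norm_ofNat, div_div, div_le_iff₀ (by linarith)]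
  nlinarith [norm_nonneg (core h e Z 1 x 1 z)]

theorem oneb_linv (c : Ctx β e q η J) : DifferentiableOn ℂ (linv η) {x | β < x.re} :=
  (diffOn_linv (isL_tw c.lev c.tw).1).mono fun x hx => c.zf q η c.lev c.tw x hx

theorem Ph0_diffOn (c : Ctx β e q η J) (h : High q η 1 J) :
    DifferentiableOn ℂ (Ph0 h) {x | β < x.re} := by
  have h1 : Differentiable ℂ fun x : ℂ => LNt 1 (x - 1 / 3) :=
    (differentiable_LNt 1).comp (differentiable_id.sub_const _)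
  refine (h1.differentiableOn.mul (h.H₀_holo.mono fun x hx => ?_)).mul (oneb_linv c)
  have h2 : β < x.re := hx
  have := c.lo
  show 43 / 50 < x.re
  linarith

/-- Gaussian times polynomial (`norm_LNt`, `linv_poly` with `u = 1`, `rc_one`) -/
theorem LNt_linv_le (c : Ctx β e q η J) : ∃ C : ℝ, 0 ≤ C ∧ ∀ x : ℂ, β + e ≤ x.re → x.re ≤ 3 →
    ‖LNt 1 (x - 1 / 3) * linv η x‖ ≤ C * E1 x := by
  have hlo := c.lo
  have he := c.e_pos
  obtain ⟨C, A, hC, hA, h1⟩ := linv_poly (by linarith) c.hi c.zf c.e_pos c.lev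
  obtain ⟨C', hC', h2⟩ := Kera_poly hA
  refine ⟨√(2 * π) * Real.exp (3 ^ 2 / 2 + 1 / 2) * (C * C'), by positivity, fun x hx hx' => ?_⟩
  have h3 := h1 η 1 x c.tw one_ne_zero hx hx'
  rw [rc_one c.lev c.tw, nm_one', one_mul] at h3
  have e1 : (x - 1 / 3).re = x.re - 1 / 3 := by simp
  have e2 : (x - 1 / 3).im = x.im := by simp
  have h4 := Kera_LNt (B := 3) (s := x - 1 / 3) (by rw [e1, abs_le]; constructor <;> linarith)
  rw [e2] at h4
  have h5 := h3.trans (mul_le_mul_of_nonneg_left (h2 _ (abs_nonneg x.im)) hC)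
  have h6 : Real.exp (-|x.im|) * Real.exp (|x.im| / 12) ≤ E1 x := by
    rw [E1, ← Real.exp_add, Real.exp_le_exp]
    linarith [abs_nonneg x.im]
  rw [norm_mul]
  calc _ ≤ √(2 * π) * Real.exp (3 ^ 2 / 2 + 1 / 2) * Real.exp (-|x.im|) *
        (C * (C' * Real.exp (|x.im| / 12))) := by gcongr
    _ = √(2 * π) * Real.exp (3 ^ 2 / 2 + 1 / 2) * (C * C') *
        (Real.exp (-|x.im|) * Real.exp (|x.im| / 12)) := by ring
    _ ≤ _ := by gcongr

theorem oneb_pow {Z : ℝ} (hZ : 0 < Z) (x : ℂ) :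
    (Z : ℂ) ^ (x - 1 / 3) * ((RR Z : ℝ) : ℂ) ^ (2 / 3 : ℂ) * ((KK Z : ℝ) : ℂ) ^ (1 - 1 / 6 : ℂ) =
      (Z ^ (49 / 72 : ℝ) : ℝ) * (Z : ℂ) ^ x := by
  rw [RR, KK, rfa_cpow hZ, rfa_cpow hZ, rfa_cpow (Real.rpow_pos_of_pos hZ _),
    rfa_cpow (Real.rpow_pos_of_pos hZ _), Real.log_rpow hZ, Real.log_rpow hZ,
    Real.rpow_def_of_pos hZ, ofReal_exp, ← Complex.exp_add, ← Complex.exp_add, ← Complex.exp_add]
  congr 1
  push_cast
  ring

/-- `core 1 x 1 (1/6) / 6 = c₂' Z^(49/72) · LNt 1 (x - 1/3) Z^x · linv η x · HH 1 x 1 (1/6)` with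
`c₂' = LNt 1 (2/3) Γ(1/6) c₁^(-1/6) (Lx (one q) 1)² / 6 ≠ 0`; `h.main` with `ε = e`:
`49/72 + β + e + (1/6+e)(2/3+e)(J-1)/J ≤ β + 19/24 - 1/(9J) + 2e`.  `c₂ = (-1)^J c₂'`. -/
theorem one_x (c : Ctx β e q η J) (h : High q η 1 J) : ∃ (c₂ : ℂ) (C : ℝ), c₂ ≠ 0 ∧ 0 ≤ C ∧
    ∀ Z : ℝ, 1 ≤ Z →
    ‖VI (β + e) (fun x => core h e Z 1 x 1 (1 / 6) / 6) -
        c₂ * (Z ^ (49 / 72 : ℝ) : ℝ) * SJ q J e Z * FF h (β + e) Z‖ ≤
      C * Z ^ (β + 19 / 24 - 1 / (9 * J) + 2 * e) := by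
  have hlo := c.lo
  have hhi := c.hi
  have he := c.e_pos
  have he' := c.e_le
  obtain ⟨C₁, hC₁, hG⟩ := LNt_linv_le c
  obtain ⟨C₂, hmain⟩ := h.main e he
  set c' : ℂ := LNt 1 (2 / 3) * Gamma (1 / 6) * (h.c₁ : ℂ) ^ (-(1 / 6) : ℂ) *
    (Lx (one q) 1 * Lx (one q) 1) / 6 with hc'
  have hL := Lx_princ_ne c.lev (isTw_one' q) (princ_one q)
  have hc'0 : c' ≠ 0 := by
    refine div_ne_zero (mul_ne_zero (mul_ne_zero (mul_ne_zero (LNt_ne_zero one_ne_zero _) ?_) ?_)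
      (mul_ne_zero hL hL)) (by norm_num)
    · exact Gamma_ne_zero_of_re_pos (by norm_num)
    · exact cpow_ne_zero_iff.2 (Or.inl (ofReal_ne_zero.2 h.c₁_pos.ne'))
  refine ⟨(-1) ^ J * c', ‖c'‖ * (2 * (C₁ * |C₂|)),
    mul_ne_zero (pow_ne_zero _ (by norm_num)) hc'0, by positivity, fun Z hZ => ?_⟩
  have hZ0 : 0 < Z := by linarith
  set D : ℂ → ℂ := fun x => LNt 1 (x - 1 / 3) * linv η x * (Z : ℂ) ^ x *
    (HH h e Z 1 x 1 (1 / 6) - h.H₀ x * (-1) ^ J * SJ q J e Z) with hD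
  set M : ℝ := (Phi J e Z ^ (2 / 3 + e)) ^ (J - 1) with hM
  have hPhi : 0 < Phi J e Z := by linarith [one_le_Phi (J := J) he hZ]
  have hM0 : 0 ≤ M := by positivity
  have hDle : ∀ x : ℂ, x.re = β + e → ‖D x‖ ≤ C₁ * Z ^ (β + e) * (|C₂| * M) * E1 x := by
    intro x hx
    have h1 := hG x hx.ge (by linarith)
    have h2 := (hmain _ _ _ x (slots_Psl he hZ) (by linarith)).trans
      (mul_le_mul_of_nonneg_right (le_abs_self C₂) hM0)
    have hE : 0 < E1 x := Real.exp_pos _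
    rw [hD, norm_mul, norm_mul, norm_cpow_eq_rpow_re_of_pos hZ0, hx]
    calc _ ≤ C₁ * E1 x * Z ^ (β + e) * (|C₂| * M) := by gcongr; exact h2
      _ = _ := by ring
  have hline : Continuous fun y : ℝ => ((β + e : ℝ) : ℂ) + y * I := by fun_prop
  have hre : ∀ y : ℝ, (((β + e : ℝ) : ℂ) + y * I).re = β + e := fun y => by simp
  have him : ∀ y : ℝ, (((β + e : ℝ) : ℂ) + y * I).im = y := fun y => by simp
  have hcZ : Continuous fun y : ℝ => (Z : ℂ) ^ (((β + e : ℝ) : ℂ) + y * I) :=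
    hline.const_cpow (Or.inl (ofReal_ne_zero.2 hZ0.ne'))
  have hcH₀ : Continuous fun y : ℝ => h.H₀ (((β + e : ℝ) : ℂ) + y * I) :=
    h.H₀_holo.continuousOn.comp_continuous hline fun y => by
      show (43 / 50 : ℝ) < _
      rw [hre]; linarith
  have hcG : Continuous fun y : ℝ => LNt 1 ((((β + e : ℝ) : ℂ) + y * I) - 1 / 3) *
      linv η (((β + e : ℝ) : ℂ) + y * I) :=
    ((differentiable_LNt 1).continuous.comp (hline.sub continuous_const)).mul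
      ((oneb_linv c).continuousOn.comp_continuous hline fun y => by
        show β < _
        rw [hre]; linarith)
  have hcH : Continuous fun y : ℝ => HH h e Z 1 (((β + e : ℝ) : ℂ) + y * I) 1 (1 / 6) :=
    (HH_hol c h hZ (row_one q)).cont.comp_continuous
      (f := fun y : ℝ => ((((β + e : ℝ) : ℂ) + y * I), (1 : ℂ), (1 / 6 : ℂ)))
      (hline.prodMk continuous_const) fun y => Or.inr ⟨by
        show (43 / 50 : ℝ) < _
        rw [hre]; linarith, by norm_num, by norm_num⟩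
  have hint : ∀ (F : ℂ → ℂ) (B : ℝ), (Continuous fun y : ℝ => F (((β + e : ℝ) : ℂ) + y * I)) →
      (∀ x : ℂ, x.re = β + e → ‖F x‖ ≤ B * E1 x) → VInt (β + e) F := by
    intro F B hF hB
    refine (integrable_E1.const_mul B).mono' hF.aestronglyMeasurable
      (Filter.Eventually.of_forall fun y => ?_)
    have := hB _ (hre y)
    rwa [E1, him] at this
  have hiD : VInt (β + e) D :=
    hint D _ ((hcG.mul hcZ).mul (hcH.sub ((hcH₀.mul continuous_const).mul continuous_const))) hDle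
  have hiP : VInt (β + e) fun s => Ph0 h s * (Z : ℂ) ^ s := by
    refine hint _ (C₁ * (3 / 2) * Z ^ (β + e)) ?_ fun x hx => ?_
    · refine ((hcG.mul hcH₀).mul hcZ).congr fun y => ?_
      simp only [Ph0, Pi.mul_apply]
      ring
    · have h1 := hG x hx.ge (by linarith)
      have h2 : ‖h.H₀ x‖ ≤ 3 / 2 := by
        have h3 := h.H₀_near x (by linarith)
        have h4 := norm_add_le (h.H₀ x - 1) 1
        rw [sub_add_cancel, norm_one] at h4
        linarith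
      have hE : 0 < E1 x := Real.exp_pos _
      rw [Ph0, mul_right_comm (LNt _ _), norm_mul, norm_mul, norm_cpow_eq_rpow_re_of_pos hZ0, hx]
      calc _ ≤ C₁ * E1 x * (3 / 2) * Z ^ (β + e) := by gcongr
        _ = _ := by ring
  have hiP' : VInt (β + e) fun s => (-1) ^ J * SJ q J e Z * (Ph0 h s * (Z : ℂ) ^ s) :=
    Integrable.const_mul hiP _
  have hcore : ∀ x : ℂ, x.re = β + e → core h e Z 1 x 1 (1 / 6) / 6 =
      c' * (Z ^ (49 / 72 : ℝ) : ℝ) *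
        (D x + (-1) ^ J * SJ q J e Z * (Ph0 h x * (Z : ℂ) ^ x)) := by
    intro x _
    have e1 : x + 1 / 6 - 1 / 2 = x - 1 / 3 := by ring
    have e2 : (1 : ℂ) + 1 / 6 - 1 / 2 = 2 / 3 := by ring
    have e3 : (6 : ℂ) * (1 / 6) = 1 := by ring
    rw [core, kk, kerH, one_pow, rc_one c.lev c.tw, rc_one c.lev (isTw_one' q), nm_one',
      ofReal_one, one_cpow, e1, e2, e3, hD, Ph0, hc']
    linear_combination (LNt 1 (x - 1 / 3) * LNt 1 (2 / 3) * Gamma (1 / 6) *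
      (h.c₁ : ℂ) ^ (-(1 / 6) : ℂ) * (Lx (one q) 1 * Lx (one q) 1 * linv η x) *
      HH h e Z 1 x 1 (1 / 6) / 6) * oneb_pow hZ0 x
  rw [VI_congr hcore, VI_const_mul, VI_add hiD hiP', VI_const_mul, FF]
  have e4 : ∀ a b s z : ℂ, c' * z * (a + (-1) ^ J * s * b) - (-1) ^ J * c' * z * s * b =
      c' * z * a := fun a b s z => by ring
  rw [e4, norm_mul, norm_mul, Complex.norm_real, Real.norm_of_nonneg (by positivity)]
  have h5 : Z ^ (49 / 72 : ℝ) * (Z ^ (β + e) * M) ≤ Z ^ (β + 19 / 24 - 1 / (9 * J) + 2 * e) := by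
    have hJ : (1 : ℝ) ≤ J := by exact_mod_cast c.J_pos
    rw [hM, Phi, ← Real.rpow_mul hZ0.le, ← Real.rpow_mul_natCast hZ0.le, ← Real.rpow_add hZ0,
      ← Real.rpow_add hZ0, Nat.cast_sub c.J_pos, Nat.cast_one]
    refine Real.rpow_le_rpow_of_exponent_le hZ ?_
    have e5 : (1 / 6 + e) / J * (2 / 3 + e) * (J - 1) =
        1 / 9 - 1 / (9 * J) + (5 / 6 * e + e ^ 2) * (1 - 1 / J) := by
      field_simp
      ring
    have h6 : (5 / 6 * e + e ^ 2) * (1 - 1 / J) ≤ 5 / 6 * e + e ^ 2 :=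
      mul_le_of_le_one_right (by positivity) (sub_le_self _ (by positivity))
    rw [e5]
    nlinarith
  calc _ ≤ ‖c'‖ * Z ^ (49 / 72 : ℝ) * (2 * (C₁ * Z ^ (β + e) * (|C₂| * M))) := by
        gcongr
        exact VI_norm hDle
    _ = ‖c'‖ * (2 * (C₁ * |C₂|)) * (Z ^ (49 / 72 : ℝ) * (Z ^ (β + e) * M)) := by ring
    _ ≤ _ := by gcongr

theorem one_bound (c : Ctx β e q η J) (h : High q η 1 J) : ∃ (c₂ : ℂ) (C : ℝ), c₂ ≠ 0 ∧ 0 ≤ C ∧
    ∀ Z : ℝ, 1 ≤ Z →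
    ‖IU h e Z 1 - c₂ * (Z ^ (49 / 72 : ℝ) : ℝ) * SJ q J e Z * FF h (β + e) Z‖ ≤
      C * (Z ^ (β + 19 / 24 - 1 / 250) + Z ^ (β + 19 / 24 - 1 / (9 * J) + 2 * e)) := by
  obtain ⟨C₁, hC₁, h1⟩ := one_w c h
  obtain ⟨C₂, hC₂, h2⟩ := one_z c h
  obtain ⟨c₂, C₃, hc, hC₃, h3⟩ := one_x c h
  have hπ := Real.pi_pos
  refine ⟨2 * π * (2 * π) ^ 2 * c₂, C₁ + 2 * π * C₂ + 2 * π * (2 * π) ^ 2 * C₃, by
    simp [hc, hπ.ne'], by positivity, fun Z hZ => ?_⟩
  have a1 := h1 Z hZ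
  have a2 := h2 Z hZ
  have a3 := h3 Z hZ
  have a4 : Z ^ (β + 7 / 10) ≤ Z ^ (β + 19 / 24 - 1 / 250) :=
    Real.rpow_le_rpow_of_exponent_le hZ (by linarith)
  have a5 : 0 ≤ Z ^ (β + 19 / 24 - 1 / 250) := by positivity
  have a6 : 0 ≤ Z ^ (β + 19 / 24 - 1 / (9 * J) + 2 * e) := by positivity
  have n1 : ‖(2 * π : ℂ)‖ = 2 * π := by simp [hπ.le]
  generalize I2 (fun x z => core h e Z 1 x 1 z / (6 * z - 1)) (β + e) (17 / 50) = X at a1 a2
  generalize VI (β + e) (fun x => core h e Z 1 x 1 (1 / 6) / 6) = Y at a2 a3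
  generalize Z ^ (β + 19 / 24 - 1 / 250) = P at a2 a4 a5 ⊢
  generalize Z ^ (β + 19 / 24 - 1 / (9 * J) + 2 * e) = Q at a3 a6 ⊢
  rw [show IU h e Z 1 - 2 * π * (2 * π) ^ 2 * c₂ * (Z ^ (49 / 72 : ℝ) : ℝ) * SJ q J e Z *
      FF h (β + e) Z = (IU h e Z 1 - 2 * π * X) + 2 * π * (X - (2 * π) ^ 2 * Y) +
        2 * π * (2 * π) ^ 2 * (Y - c₂ * (Z ^ (49 / 72 : ℝ) : ℝ) * SJ q J e Z * FF h (β + e) Z) by
    ring]
  refine norm_add₃_le.trans ?_
  rw [norm_mul (2 * π : ℂ), norm_mul (2 * π * (2 * π) ^ 2 : ℂ), norm_mul (2 * π : ℂ), norm_pow, n1]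
  calc _ ≤ C₁ * P + 2 * π * (C₂ * P) + 2 * π * (2 * π) ^ 2 * (C₃ * Q) := by
        gcongr
        exact a1.trans (mul_le_mul_of_nonneg_left a4 hC₁)
    _ ≤ C₁ * (P + Q) + 2 * π * (C₂ * (P + Q)) + 2 * π * (2 * π) ^ 2 * (C₃ * (P + Q)) := by
        gcongr <;> linarith
    _ = _ := by ring

end Crest.Agent.R17.Jb
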