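import Crest.Agent.R17.J.Ends

/-! Row 17, block J: pointwise bounds for a row with a zero-free box. -/

set_option autoImplicit false

namespace Crest.Agent.R17.Jb

open Complex MeasureTheory
open scoped Real

variable {β e : ℝ} {q : O} {η : O → ℂ} {J : ℕ}

theorem rowa_om (c : Ctx β e q η J) {b a T : ℝ} (hb : 51 / 100 ≤ b) (hb' : b ≤ 1) {x w z : ℂ}
    (hp : (x, w, z) ∈ TBox (b + 3 * e) a (1 - b - e) (17 / 50) T) : (x, w, z) ∈ Om1 e := by
  have he := c.e_pos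
  have he' := c.e_le
  obtain ⟨⟨h1, -, h3, -, h5, -⟩, -⟩ := hp
  simp only at h1 h3 h5
  refine ⟨?_, ?_, ?_, ?_⟩ <;> simp only <;> linarith

theorem rowa_six {z : ℂ} (hz : 17 / 50 ≤ z.re) : 1 ≤ ‖6 * z - 1‖ := by
  refine le_trans ?_ (Complex.re_le_norm _)
  simp only [sub_re, mul_re, re_ofNat, im_ofNat, zero_mul, sub_zero, one_re]
  linarith

theorem rowa_pw {C A B t : ℝ} (hC : 0 ≤ C) (hAB : A ≤ B) :
    C * (2 + |t|) ^ A ≤ C * (2 + |t|) ^ B :=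
  mul_le_mul_of_nonneg_left
    (Real.rpow_le_rpow_of_exponent_le (by linarith [abs_nonneg t]) hAB) hC

theorem rowa_gen (c : Ctx β e q η J) (h : High q η 1 J) : ∃ C : ℝ, 0 ≤ C ∧
    ∀ (Z b H T : ℝ) (u : O) (x w z : ℂ), 1 ≤ Z → Row q u → 1 < nm u → 51 / 100 ≤ b → b ≤ 1 →
    ZH q u b H → T + 5 ≤ H → (x, w, z) ∈ TBox (b + 3 * e) 3 (1 - b - e) (17 / 50) T →
    ‖core h e Z u x w z / (6 * z - 1)‖ ≤
      C * Z ^ ex x.re (1 - b - e) (17 / 50) * nm u ^ (b - 21 / 25 + 4 * e) *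
        amp q J e Z u z * E3 x w z := by
  have he := c.e_pos
  have he' := c.e_le
  obtain ⟨C₁, A, hC₁, hA, h₁⟩ := c3 (ε := e) c.lev he (by linarith) he
  obtain ⟨C₃, hC₃, h₃⟩ := HH_le c h
  obtain ⟨C₅, hC₅, h₅⟩ := core_le c h (show 0 ≤ A + 3 by positivity)
  refine ⟨C₅ * C₁ * C₁ * C₃, by positivity, ?_⟩
  intro Z b H T u x w z hZ hu h1 hb hb' hz hT hp
  have hΩ := rowa_om c hb hb' hp
  obtain ⟨⟨p1, p2, p3, p4, p5, p6⟩, t1, t2, -⟩ := hp
  simp only at p1 p2 p3 p4 p5 p6 t1 t2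
  have hw : w.re = 1 - b - e := le_antisymm p4 p3
  have hzr : z.re = 17 / 50 := le_antisymm p6 p5
  have hu0 := row_ne_zero hu
  have hN0 : 0 < nm u := by linarith
  have hZ0 : 0 < Z := by linarith
  have hex := row_not_exc hu h1
  obtain ⟨r, hr, hr1, hr2⟩ := exists_rad hu0
  have hr0 : 0 < nm r := by linarith
  have b1 : ‖linv (rc η u) x‖ ≤ C₁ * nm u ^ e * (2 + |x.im|) ^ (A + 3) :=
    ((h₁ u b H η x hu0 hex hb hb' hz c.tw (by linarith)).1 (by linarith) p2).trans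
      (rowa_pw (by positivity) (by linarith))
  have b2 : ‖Lx (rc (one q) (u ^ 5)) w‖ ≤
      C₁ * nm u ^ e * nm r ^ (b + e - 1 / 2) * (2 + |w.im|) ^ (A + 3) :=
    ((h₁ u b H (one q) w hu0 hex hb hb' hz (isTw_one' q) (by linarith)).2 r hr hw).trans
      (rowa_pw (by positivity) (by linarith))
  have b3 := h₃ Z u r x w z hZ hu hr hΩ
  have hm : max 0 (1 / 2 - w.re) = b + e - 1 / 2 := by
    rw [max_eq_right (by linarith), hw]
    ring
  rw [hm] at b3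
  have b4 := h₅ Z _ _ _ u x w z hZ0 hu0 (abs_le.2 ⟨by linarith, by linarith⟩)
    (abs_le.2 ⟨by linarith, by linarith⟩) (by linarith) (by linarith) b1 b2 b3
  rw [norm_div]
  refine (div_le_self (norm_nonneg _) (rowa_six p5)).trans (b4.trans (le_of_eq ?_))
  have e1 : nm r ^ (b + e - 1 / 2) * (nm u / nm r) ^ (b + e - 1 / 2) = nm u ^ (b + e - 1 / 2) := by
    rw [← Real.mul_rpow hr0.le (by positivity), mul_div_cancel₀ _ hr0.ne']
  have e2 : nm u ^ (b - 21 / 25 + 4 * e) =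
      nm u ^ (-z.re) * nm u ^ e * nm u ^ e * nm u ^ e * nm u ^ (b + e - 1 / 2) := by
    rw [← Real.rpow_add hN0, ← Real.rpow_add hN0, ← Real.rpow_add hN0, ← Real.rpow_add hN0, hzr]
    congr 1
    ring
  rw [e2, ← e1, hw, hzr]
  ring

theorem row_hol (c : Ctx β e q η J) (h : High q η 1 J) {Z b H T : ℝ} (hZ : 1 ≤ Z) {u : O}
    (hu : Row q u) (hb : 51 / 100 ≤ b) (hb' : b ≤ 1) (hz : ZH q u b H) (hT : T ≤ H) :
    Hol3 (fun x w z => core h e Z u x w z / (6 * z - 1))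
      (TBox (b + 3 * e) 3 (1 - b - e) (17 / 50) T) := by
  have he := c.e_pos
  refine (core_div_hol c h hZ hu).mono ?_
  rintro ⟨x, w, z⟩ hp
  refine ⟨rowa_om c hb hb' hp, hz η x c.tw ?_ (hp.2.1.trans hT)⟩
  have := hp.1.1
  simp only at this
  linarith

/-- crude bounds: `core_crude` on the full lines `Re x = 3`; on the truncated box `core_le` with `c3`
(`ε = 1`), `Lx_poly`, `HH_le`, `amp_triv`, and `1 ≤ N u ≤ Z` -/
theorem row_crude (c : Ctx β e q η J) (h : High q η 1 J) : ∃ C A : ℝ, 0 ≤ C ∧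
    ∀ (Z b H T : ℝ) (u : O), 1 ≤ Z → Row q u → 1 < nm u → nm u ≤ Z → 51 / 100 ≤ b → b ≤ 1 →
    ZH q u b H → T + 5 ≤ H →
    Dec3 (fun x w z => core h e Z u x w z / (6 * z - 1))
        (Box 3 3 (1 - b - e) (1 - b - e) (17 / 50) (17 / 50)) (C * Z ^ A) ∧
      Dec3 (fun x w z => core h e Z u x w z / (6 * z - 1))
        (TBox (b + 3 * e) 3 (1 - b - e) (17 / 50) T) (C * Z ^ A) := by
  have he := c.e_pos
  have he' := c.e_le
  have hβ := c.hi
  obtain ⟨A, hA, h₁⟩ := core_crude c h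
  obtain ⟨C₁, hC₁, h₁⟩ := h₁ 1
  obtain ⟨C₂, hC₂, h₂⟩ := rowa_gen c h
  obtain ⟨C₄, hC₄, h₄⟩ := amp_triv (q := q) c.J_pos he
  refine ⟨C₁ + C₂ * C₄, A + 6, by positivity, ?_⟩
  intro Z b H T u hZ hu h1 hZu hb hb' hz hT
  have hZ0 : 0 < Z := by linarith
  have hE : ∀ x w z : ℂ, 0 ≤ E3 x w z := fun x w z => (Real.exp_pos _).le
  constructor
  · intro x w z hp
    obtain ⟨p1, p2, p3, p4, p5, p6⟩ := hp
    simp only at p1 p2 p3 p4 p5 p6
    have hΩ : (x, w, z) ∈ Om1 e := by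
      refine ⟨?_, ?_, ?_, ?_⟩ <;> simp only <;> linarith
    refine (h₁ Z u x w z hZ hu hΩ (by linarith) p2 (by linarith) (by linarith)).trans
      (mul_le_mul_of_nonneg_right ?_ (hE _ _ _))
    have a1 : Z ^ (ex x.re w.re z.re + (1 / 6 + e) * (z.re + 1 / 2 + e)) ≤ Z ^ (6 : ℝ) := by
      refine Real.rpow_le_rpow_of_exponent_le hZ ?_
      have : (1 / 6 + e) * (z.re + 1 / 2 + e) ≤ 1 * 1 :=
        mul_le_mul (by linarith) (by linarith) (by linarith) zero_le_one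
      rw [ex]
      linarith
    have a2 : nm u ^ (A - z.re) ≤ Z ^ A :=
      (Real.rpow_le_rpow_of_exponent_le h1.le (by linarith)).trans
        (Real.rpow_le_rpow (by linarith) hZu hA)
    calc _ ≤ C₁ * Z ^ (6 : ℝ) * Z ^ A := by gcongr
      _ = C₁ * Z ^ (A + 6) := by rw [Real.rpow_add hZ0]; ring
      _ ≤ _ := by
        have : 0 ≤ C₂ * C₄ := by positivity
        gcongr
        linarith
  · intro x w z hp
    refine (h₂ Z b H T u x w z hZ hu h1 hb hb' hz hT hp).trans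
      (mul_le_mul_of_nonneg_right ?_ (hE _ _ _))
    obtain ⟨⟨p1, p2, p3, p4, p5, p6⟩, -⟩ := hp
    simp only at p1 p2 p3 p4 p5 p6
    have a1 : Z ^ ex x.re (1 - b - e) (17 / 50) ≤ Z ^ (4 : ℝ) := by
      refine Real.rpow_le_rpow_of_exponent_le hZ ?_
      rw [ex]
      linarith
    have a2 : nm u ^ (b - 21 / 25 + 4 * e) ≤ Z ^ (1 : ℝ) :=
      (Real.rpow_le_rpow_of_exponent_le h1.le (by linarith)).trans
        (Real.rpow_le_rpow (by linarith) hZu zero_le_one)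
    have a3 : amp q J e Z u z ≤ C₄ * Z ^ (1 : ℝ) := by
      refine (h₄ Z u z hZ (by linarith)).trans
        (mul_le_mul_of_nonneg_left (Real.rpow_le_rpow_of_exponent_le hZ ?_) hC₄)
      have : (1 / 6 + e) * (z.re + 1 / 2 + e) ≤ 1 * 1 :=
        mul_le_mul (by linarith) (by linarith) (by linarith) zero_le_one
      linarith
    have a4 := amp_nonneg (q := q) (J := J) (e := e) hZ0.le u z
    have a5 : Z ^ (4 : ℝ) * Z ^ (1 : ℝ) * Z ^ (1 : ℝ) ≤ Z ^ (A + 6) := by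
      rw [← Real.rpow_add hZ0, ← Real.rpow_add hZ0]
      exact Real.rpow_le_rpow_of_exponent_le hZ (by linarith)
    calc _ ≤ C₂ * Z ^ (4 : ℝ) * Z ^ (1 : ℝ) * (C₄ * Z ^ (1 : ℝ)) := by gcongr
      _ = C₂ * C₄ * (Z ^ (4 : ℝ) * Z ^ (1 : ℝ) * Z ^ (1 : ℝ)) := by ring
      _ ≤ (C₁ + C₂ * C₄) * Z ^ (A + 6) := by
        gcongr
        linarith

/-- the fine bound on the final lines: `core_le` (with `A := max 3 A`), both parts of `c3` with `ε = e`,
`HH_le`; the powers of `N r` cancel: `N r^γ (N u / N r)^γ = N u^γ`, `γ = b + e - 1/2`. -/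
theorem row_fine (c : Ctx β e q η J) (h : High q η 1 J) : ∃ C : ℝ, 0 ≤ C ∧
    ∀ (Z b H T : ℝ) (u : O) (x w z : ℂ), 1 ≤ Z → Row q u → 1 < nm u → 51 / 100 ≤ b → b ≤ 1 →
    ZH q u b H → T + 5 ≤ H → (x, w, z) ∈ TBox (b + 3 * e) (b + 3 * e) (1 - b - e) (17 / 50) T →
    ‖core h e Z u x w z / (6 * z - 1)‖ ≤
      C * Z ^ ex (b + 3 * e) (1 - b - e) (17 / 50) * nm u ^ (b - 21 / 25 + 4 * e) *
        amp q J e Z u ((17 / 50 : ℝ) + z.im * I) * E3 x w z := by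
  have he := c.e_pos
  have he' := c.e_le
  obtain ⟨C, hC, h₂⟩ := rowa_gen c h
  refine ⟨C, hC, fun Z b H T u x w z hZ hu h1 hb hb' hz hT hp => ?_⟩
  obtain ⟨⟨p1, p2, p3, p4, p5, p6⟩, t⟩ := hp
  simp only at p1 p2 p3 p4 p5 p6
  have k := h₂ Z b H T u x w z hZ hu h1 hb hb' hz hT
    ⟨⟨p1, by simp only; linarith, p3, p4, p5, p6⟩, t⟩
  have hx : x.re = b + 3 * e := le_antisymm p2 p1
  have hzr : z.re = 17 / 50 := le_antisymm p6 p5
  have e1 : ((17 / 50 : ℝ) : ℂ) + z.im * I = z := by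
    rw [← hzr]
    exact re_add_im z
  rwa [e1, ← hx]

end Crest.Agent.R17.Jb
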