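import Crest.Agent.R17.J.Fin

/-! Row 17, block J: the improvement step. -/

set_option autoImplicit false

namespace Crest.Agent.R17

open Jb

theorem stStep (hH : StHigh) (hG : StGram) (hF : StF) (hK : StCount) : StStep := by
  intro β hβ hβ' hz
  obtain ⟨B₀, hH⟩ := hH
  obtain ⟨C₀, hC₀, hC⟩ := count_floor hK
  have hΔ : 0 < β - 7 / 8 := by linarith
  obtain ⟨J, hJ⟩ := exists_nat_ge (C₀ / (β - 7 / 8) + 1)
  have hq0 : 0 ≤ C₀ / (β - 7 / 8) := div_nonneg hC₀ hΔ.le
  have hJ1 : (1 : ℝ) ≤ J := by linarith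
  have hJ0 : (0 : ℝ) < J := by linarith
  have hJC : C₀ / (6 * J) ≤ (β - 7 / 8) / 6 := by
    rw [div_le_div_iff₀ (by positivity) (by norm_num)]
    have : C₀ / (β - 7 / 8) ≤ J := by linarith
    rw [div_le_iff₀ hΔ] at this
    nlinarith
  set e : ℝ := min (1 / 10000) (min (1 / (36 * J)) ((β - 7 / 8) / (6 * (C₀ + 16)))) with he
  set γ : ℝ := min (1 / 500) (min (1 / (36 * J)) ((β - 7 / 8) / 6)) with hγ
  have he0 : 0 < e := by positivity
  have hγ0 : 0 < γ := by positivity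
  have he1 : e ≤ 1 / 10000 := min_le_left _ _
  have he2 : e ≤ 1 / (36 * J) := (min_le_right _ _).trans (min_le_left _ _)
  have he3 : (C₀ + 16) * e ≤ (β - 7 / 8) / 6 := by
    have : e ≤ (β - 7 / 8) / (6 * (C₀ + 16)) := (min_le_right _ _).trans (min_le_right _ _)
    rw [le_div_iff₀ (by positivity)] at this
    linarith
  have hγ1 : γ ≤ 1 / 500 := min_le_left _ _
  have hγ2 : γ ≤ 1 / (36 * J) := (min_le_right _ _).trans (min_le_left _ _)
  have hγ3 : γ ≤ (β - 7 / 8) / 6 := (min_le_right _ _).trans (min_le_right _ _)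
  have h9 : (1 : ℝ) / (9 * J) = 4 * (1 / (36 * J)) := by field_simp; norm_num
  refine ⟨β - γ, by linarith, fun q η hq hη s hs h0 => ?_⟩
  obtain ⟨q', hq', hqq, hB⟩ := exists_level hq B₀
  obtain ⟨hη', hr⟩ := raise hq hq' hqq hη
  obtain ⟨h⟩ := hH q' _ 1 J hq' hη' hB one_pos
  have c : Ctx β e q' (fun n => η n * one q' n) J :=
    ⟨hβ, hβ', hz, he0, he1, hq', hη', by exact_mod_cast hJ1⟩
  obtain ⟨C, Z₀, hb⟩ := FF_bound hG hF hC₀ hC c h (γ := γ) (by linarith) (by linarith)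
    (by linarith) hγ0.le
  exact zf_of_FF c h (by linarith) (by linarith) hb hs (hr s h0)

end Crest.Agent.R17
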